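import Vale.Agent.P042.Defs

open Finset Polynomial

namespace Vale.Agent.P042

namespace Weyl

lemma ee_add (x y : ℝ) : ee (x + y) = ee x * ee y := by
  unfold ee
  rw [← Complex.exp_add]
  congr 1
  push_cast
  ring

lemma ee_eq (x : ℝ) : ee x = Complex.exp (Complex.I * ((2 * Real.pi * x : ℝ) : ℂ)) := by
  unfold ee
  congr 1
  push_cast
  ring

lemma norm_ee (x : ℝ) : ‖ee x‖ = 1 := by
  rw [ee_eq, Complex.norm_exp_I_mul_ofReal]

lemma ee_int (n : ℤ) : ee n = 1 := by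
  unfold ee
  rw [← Complex.exp_int_mul_two_pi_mul_I n]
  congr 1
  push_cast
  ring

lemma ee_sub (x y : ℝ) : ee (x - y) = ee x * (starRingEnd ℂ) (ee y) := by
  unfold ee
  rw [← Complex.exp_conj, ← Complex.exp_add]
  congr 1
  simp only [map_mul, Complex.conj_ofReal, Complex.conj_I, map_ofNat]
  push_cast
  ring

lemma ee_nat_mul (n : ℕ) (x : ℝ) : ee (x * n) = ee x ^ n := by
  unfold ee
  rw [← Complex.exp_nat_mul]
  congr 1
  push_cast
  ring

lemma norm_ee_sub_one (x : ℝ) : 4 * |x - round x| ≤ ‖ee x - 1‖ := by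
  have h1 : ee x = ee (x - round x) := by
    have := ee_add (x - round x) (round x)
    rw [ee_int, mul_one, sub_add_cancel] at this
    exact this
  have h2 := abs_sub_round x
  rw [h1]
  generalize x - round x = y at *
  rw [ee_eq, Complex.norm_exp_I_mul_ofReal_sub_one, Real.norm_eq_abs, abs_mul, abs_two,
    show 2 * Real.pi * y / 2 = Real.pi * y by ring]
  have hpi := Real.pi_pos
  have h3 : |Real.pi * y| ≤ Real.pi / 2 := by
    rw [abs_mul, abs_of_pos hpi]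
    nlinarith
  have h4 := Real.mul_abs_le_abs_sin h3
  rw [abs_mul, abs_of_pos hpi, show 2 / Real.pi * (Real.pi * |y|) = 2 * |y| by field_simp] at h4
  linarith

lemma linear_case (α β : ℝ) (N : ℕ) :
    ‖∑ n ∈ range N, ee (α * n + β)‖ * (2 * |α - round α|) ≤ 1 := by
  have e : ∑ n ∈ range N, ee (α * n + β) = (∑ n ∈ range N, ee α ^ n) * ee β := by
    rw [sum_mul]
    exact sum_congr rfl fun n _ => by rw [ee_add, ee_nat_mul]
  have h1 : ‖∑ n ∈ range N, ee α ^ n‖ * ‖ee α - 1‖ ≤ 2 := by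
    rw [← norm_mul, geom_sum_mul]
    refine (norm_sub_le _ _).trans ?_
    rw [norm_pow, norm_ee, one_pow, norm_one]
    norm_num
  rw [e, norm_mul, norm_ee, mul_one]
  have h2 := mul_le_mul_of_nonneg_left (norm_ee_sub_one α) (norm_nonneg (∑ n ∈ range N, ee α ^ n))
  linarith

lemma diff_eq (a : ℕ → ℂ) (N : ℕ) :
    ∑ m ∈ range N, ∑ n ∈ range m, a m * (starRingEnd ℂ) (a n) =
      ∑ h ∈ range N, ∑ n ∈ range (N - (h + 1)), a (n + (h + 1)) * (starRingEnd ℂ) (a n) := by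
  induction N with
  | zero => simp
  | succ N ih =>
    rw [sum_range_succ, ih, sum_range_succ _ N, Nat.sub_self, range_zero, sum_empty, add_zero,
      ← sum_range_reflect (fun n => a N * (starRingEnd ℂ) (a n)), ← sum_add_distrib]
    refine sum_congr rfl fun h hh => ?_
    have hh' := mem_range.1 hh
    rw [show N + 1 - (h + 1) = N - (h + 1) + 1 by omega, sum_range_succ,
      show N - (h + 1) + (h + 1) = N by omega, show N - 1 - h = N - (h + 1) by omega]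

lemma sq_le (a : ℕ → ℂ) (ha : ∀ n, ‖a n‖ = 1) (N : ℕ) :
    ‖∑ n ∈ range N, a n‖ ^ 2 =
      N + 2 * (∑ m ∈ range N, ∑ n ∈ range m, a m * (starRingEnd ℂ) (a n)).re := by
  induction N with
  | zero => simp
  | succ N ih =>
    rw [sum_range_succ, sum_range_succ, Complex.add_re, ← mul_sum, ← map_sum, add_comm _ (a N),
      Complex.sq_norm, Complex.normSq_add, ← Complex.sq_norm, ← Complex.sq_norm, ih, ha]
    push_cast
    ring

lemma differencing (a : ℕ → ℂ) (ha : ∀ n, ‖a n‖ = 1) {N Z : ℕ} (hN : N ≤ Z) :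
    ‖∑ n ∈ range N, a n‖ ^ 2 ≤
      Z + 2 * ∑ h ∈ Icc 1 Z, ‖∑ n ∈ range (N - h), a (n + h) * (starRingEnd ℂ) (a n)‖ := by
  rw [sq_le a ha, diff_eq]
  have h1 : (N : ℝ) ≤ Z := by exact_mod_cast hN
  have h2 : (∑ h ∈ range N, ∑ n ∈ range (N - (h + 1)),
      a (n + (h + 1)) * (starRingEnd ℂ) (a n)).re ≤
      ∑ h ∈ Icc 1 Z, ‖∑ n ∈ range (N - h), a (n + h) * (starRingEnd ℂ) (a n)‖ := by
    refine (Complex.re_le_norm _).trans ((norm_sum_le _ _).trans ?_)
    rw [← Finset.Ico_add_one_right_eq_Icc, sum_Ico_eq_sum_range, Nat.add_sub_cancel]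
    simp only [add_comm 1]
    exact sum_le_sum_of_subset_of_nonneg (range_subset_range.2 hN) fun _ _ _ => norm_nonneg _
  linarith

lemma vinogradov {H : Finset ℕ} {Z : ℕ} {u ε β : ℝ} (hu : 1 ≤ u) (hZ : 2 * u < Z) (hε : 0 ≤ ε)
    (hε1 : 2 ^ 10 * u ^ 3 * ε ≤ 1) (hH : H ⊆ Icc 1 Z) (hc : (Z : ℝ) ≤ u * H.card)
    (hd : ∀ h ∈ H, ∃ b : ℤ, |(h : ℝ) * β - b| ≤ ε) :
    ∃ q : ℕ, 1 ≤ q ∧ (q : ℝ) ≤ 3 * u ∧ ∃ b : ℤ, |(q : ℝ) * β - b| * Z ≤ 2 ^ 7 * u ^ 3 * ε := by
  have hu0 : 0 < u := by linarith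
  have hu3 : 1 ≤ u ^ 3 := one_le_pow₀ hu
  have hε2 : ε ≤ 1 / 2 ^ 10 := by nlinarith
  have hdiff : ∀ h ∈ H, ∀ h' ∈ H, h ≤ h' → ∃ b : ℤ, |((h' - h : ℕ) : ℝ) * β - b| ≤ 2 * ε := by
    intro h hh h' hh' hle
    obtain ⟨b, hb⟩ := hd h hh
    obtain ⟨b', hb'⟩ := hd h' hh'
    refine ⟨b' - b, ?_⟩
    rw [Nat.cast_sub hle]
    push_cast
    rw [abs_le] at *
    constructor <;> linarith [hb.1, hb.2, hb'.1, hb'.2]
  obtain ⟨q, hq1, hq2, b, hb⟩ : ∃ q : ℕ, 1 ≤ q ∧ (q : ℝ) ≤ 3 * u ∧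
      ∃ b : ℤ, |(q : ℝ) * β - b| ≤ 2 * ε := by
    obtain ⟨l, hl⟩ : ∃ l, l = ⌈2 * u⌉₊ := ⟨_, rfl⟩
    have hl1 : 2 * u ≤ l := hl ▸ Nat.le_ceil _
    have hl2 : (l : ℝ) < 2 * u + 1 := hl ▸ Nat.ceil_lt_add_one (by positivity)
    have hl0 : 0 < l := by
      have : (0 : ℝ) < l := by linarith
      exact_mod_cast this
    have hcard : (range (Z / l + 1)).card < H.card := by
      rw [card_range]
      have h1 : ((Z / l : ℕ) : ℝ) ≤ Z / l := Nat.cast_div_le
      have h2 : (Z : ℝ) / l ≤ Z / (2 * u) :=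
        div_le_div_of_nonneg_left (by positivity) (by positivity) hl1
      have h3 : (Z : ℝ) / (2 * u) + 1 < H.card := by
        rw [div_add_one (by positivity), div_lt_iff₀ (by positivity)]
        linarith
      have : ((Z / l + 1 : ℕ) : ℝ) < H.card := by push_cast; linarith
      exact_mod_cast this
    obtain ⟨h, hh, h', hh', hne, he⟩ := exists_ne_map_eq_of_card_lt_of_maps_to hcard
      (f := fun h => h / l) (fun h hh => by
        simp only [coe_range, Set.mem_Iio]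
        exact Nat.lt_succ_of_le (Nat.div_le_div_right (mem_Icc.1 (hH hh)).2))
    wlog hlt : h < h' generalizing h h'
    · exact this h' hh' h hh hne.symm he.symm (lt_of_le_of_ne (not_lt.1 hlt) hne.symm)
    have h4 : h' - h < l := by
      have e1 := Nat.div_add_mod h l
      have e2 := Nat.div_add_mod h' l
      have e3 := Nat.mod_lt h' hl0
      rw [← he] at e2
      omega
    refine ⟨h' - h, by omega, ?_, hdiff h hh h' hh' hlt.le⟩
    have : ((h' - h : ℕ) : ℝ) ≤ l := by exact_mod_cast h4.le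
    linarith
  refine ⟨q, hq1, hq2, b, ?_⟩
  obtain ⟨γ, hγ⟩ : ∃ γ, γ = |(q : ℝ) * β - b| := ⟨_, rfl⟩
  rw [← hγ] at hb ⊢
  rcases (show 0 ≤ γ from hγ ▸ abs_nonneg _).eq_or_lt with h0 | h0
  · rw [← h0, zero_mul]; positivity
  have hq0 : (1 : ℝ) ≤ q := by exact_mod_cast hq1
  obtain ⟨L, hL⟩ : ∃ L, L = ⌊1 / (4 * γ)⌋₊ := ⟨_, rfl⟩
  have hL1 : (L : ℝ) * γ ≤ 1 / 4 := by
    have : (L : ℝ) ≤ 1 / (4 * γ) := hL ▸ Nat.floor_le (by positivity)
    rw [le_div_iff₀ (by positivity)] at this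
    linarith
  have hL0 : 1 ≤ L := by
    rw [hL]
    refine Nat.le_floor ?_
    rw [Nat.cast_one, le_div_iff₀ (by positivity)]
    linarith
  have hL2 : 1 ≤ 8 * γ * L := by
    have h1 : 1 / (4 * γ) < L + 1 := hL ▸ Nat.lt_floor_add_one _
    have h2 : (1 : ℝ) ≤ L := by exact_mod_cast hL0
    rw [div_lt_iff₀ (by positivity)] at h1
    nlinarith
  have hfib : ∀ y ∈ range q ×ˢ range (Z / L + 1),
      ((H.filter fun h => (h % q, h / L) = y).card : ℝ) ≤ 4 * q * ε / γ := by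
    intro y _
    rcases (H.filter fun h => (h % q, h / L) = y).eq_empty_or_nonempty with he | hne
    · rw [he, card_empty, Nat.cast_zero]; positivity
    obtain ⟨h₀, hh₀, hmin⟩ := exists_min_image _ id hne
    have hsub : (H.filter fun h => (h % q, h / L) = y) ⊆ Icc h₀ (h₀ + ⌊2 * q * ε / γ⌋₊) := by
      intro h hh
      have hle : h₀ ≤ h := hmin h hh
      obtain ⟨m1, m2⟩ := mem_filter.1 hh
      obtain ⟨m3, m4⟩ := mem_filter.1 hh₀
      have e := m4.trans m2.symm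
      have e1 : h₀ % q = h % q := congrArg Prod.fst e
      have e2 : h₀ / L = h / L := congrArg Prod.snd e
      obtain ⟨k, hk⟩ : q ∣ h - h₀ := (Nat.modEq_iff_dvd' hle).1 e1
      have h4 : h - h₀ < L := by
        have e1 := Nat.div_add_mod h L
        have e3 := Nat.div_add_mod h₀ L
        have e4 := Nat.mod_lt h hL0
        rw [e2] at e3
        omega
      have h5 : k ≤ L := by
        have : k ≤ q * k := Nat.le_mul_of_pos_left k hq1
        omega
      have h6 : (k : ℝ) * γ ≤ 1 / 4 :=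
        (mul_le_mul_of_nonneg_right (by exact_mod_cast h5) h0.le).trans hL1
      obtain ⟨c, hc⟩ := hdiff h₀ m3 h m1 hle
      have h7 : |(k : ℝ) * (q * β - b)| = k * γ := by
        rw [abs_mul, Nat.abs_cast, hγ]
      have h8 : |(k : ℝ) * (q * β - b) - ((c - k * b : ℤ) : ℝ)| ≤ 2 * ε := by
        rw [hk] at hc
        push_cast at hc ⊢
        rwa [show (k : ℝ) * (q * β - b) - (c - k * b) = q * k * β - c by ring]
      have h9 : c - k * b = 0 := by
        have : |((c - k * b : ℤ) : ℝ)| < 1 := by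
          have := abs_sub_abs_le_abs_sub ((c - k * b : ℤ) : ℝ) ((k : ℝ) * (q * β - b))
          rw [abs_sub_comm ((c - k * b : ℤ) : ℝ)] at this
          linarith
        exact Int.abs_lt_one_iff.1 (by exact_mod_cast this)
      rw [h9, Int.cast_zero, sub_zero, h7] at h8
      have h10 : h - h₀ ≤ ⌊2 * q * ε / γ⌋₊ := by
        refine Nat.le_floor ?_
        rw [hk, le_div_iff₀ h0]
        push_cast
        nlinarith
      exact mem_Icc.2 ⟨hle, by omega⟩
    have h1 := card_le_card hsub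
    rw [Nat.card_Icc, show h₀ + ⌊2 * q * ε / γ⌋₊ + 1 - h₀ = ⌊2 * q * ε / γ⌋₊ + 1 by omega] at h1
    have h2 : ((⌊2 * q * ε / γ⌋₊ : ℕ) : ℝ) ≤ 2 * q * ε / γ := Nat.floor_le (by positivity)
    have h3 : 1 ≤ 2 * q * ε / γ := by
      rw [le_div_iff₀ h0]
      nlinarith
    have h4 : ((H.filter fun h => (h % q, h / L) = y).card : ℝ) ≤ ⌊2 * q * ε / γ⌋₊ + 1 := by
      exact_mod_cast h1
    have : 4 * q * ε / γ = 2 * q * ε / γ + 2 * q * ε / γ := by ring
    linarith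
  have hcard : (H.card : ℝ) ≤ q * (8 * γ * Z + 1) * (4 * q * ε / γ) := by
    rw [card_eq_sum_card_fiberwise (f := fun h => (h % q, h / L))
      (t := range q ×ˢ range (Z / L + 1)) (fun h hh => by
        simp only [coe_product, coe_range, Set.mem_prod, Set.mem_Iio]
        exact ⟨Nat.mod_lt _ hq1,
          Nat.lt_succ_of_le (Nat.div_le_div_right (mem_Icc.1 (hH hh)).2)⟩)]
    push_cast
    refine (sum_le_card_nsmul _ _ _ hfib).trans ?_
    rw [nsmul_eq_mul, card_product, card_range, card_range]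
    refine mul_le_mul_of_nonneg_right ?_ (by positivity)
    push_cast
    refine mul_le_mul_of_nonneg_left ?_ (by positivity)
    have h1 : ((Z / L : ℕ) : ℝ) ≤ Z / L := Nat.cast_div_le
    have h2 : (Z : ℝ) / L ≤ 8 * γ * Z := by
      rw [div_le_iff₀ (by exact_mod_cast hL0)]
      nlinarith [Nat.cast_nonneg (α := ℝ) Z]
    linarith
  have h1 : (H.card : ℝ) * γ ≤ q ^ 2 * (4 * ε * (8 * γ * Z + 1)) := by
    have := mul_le_mul_of_nonneg_right hcard h0.le
    rwa [show q * (8 * γ * Z + 1) * (4 * q * ε / γ) * γ = q ^ 2 * (4 * ε * (8 * γ * Z + 1)) by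
      field_simp] at this
  have h2 : (q : ℝ) ^ 2 * (4 * ε * (8 * γ * Z + 1)) ≤ (3 * u) ^ 2 * (4 * ε * (8 * γ * Z + 1)) :=
    mul_le_mul_of_nonneg_right (pow_le_pow_left₀ (by positivity) hq2 2) (by positivity)
  have h3 := mul_le_mul_of_nonneg_right hc h0.le
  have h4 := mul_le_mul_of_nonneg_left (h1.trans h2) hu0.le
  have h5 := mul_le_mul_of_nonneg_right hε1 (show 0 ≤ γ * Z by positivity)
  have h6 : 0 ≤ γ * Z := by positivity
  have h7 : 0 ≤ u ^ 3 * ε := by positivity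
  nlinarith

lemma taylor_sub {j : ℕ} {F : ℝ[X]} (hF : F.natDegree ≤ j + 1) (h : ℝ) :
    (taylor h F - F).natDegree ≤ j ∧
      (taylor h F - F).coeff j = h * ((j + 1) * F.coeff (j + 1)) := by
  constructor
  · rw [natDegree_le_iff_coeff_eq_zero]
    intro m hm
    have h1 : (hasseDeriv m F).natDegree < 1 := by
      have := natDegree_hasseDeriv_le F m
      omega
    rw [coeff_sub, taylor_coeff, eval_eq_sum_range' h1]
    simp [hasseDeriv_coeff]
  · have h1 : (hasseDeriv j F).natDegree < 2 := by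
      have := natDegree_hasseDeriv_le F j
      omega
    rw [coeff_sub, taylor_coeff, eval_eq_sum_range' h1]
    simp [hasseDeriv_coeff, sum_range_succ, add_comm 1 j]
    ring

lemma aux (j : ℕ) : ∃ C : ℕ, ∀ t : ℝ, 2 ≤ t →
    ∀ F : ℝ[X], F.natDegree ≤ j + 1 → ∀ Z Z' : ℕ, Z' ≤ Z → t ^ C ≤ Z →
    Z ≤ t * ‖∑ n ∈ range Z', ee (F.eval (n : ℝ))‖ →
    ∃ q : ℕ, 1 ≤ q ∧ (q : ℝ) ≤ t ^ C ∧
      ∃ b : ℤ, |(q : ℝ) * F.coeff (j + 1) - b| * (Z : ℝ) ^ (j + 1) ≤ t ^ C := by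
  induction j with
  | zero =>
    refine ⟨1, fun t ht F hF Z Z' _ _ hS => ⟨1, le_rfl, by simp; linarith,
      round (F.coeff 1), ?_⟩⟩
    have e : ∀ n : ℕ, F.eval (n : ℝ) = F.coeff 1 * n + F.coeff 0 := fun n => by
      rw [eval_eq_sum_range' (show F.natDegree < 2 by omega)]
      simp [sum_range_succ, add_comm]
    simp only [e] at hS
    have h1 := linear_case (F.coeff 1) (F.coeff 0) Z'
    have h2 := mul_le_mul_of_nonneg_left hS (abs_nonneg (F.coeff 1 - round (F.coeff 1)))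
    have h3 := mul_le_mul_of_nonneg_left h1 (show 0 ≤ t by linarith)
    simp only [zero_add, Nat.cast_one, one_mul, pow_one]
    linarith
  | succ j ih =>
    obtain ⟨C, hC⟩ := ih
    refine ⟨20 * C + 25 + j, fun t ht F hF Z Z' hZ' hZ hS => ?_⟩
    have ht0 : 0 < t := by linarith
    have ht1 : 1 ≤ t := by linarith
    have hpow : ∀ {a b : ℕ}, a ≤ b → t ^ a ≤ t ^ b := fun h => pow_le_pow_right₀ ht1 h
    have h2pow : ∀ a : ℕ, (2 : ℝ) ^ a ≤ t ^ a := fun a => pow_le_pow_left₀ (by norm_num) ht a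
    have hZ0 : (0 : ℝ) < Z := lt_of_lt_of_le (pow_pos ht0 _) hZ
    have hZ1 : (1 : ℝ) ≤ Z := (one_le_pow₀ ht1).trans hZ
    obtain ⟨S, hSdef⟩ : ∃ S : ℕ → ℝ,
        S = fun h : ℕ => ‖∑ n ∈ range (Z' - h), ee ((taylor (h : ℝ) F - F).eval (n : ℝ))‖ :=
      ⟨_, rfl⟩
    have hS0 : ∀ h, S h ≤ Z := fun h => by
      rw [hSdef]
      refine (norm_sum_le _ _).trans ?_
      simp only [norm_ee, sum_const, card_range, nsmul_eq_mul, mul_one, Nat.cast_le]
      omega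
    have hdiff : ‖∑ n ∈ range Z', ee (F.eval (n : ℝ))‖ ^ 2 ≤ Z + 2 * ∑ h ∈ Icc 1 Z, S h := by
      have := differencing (fun n : ℕ => ee (F.eval (n : ℝ))) (fun _ => norm_ee _) hZ'
      simp only [← ee_sub] at this
      simpa only [hSdef, eval_sub, taylor_eval, Nat.cast_add] using this
    obtain ⟨H₀, hH₀⟩ : ∃ H₀, H₀ = (Icc 1 Z).filter fun h => (Z : ℝ) ≤ t ^ 5 * S h := ⟨_, rfl⟩
    have hsum : t ^ 5 * ∑ h ∈ Icc 1 Z, S h ≤ t ^ 5 * (H₀.card * Z) + Z * Z := by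
      rw [← sum_filter_add_sum_filter_not (Icc 1 Z) fun h => (Z : ℝ) ≤ t ^ 5 * S h, ← hH₀, mul_add]
      refine add_le_add (mul_le_mul_of_nonneg_left ?_ (by positivity)) ?_
      · simpa using sum_le_card_nsmul H₀ S Z fun h _ => hS0 h
      · rw [mul_sum]
        refine (sum_le_card_nsmul _ _ (Z : ℝ) fun h hh => (not_le.1 (mem_filter.1 hh).2).le).trans ?_
        rw [nsmul_eq_mul]
        refine mul_le_mul_of_nonneg_right ?_ hZ0.le
        have := card_filter_le (Icc 1 Z) fun h => ¬ (Z : ℝ) ≤ t ^ 5 * S h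
        rw [Nat.card_Icc, Nat.add_sub_cancel] at this
        exact_mod_cast this
    have hcard : (Z : ℝ) ≤ t ^ 5 * H₀.card := by
      have a1 : (Z : ℝ) ^ 2 ≤ t ^ 2 * (Z + 2 * ∑ h ∈ Icc 1 Z, S h) := by
        have := pow_le_pow_left₀ hZ0.le hS 2
        rw [mul_pow] at this
        exact this.trans (mul_le_mul_of_nonneg_left hdiff (by positivity))
      have a2 : t ^ 3 ≤ Z := (hpow (by omega)).trans hZ
      have a3 : (8 : ℝ) ≤ t ^ 3 := by have := h2pow 3; linarith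
      have a4 := mul_le_mul_of_nonneg_left a1 (show 0 ≤ t ^ 3 by positivity)
      have a5 : 2 * t ^ 2 * Z ≤ Z * Z :=
        mul_le_mul_of_nonneg_right (by nlinarith [sq_nonneg t]) hZ0.le
      have a6 := mul_le_mul_of_nonneg_left a5 (show 0 ≤ t ^ 3 by positivity)
      have a7 := mul_le_mul_of_nonneg_right a3 (show 0 ≤ (Z : ℝ) * Z by positivity)
      have : (Z : ℝ) * Z ≤ t ^ 5 * H₀.card * Z := by nlinarith
      exact le_of_mul_le_mul_right this hZ0
    have ht5 : 2 ≤ t ^ 5 := ht.trans (by simpa using hpow (show 1 ≤ 5 by norm_num))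
    have hall : ∀ h : ℕ, ∃ q : ℕ, h ∈ H₀ → 1 ≤ q ∧ (q : ℝ) ≤ (t ^ 5) ^ C ∧ ∃ b : ℤ,
        |(h : ℝ) * (q * ((j + 1 : ℕ) + 1) * F.coeff (j + 1 + 1)) - b| * (Z : ℝ) ^ (j + 1) ≤
          (t ^ 5) ^ C := by
      intro h
      by_cases hh : h ∈ H₀
      · obtain ⟨k1, k2⟩ := taylor_sub hF (h : ℝ)
        rw [hH₀, hSdef] at hh
        obtain ⟨q, q1, q2, b, hb⟩ := hC (t ^ 5) ht5 _ k1 Z (Z' - h) (by omega)
          (by rw [← pow_mul]; exact (hpow (by omega)).trans hZ) (mem_filter.1 hh).2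
        refine ⟨q, fun _ => ⟨q1, q2, b, ?_⟩⟩
        rwa [k2, show (q : ℝ) * (h * (((j + 1 : ℕ) + 1) * F.coeff (j + 1 + 1))) =
          h * (q * ((j + 1 : ℕ) + 1) * F.coeff (j + 1 + 1)) by ring] at hb
      · exact ⟨0, fun h => (hh h).elim⟩
    choose qq hqq using hall
    have hQ1 : (1 : ℝ) ≤ (t ^ 5) ^ C := one_le_pow₀ (by linarith)
    obtain ⟨q, hq, hqc⟩ := exists_le_card_fiber_of_nsmul_le_card_of_maps_to (s := H₀)
      (t := Icc 1 ⌊(t ^ 5) ^ C⌋₊) (f := qq) (b := (H₀.card : ℝ) / (t ^ 5) ^ C)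
      (fun h hh => mem_Icc.2 ⟨(hqq h hh).1, Nat.le_floor (hqq h hh).2.1⟩)
      ⟨1, mem_Icc.2 ⟨le_rfl, Nat.le_floor (by simpa using hQ1)⟩⟩ (by
        rw [nsmul_eq_mul, Nat.card_Icc, Nat.add_sub_cancel, mul_div_assoc',
          div_le_iff₀ (by positivity), mul_comm]
        exact mul_le_mul_of_nonneg_left (Nat.floor_le (by positivity)) (by positivity))
    have hq2 : (q : ℝ) ≤ (t ^ 5) ^ C :=
      (Nat.cast_le.2 (mem_Icc.1 hq).2).trans (Nat.floor_le (by positivity))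
    have hZj : (Z : ℝ) ≤ Z ^ (j + 1) := by
      simpa using pow_le_pow_right₀ hZ1 (show 1 ≤ j + 1 by omega)
    obtain ⟨q', q1, q2, b, hb⟩ := vinogradov (H := H₀.filter fun h => qq h = q) (Z := Z)
      (u := (t ^ 5) ^ (C + 1)) (ε := (t ^ 5) ^ C / (Z : ℝ) ^ (j + 1))
      (β := q * ((j + 1 : ℕ) + 1) * F.coeff (j + 1 + 1)) (one_le_pow₀ (by linarith)) (by
        have a1 : t ^ (5 * (C + 1) + 2) ≤ Z := (hpow (by omega)).trans hZ
        rw [← pow_mul]
        rw [pow_add] at a1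
        have a2 : 0 < t ^ (5 * (C + 1)) := by positivity
        have a3 := mul_le_mul_of_nonneg_left (h2pow 2) a2.le
        linarith) (by positivity) (by
        rw [mul_div_assoc', div_le_one (by positivity)]
        refine le_trans ?_ (hZ.trans hZj)
        refine le_trans (mul_le_mul_of_nonneg_right (mul_le_mul_of_nonneg_right (h2pow 10)
          (by positivity)) (by positivity)) ?_
        simp only [← pow_mul, ← pow_add]
        exact hpow (by omega))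
      ((filter_subset _ _).trans (hH₀ ▸ filter_subset _ _)) (by
        rw [div_le_iff₀ (by positivity)] at hqc
        refine hcard.trans ?_
        rw [pow_succ' (t ^ 5), mul_assoc, mul_comm ((t ^ 5) ^ C)]
        exact mul_le_mul_of_nonneg_left hqc (by positivity)) (by
        intro h hh
        obtain ⟨m1, m2⟩ := mem_filter.1 hh
        obtain ⟨-, -, b, hb⟩ := hqq h m1
        rw [m2] at hb
        exact ⟨b, by rwa [le_div_iff₀ (by positivity)]⟩)
    refine ⟨q' * (q * (j + 2)), Nat.mul_pos q1 (Nat.mul_pos (mem_Icc.1 hq).1 (by omega)), ?_, b, ?_⟩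
    · have a1 : ((j + 2 : ℕ) : ℝ) ≤ t ^ (j + 2) := by
        refine le_trans ?_ (h2pow _)
        exact_mod_cast (Nat.lt_two_pow_self).le
      have a2 : (q' : ℝ) ≤ t ^ 2 * (t ^ 5) ^ (C + 1) :=
        q2.trans (mul_le_mul_of_nonneg_right (by nlinarith) (by positivity))
      rw [Nat.cast_mul, Nat.cast_mul]
      refine (mul_le_mul a2 (mul_le_mul hq2 a1 (by positivity) (by positivity)) (by positivity)
        (by positivity)).trans ?_
      simp only [← pow_mul, ← pow_add]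
      exact hpow (by omega)
    · rw [mul_div_assoc', le_div_iff₀ (by positivity)] at hb
      have e : ((q' * (q * (j + 2)) : ℕ) : ℝ) * F.coeff (j + 1 + 1) =
          q' * (q * ((j + 1 : ℕ) + 1) * F.coeff (j + 1 + 1)) := by push_cast; ring
      rw [e, pow_succ' (Z : ℝ), ← mul_assoc]
      refine hb.trans ?_
      refine le_trans (mul_le_mul_of_nonneg_right (mul_le_mul_of_nonneg_right (h2pow 7)
        (by positivity)) (by positivity)) ?_
      simp only [← pow_mul, ← pow_add]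
      exact hpow (by omega)

end Weyl

/-- Inverse form of Weyl's inequality. -/
theorem weyl_inv (j : ℕ) (hj : 1 ≤ j) : ∃ C : ℕ, ∀ δ : ℝ, 0 < δ → δ ≤ 1 / 2 →
    ∀ F : ℝ[X], F.natDegree ≤ j → ∀ Z Z' : ℕ, Z' ≤ Z → δ⁻¹ ^ C ≤ Z →
    δ * Z ≤ ‖∑ n ∈ range Z', ee (F.eval (n : ℝ))‖ →
    ∃ q : ℕ, 1 ≤ q ∧ (q : ℝ) ≤ δ⁻¹ ^ C ∧
      ∃ b : ℤ, |(q : ℝ) * F.coeff j - b| ≤ δ⁻¹ ^ C / (Z : ℝ) ^ j := by
  obtain ⟨j, rfl⟩ := Nat.exists_eq_add_of_le' hj
  obtain ⟨C, hC⟩ := Weyl.aux j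
  refine ⟨C, fun δ h0 h1 F hF Z Z' hZ' hZ hS => ?_⟩
  have ht : 2 ≤ δ⁻¹ := by
    rw [le_inv_comm₀ (by norm_num) h0]
    linarith
  have hZ0 : (0 : ℝ) < Z := lt_of_lt_of_le (by positivity) hZ
  obtain ⟨q, q1, q2, b, hb⟩ := hC δ⁻¹ ht F hF Z Z' hZ' hZ (by
    rwa [le_inv_mul_iff₀ h0])
  exact ⟨q, q1, q2, b, by rwa [le_div_iff₀ (by positivity)]⟩

end Vale.Agent.P042
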