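import Mathlib

/-!
Definitions for the power saving bound for intersective polynomial differences.
-/

open Finset Polynomial

namespace Vale.Agent.P042

noncomputable section

/-! ### Basic arithmetic notions -/

/-- `ee x = exp (2 pi i x)`. -/
def ee (x : ℝ) : ℂ := Complex.exp (2 * Real.pi * Complex.I * x)

/-- sum of the absolute values of the coefficients -/
def ht (g : ℤ[X]) : ℤ := ∑ i ∈ range (g.natDegree + 1), |g.coeff i|

/-- intersective -/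
def Inters (g : ℤ[X]) : Prop := ∀ q : ℕ, 1 ≤ q → ∃ t : ℤ, (q : ℤ) ∣ g.eval t

/-- nonconstant modulo `p` -/
def NC (g : ℤ[X]) (p : ℕ) : Prop := ∃ j : ℕ, 1 ≤ j ∧ ¬ (p : ℤ) ∣ g.coeff j

/-- `G` is injective modulo every power of `l` -/
def Inj (G : ℤ[X]) (l : ℕ) : Prop :=
  ∀ (E : ℕ) (a b : ℤ), (l : ℤ) ^ E ∣ G.eval a - G.eval b → (l : ℤ) ^ E ∣ a - b

/-- forward difference of `G` at `n` -/
def dlt (G : ℤ[X]) (n : ℕ) : ℤ := G.eval ((n : ℤ) + 1) - G.eval (n : ℤ)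

/-- evaluation modulo `p` -/
def evm (p : ℕ) (g : ℤ[X]) (n : ZMod p) : ZMod p := (g.map (Int.castRingHom (ZMod p))).eval n

/-- number of regular preimages of `d` modulo `p` -/
def kern (p : ℕ) [NeZero p] (g : ℤ[X]) (d : ZMod p) : ℝ :=
  ((univ.filter fun n : ZMod p => evm p g n = d ∧ evm p (derivative g) n ≠ 0).card : ℝ)

/-- push-forward of the weight `v` under `g` modulo `p` -/
def push (p : ℕ) [NeZero p] (g : ℤ[X]) (v : ZMod p → ℝ) (d : ZMod p) : ℝ :=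
  ∑ n ∈ univ.filter (fun n : ZMod p => evm p g n = d), v n

/-- operator norm bound for the convolution kernel `k - 1` -/
def OpB {p : ℕ} [NeZero p] (k : ZMod p → ℝ) (ρ : ℝ) : Prop :=
  ∀ u v : ZMod p → ℝ, |∑ x, ∑ y, u x * v y * (k (x - y) - 1)| ≤
    ρ * p * (√(∑ x, u x ^ 2) * √(∑ y, v y ^ 2))

/-- admissible local weight for the transfer lemma -/
structure Wt (p : ℕ) [NeZero p] (G : ℤ[X]) (κ : ℝ) (v : ZMod p → ℝ) : Prop where
  nonneg : ∀ n, 0 ≤ v n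
  mean : ∑ n, v n = p
  reg : ∀ n, v n ≠ 0 → evm p (derivative G) n ≠ 0
  four : ∀ ξ : ZMod p, ξ ≠ 0 →
    ‖∑ n, (v n : ℂ) * ZMod.stdAddChar (ξ * evm p G n)‖ ≤ p * (p : ℝ) ^ (-κ) / 3
  comp : ∀ ξ : ZMod p, ξ ≠ 0 →
    ‖∑ n, ZMod.stdAddChar (ξ * evm p G n)‖ ≤ p * (p : ℝ) ^ (-κ) / 3
  sing : ((univ.filter fun n : ZMod p => evm p (derivative G) n = 0).card : ℝ) ≤
    p * (p : ℝ) ^ (-κ) / 3

def rho (k p : ℕ) : ℝ := 3 * (p : ℝ) ^ (-(1 / 2 ^ (k - 1) : ℝ))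

def jj (k : ℕ) : ℕ := 3 * 2 ^ (k - 1) + 1

/-! ### Tensor forms, lifts and cumulants -/

section Forms

variable {ι W : Type} [Fintype ι] [DecidableEq ι] [Fintype W] [DecidableEq W]

/-- the tensor product multilinear form -/
def form {X : ι → Type} [∀ i, Fintype (X i)] (Tw : ∀ i, (W → X i) → ℝ)
    (F : W → (∀ i, X i) → ℝ) : ℝ :=
  ∑ x : W → (∀ i, X i), (∏ i, Tw i (fun w => x w i)) * ∏ w, F w (x w)

/-- `p * [a = b] - 1` -/
def dl {p : ℕ} (a b : ZMod p) : ℝ := (if a = b then (p : ℝ) else 0) - 1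

/-- local cumulant -/
def kap {p : ℕ} [NeZero p] (T : (W → ZMod p) → ℝ) (J : Finset W) (a : W → ZMod p) : ℝ :=
  ∑ x, T x * ∏ w ∈ J, dl (a w) (x w)

/-- product of the primes in `T` -/
def mm (P : ι → ℕ) (T : Finset ι) : ℕ := ∏ i ∈ T, P i

def fam (P : ι → ℕ) (Q : ℕ) : Finset (Finset ι) := univ.filter fun T => mm P T ≤ Q

def famB (P : ι → ℕ) (B : Finset ι) (Q : ℕ) : Finset (Finset ι) :=
  univ.filter fun T => Disjoint T B ∧ mm P T ≤ Q

def DD (P : ι → ℕ) (A : Finset (Finset ι)) (x : ℕ) (ω : ∀ i, ZMod (P i)) : ℝ :=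
  ∑ T ∈ A, ∏ i ∈ T, dl (x : ZMod (P i)) (ω i)

/-- the truncated lift of `f` on `range L` to the product of the residue rings -/
def lift (P : ι → ℕ) (A : Finset (Finset ι)) (L : ℕ) (f : ℕ → ℝ) (ω : ∀ i, ZMod (P i)) : ℝ :=
  (∑ x ∈ range L, f x * DD P A x ω) / L

def cols (J : ι → Finset W) (w : W) : Finset ι := univ.filter fun i => w ∈ J i

def supp (J : ι → Finset W) : Finset ι := univ.filter fun i => (J i).Nonempty

def term (P : ι → ℕ) [∀ i, NeZero (P i)] (Tw : ∀ i, (W → ZMod (P i)) → ℝ) (L : ℕ)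
    (f : W → ℕ → ℝ) (J : ι → Finset W) : ℝ :=
  (∑ x ∈ Fintype.piFinset (fun _ : W => range L),
    (∏ w, f w (x w)) * ∏ i, kap (Tw i) (J i) (fun w => (x w : ZMod (P i)))) /
      (L : ℝ) ^ Fintype.card W

/-- truncated product of the centred local weights -/
def wsum (P : ι → ℕ) (S : Finset ι) (Y : ℕ) (v : ∀ i, ZMod (P i) → ℝ) (n : ℤ) : ℝ :=
  ∑ T ∈ famB P S Y, ∏ i ∈ T, (v i (n : ZMod (P i)) - 1)

/-- the general moment bound, as a property -/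
def GM (P : ι → ℕ) [∀ i, NeZero (P i)] (Tw : ∀ i, (W → ZMod (P i)) → ℝ) (Q L : ℕ)
    (κ C : ℝ) : Prop :=
  ∀ f : W → ℕ → ℝ, (∀ w x, |f w x| ≤ 1) →
    ∑ J ∈ univ.filter (fun J : ι → Finset W => ∀ w, mm P (cols J w) ≤ Q),
      (mm P (supp J) : ℝ) ^ κ * |term P Tw L f J| ≤ C

/-- tame local weights: the cumulants have an atomic decomposition with frame bound `η` -/
structure Tame (Θ : Type) [Fintype Θ] {p : ℕ} [NeZero p] (T : (W → ZMod p) → ℝ) (η : ℝ) :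
    Prop where
  mass : |∑ x, T x| ≤ 1
  single : ∀ w a, kap T {w} a = 0
  atoms : ∀ (J : Finset W) (u v : W), u ∈ J → v ∈ J → u ≠ v →
    ∃ (ν : Θ → ℝ) (ψ : Θ → W → ZMod p → ℝ), (∀ θ, 0 ≤ ν θ) ∧
      (∀ a, kap T J a = ∑ θ, ν θ * ∏ w ∈ J, ψ θ w (a w)) ∧
      (∀ w, w = u ∨ w = v → ∀ h : ZMod p → ℝ,
        ∑ θ, ν θ * (∑ a, ψ θ w a * h a) ^ 2 ≤ η * (p * ∑ a, h a ^ 2 - (∑ a, h a) ^ 2)) ∧
      (∀ θ w, w ≠ u → w ≠ v → ∃ b, ∀ a, |ψ θ w a| ≤ dl a b + 2)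

end Forms

/-! ### The sites and the local weights -/

abbrev Site (j : ℕ) : Type := Fin j → Fin 6

abbrev Phi (j : ℕ) : Type := Fin j → Fin 6 → Fin 6

/-- the reflection `x ↦ 2 c + 1 - x` of the hexagon -/
def tt (c : Fin 3) (x : Fin 6) : Fin 6 := ![1, 3, 5] c - x

def inL (c : Fin 3) (x : Fin 6) : Prop := c.val < x.val ∧ x.val ≤ c.val + 3

instance (c : Fin 3) (x : Fin 6) : Decidable (inL c x) := by unfold inL; infer_instance

/-- the fold of the hexagon onto the half `inL c` -/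
def fo (c : Fin 3) (x : Fin 6) : Fin 6 := if inL c x then x else tt c x

def sT {j : ℕ} (i : Fin j) (c : Fin 3) (a : Site j) : Site j := Function.update a i (tt c (a i))

def sF {j : ℕ} (i : Fin j) (c : Fin 3) (a : Site j) : Site j := Function.update a i (fo c (a i))

/-- reflection positivity -/
def RP {j : ℕ} {X : Type} [Fintype X] (T : (Site j → X) → ℝ) : Prop :=
  ∀ (i : Fin j) (c : Fin 3), (∀ x, T (x ∘ sT i c) = T x) ∧
    ∀ U : (Site j → X) → ℝ, 0 ≤ ∑ x, T x * (U (x ∘ sF i c) * U (x ∘ sT i c ∘ sF i c))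

def Nice {j p : ℕ} [NeZero p] (T : (Site j → ZMod p) → ℝ) : Prop :=
  RP T ∧ ∑ x, T x = 1 ∧ ∀ w a, kap T {w} a = 0

def str (x y : Fin 6) : Prop := (x.val % 2 = 0 ∧ y = x + 2) ∨ (x.val % 2 = 1 ∧ x = y + 2)

instance (x y : Fin 6) : Decidable (str x y) := by unfold str; infer_instance

def near (x y : Fin 6) : Prop := x = y ∨ y = x + 1 ∨ x = y + 1 ∨ str x y

instance (x y : Fin 6) : Decidable (near x y) := by unfold near; infer_instance

def good (φ : Fin 6 → Fin 6) : Prop :=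
  (∀ x y, near x y → ¬ str (φ y) (φ x)) ∧ ∃ c : Fin 3, ∀ x, φ (tt c x) = φ x

instance (φ : Fin 6 → Fin 6) : Decidable (good φ) := by unfold good; infer_instance

/-- number of collapsed bonds -/
def eqb (φ : Fin 6 → Fin 6) : ℕ := (univ.filter fun x : Fin 6 => φ (x + 1) = φ x).card

def mu (lam K : ℝ) (φ : Fin 6 → Fin 6) : ℝ :=
  if φ = id then 1 else if good φ then lam * K ^ eqb φ else 0

def app {j : ℕ} (φ : Phi j) (a : Site j) : Site j := fun i => φ i (a i)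

def edge {j : ℕ} (φ : Phi j) (a b : Site j) : Prop :=
  (∀ i, ¬ str (b i) (a i)) ∧ ∃ i, φ i = id ∧ str (a i) (b i)

instance {j : ℕ} (φ : Phi j) (a b : Site j) : Decidable (edge φ a b) := by
  unfold edge; infer_instance

def edges {j : ℕ} (φ : Phi j) : Finset (Site j × Site j) :=
  univ.filter fun e => edge φ e.1 e.2 ∧ (∃ a, app φ a = e.1) ∧ ∃ b, app φ b = e.2

def wgt {j p : ℕ} (φ : Phi j) (k : ZMod p → ℝ) (y : Site j → ZMod p) : ℝ :=
  ∏ e ∈ edges φ, k (y e.1 - y e.2)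

def strat {j p : ℕ} [NeZero p] (φ : Phi j) (k : ZMod p → ℝ) (x : Site j → ZMod p) : ℝ :=
  (∑ y : Site j → ZMod p, if y ∘ app φ = x then wgt φ k y else 0) / (p : ℝ) ^ (6 ^ j)

def mix {j p : ℕ} [NeZero p] (a : Phi j → ℝ) (k : ZMod p → ℝ) (x : Site j → ZMod p) : ℝ :=
  ∑ φ, a φ * strat φ k x

/-- number of strata -/
def cM (j : ℕ) : ℝ := ((6 : ℝ) ^ 6) ^ j

/-- number of pairs of sites -/
def cE (j : ℕ) : ℕ := (6 ^ j) ^ 2

def cK (j km : ℕ) : ℝ := (2 * cM j * (km : ℝ) ^ cE j) ^ 2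

def cL (j km : ℕ) : ℝ := 2 * cM j * (cE j * (km : ℝ) ^ (3 * cE j))

def mass (j km : ℕ) (ρ : ℝ) (φ : Phi j) : ℝ := ∏ i, mu (cL j km * ρ) (cK j km) (φ i)

/-- the normalized local weight -/
def Tloc (j km : ℕ) {p : ℕ} [NeZero p] (ρ : ℝ) (k : ZMod p → ℝ) (x : Site j → ZMod p) : ℝ :=
  mix (mass j km ρ) k x / ∑ x', mix (mass j km ρ) k x'

structure LocOK {j p : ℕ} [NeZero p] (k : ZMod p → ℝ) (T Tg Th : (Site j → ZMod p) → ℝ)
    (ζ β η : ℝ) : Prop where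
  rp : RP T
  sumT : ∑ x, T x = 1
  tameT : Tame (Phi j × (Site j → ZMod p)) T η
  tameG : Tame (Phi j × (Site j → ZMod p)) Tg η
  tameH : Tame (Phi j × (Site j → ZMod p)) Th η
  split : ∀ x, T x = ζ * Tg x + β * Th x
  zeta0 : 0 ≤ ζ
  zeta1 : ζ ≤ 1
  beta0 : 0 ≤ β
  beta1 : β ≤ η ^ (j - 1)
  hpos : ∀ x, 0 ≤ Th x
  gpos : ∀ x, 0 ≤ Tg x
  gsum : ∑ x, Tg x = 1
  gtr : ∀ x c, Tg (fun w => x w + c) = Tg x
  gsupp : ∀ x, Tg x ≠ 0 → k (x (fun _ => 0) - x (fun _ => 2)) ≠ 0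

end

end Vale.Agent.P042
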