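import Vale.Agent.P042.Expand

open Finset Polynomial

namespace Vale.Agent.P042

namespace Bad

variable {ι W : Type} [Fintype ι] [DecidableEq ι] [Fintype W] [DecidableEq W]

theorem mass_prod {X : ι → Type} [∀ i, Fintype (X i)] (V : ∀ i, (W → X i) → ℝ) :
    ∑ z : W → ∀ i, X i, ∏ i, V i (fun w => z w i) = ∏ i, ∑ t, V i t := by
  rw [Fintype.prod_sum]
  exact Fintype.sum_equiv (Equiv.piComm fun (_ : W) i => X i) _ _ fun _ => rfl

theorem form_mix {X : ι → Type} [∀ i, Fintype (X i)] (T Th U : ∀ i, (W → X i) → ℝ)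
    (hT : ∀ i, ∑ x, T i x = 1) (hU : ∀ i, ∑ x, U i x = 1) (B : Finset ι)
    (G : W → (∀ i, X i) → (∀ i, X i) → ℝ)
    (hG : ∀ w a a' x x', (∀ i ∈ B, a i = a' i) → (∀ i ∉ B, x i = x' i) →
      G w a x = G w a' x') :
    form (fun i => if i ∈ B then Th i else T i) (fun w ω => G w ω ω) =
      ∑ a : W → ∀ i, X i, (∏ i, (if i ∈ B then Th i else U i) fun w => a w i) *
        form T fun w => G w (a w) := by
  have h1 : ∑ z : W → ∀ i, X i, ∏ i, (if i ∈ B then T i else U i) (fun w => z w i) = 1 := by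
    rw [mass_prod fun i => if i ∈ B then T i else U i]
    refine prod_eq_one fun i _ => ?_
    split_ifs
    exacts [hT i, hU i]
  let m : (W → ∀ i, X i) × (W → ∀ i, X i) → (W → ∀ i, X i) × (W → ∀ i, X i) := fun p =>
    (fun w i => if i ∈ B then p.1 w i else p.2 w i, fun w i => if i ∈ B then p.2 w i else p.1 w i)
  have hm : Function.Involutive m := by
    intro p
    ext w i <;> by_cases hi : i ∈ B <;> simp [m, hi]
  unfold form
  rw [← mul_one (∑ x : W → ∀ i, X i, _), ← h1, sum_mul_sum, ← Fintype.sum_prod_type']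
  simp only [mul_sum]
  rw [← Fintype.sum_prod_type']
  refine Fintype.sum_equiv hm.toPerm _ _ fun p => ?_
  rw [mul_right_comm, ← mul_assoc, ← prod_mul_distrib, ← prod_mul_distrib]
  refine congrArg₂ _ (prod_congr rfl fun i _ => ?_) (prod_congr rfl fun w _ => ?_)
  · by_cases hi : i ∈ B <;> simp [m, hi, mul_comm]
  · refine hG w _ _ _ _ (fun i hi => ?_) fun i hi => ?_ <;> simp [m, hi]

omit [Fintype W] [DecidableEq W] in
theorem DD_split (P : ι → ℕ) (B : Finset ι) (Y x : ℕ) (ω : ∀ i, ZMod (P i)) :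
    DD P (univ.filter fun T => mm P (T \ B) ≤ Y) x ω =
      (if ∀ i ∈ B, (x : ZMod (P i)) = ω i then (mm P B : ℝ) else 0) * DD P (famB P B Y) x ω := by
  have e : (if ∀ i ∈ B, (x : ZMod (P i)) = ω i then (mm P B : ℝ) else 0) =
      ∏ i ∈ B, (1 + dl (x : ZMod (P i)) (ω i)) := by
    simp only [dl, add_sub_cancel, mm, Nat.cast_prod]
    rw [prod_ite_zero]
    split_ifs <;> rfl
  rw [e, prod_one_add, DD, DD, sum_mul_sum, ← sum_product']
  refine sum_nbij' (fun T => (T ∩ B, T \ B)) (fun p => p.1 ∪ p.2) ?_ ?_ ?_ ?_ ?_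
  · intro T hT
    refine mem_product.2 ⟨mem_powerset.2 inter_subset_right, ?_⟩
    exact mem_filter.2 ⟨mem_univ _, sdiff_disjoint, (mem_filter.1 hT).2⟩
  · rintro ⟨S, T⟩ h
    obtain ⟨h1, h2⟩ := mem_product.1 h
    obtain ⟨-, h3, h4⟩ := mem_filter.1 h2
    refine mem_filter.2 ⟨mem_univ _, ?_⟩
    rwa [union_sdiff_distrib, sdiff_eq_empty_iff_subset.2 (mem_powerset.1 h1), empty_union,
      sdiff_eq_self_of_disjoint h3]
  · intro T _
    rw [union_comm]
    exact sdiff_union_inter T B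
  · rintro ⟨S, T⟩ h
    obtain ⟨h1, h2⟩ := mem_product.1 h
    obtain ⟨-, h3, -⟩ := mem_filter.1 h2
    have h4 := mem_powerset.1 h1
    simp only at h3 h4 ⊢
    rw [union_sdiff_distrib, sdiff_eq_empty_iff_subset.2 h4, empty_union,
      sdiff_eq_self_of_disjoint h3, union_inter_distrib_right, inter_eq_left.2 h4,
      disjoint_iff_inter_eq_empty.1 h3, union_empty]
  · intro T _
    exact (prod_inter_mul_prod_sdiff T B _).symm

end Bad

open Bad

/-- The bad part attached to `B` is reduced to residue classes modulo the primes in `B`. -/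
theorem bad_bound {ι W : Type} [Fintype ι] [DecidableEq ι] [Fintype W] [DecidableEq W]
    (P : ι → ℕ) [∀ i, Fact (P i).Prime] (T Th : ∀ i, (W → ZMod (P i)) → ℝ)
    (hsum : ∀ i, ∑ x, T i x = 1) (B : Finset ι)
    (hTh : ∀ i ∈ B, (∀ x, 0 ≤ Th i x) ∧ ∑ x, Th i x ≤ 1)
    (Q L Y : ℕ) (κ C : ℝ) (hκ : 0 ≤ κ) (hY : 1 ≤ Y) (hYQ : Y * mm P B ≤ Q)
    (hG1 : GM P (fun i => if i ∈ B then Th i else T i) Q L κ C) (hG2 : GM P T Q L κ C)
    (f : W → ℕ → ℝ) (hf : ∀ w x, |f w x| ≤ 1) (Zb : ℝ)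
    (hZ : ∀ a : W → ∀ i, ZMod (P i), (mm P B : ℝ) ^ Fintype.card W *
      |form T (fun w => lift P (famB P B Q) L
        (fun x => if ∀ i ∈ B, (x : ZMod (P i)) = a w i then f w x else 0))| ≤ Zb) :
    |form (fun i => if i ∈ B then Th i else T i) (fun w => lift P (fam P Q) L (f w))| ≤
      Zb + C * (Y : ℝ) ^ (-κ) * (1 + (mm P B : ℝ) ^ Fintype.card W) := by
  have hYQ' : Y ≤ Q := (Nat.le_mul_of_pos_right Y (mm_pos P B)).trans hYQ
  have h1 := fam_change P _ Q L κ C hκ hG1 f hf Y hY (fun _ => fam P Q)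
    (fun _ => univ.filter fun T => mm P (T \ B) ≤ Y) (fun _ => subset_rfl)
    (fun _ S hS => mem_filter.2 ⟨mem_univ _, by
      refine (mm_mono P (T := S \ B ∪ B)
        (by rw [sdiff_union_self_eq_union]; exact subset_union_left)).trans ?_
      exact (mm_union_le P _ _).trans
        ((Nat.mul_le_mul_right _ (mem_filter.1 hS).2).trans hYQ)⟩)
    (fun _ S hS => iff_of_true (mem_filter.2 ⟨mem_univ _, hS.trans hYQ'⟩)
      (mem_filter.2 ⟨mem_univ _, (mm_mono P sdiff_subset).trans hS⟩))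
  let G : W → (∀ i, ZMod (P i)) → (∀ i, ZMod (P i)) → ℝ := fun w a =>
    lift P (famB P B Y) L fun x => if ∀ i ∈ B, (x : ZMod (P i)) = a i then f w x else 0
  have e1 : (fun w => lift P (univ.filter fun T => mm P (T \ B) ≤ Y) L (f w)) =
      fun w ω => (mm P B : ℝ) * G w ω ω := by
    funext w ω
    simp only [G, lift]
    rw [← mul_div_assoc, mul_sum]
    refine congrArg₂ _ (sum_congr rfl fun x _ => ?_) rfl
    rw [DD_split]
    split_ifs <;> ring
  have hG : ∀ w a a' x x', (∀ i ∈ B, a i = a' i) → (∀ i ∉ B, x i = x' i) →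
      G w a x = G w a' x' := by
    intro w a a' x x' ha hx
    simp only [G, lift]
    refine congrArg₂ _ (sum_congr rfl fun y _ => congrArg₂ _ ?_ ?_) rfl
    · exact if_congr (forall₂_congr fun i hi => by rw [ha i hi]) rfl rfl
    · refine sum_congr rfl fun S hS => prod_congr rfl fun i hi => ?_
      rw [hx i (disjoint_left.1 (mem_filter.1 hS).2.1 hi)]
  let U : ∀ i, (W → ZMod (P i)) → ℝ := fun i x => if x = 0 then 1 else 0
  have hU : ∀ i, ∑ x, U i x = 1 := fun i => by simp [U]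
  have hρ0 : ∀ i x, 0 ≤ (if i ∈ B then Th i else U i) x := by
    intro i x
    split_ifs with hi
    · exact (hTh i hi).1 x
    · simp only [U]
      split_ifs <;> norm_num
  have hρ1 : ∑ a : W → ∀ i, ZMod (P i),
      ∏ i, (if i ∈ B then Th i else U i) (fun w => a w i) ≤ 1 := by
    rw [mass_prod fun i => if i ∈ B then Th i else U i]
    refine prod_le_one (fun i _ => sum_nonneg fun x _ => hρ0 i x) fun i _ => ?_
    split_ifs with hi
    exacts [(hTh i hi).2, (hU i).le]
  have hM : (0 : ℝ) ≤ (mm P B : ℝ) ^ Fintype.card W := by positivity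
  have h2 : ∀ a : W → ∀ i, ZMod (P i), (mm P B : ℝ) ^ Fintype.card W *
      |form T fun w => G w (a w)| ≤ Zb + C * (Y : ℝ) ^ (-κ) * (mm P B : ℝ) ^ Fintype.card W := by
    intro a
    have h3 := fam_change P T Q L κ C hκ hG2
      (fun w x => if ∀ i ∈ B, (x : ZMod (P i)) = a w i then f w x else 0)
      (fun w x => by
        split_ifs
        · exact hf w x
        · simp) Y hY (fun _ => famB P B Y) (fun _ => famB P B Q)
      (fun _ S hS => mem_filter.2 ⟨mem_univ _, (mem_filter.1 hS).2.2.trans hYQ'⟩)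
      (fun _ S hS => mem_filter.2 ⟨mem_univ _, (mem_filter.1 hS).2.2⟩)
      (fun _ S hS => by
        simp only [famB, mem_filter, mem_univ, true_and, hS, hS.trans hYQ'])
    have h4 := hZ a
    have h5 := mul_le_mul_of_nonneg_left ((abs_sub_abs_le_abs_sub _ _).trans h3) hM
    simp only [G]
    linarith
  have h6 : 0 ≤ Zb + C * (Y : ℝ) ^ (-κ) * (mm P B : ℝ) ^ Fintype.card W :=
    (mul_nonneg hM (abs_nonneg _)).trans (h2 fun _ _ => 0)
  have h7 : |form (fun i => if i ∈ B then Th i else T i)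
      fun w => lift P (univ.filter fun T => mm P (T \ B) ≤ Y) L (f w)| ≤
      Zb + C * (Y : ℝ) ^ (-κ) * (mm P B : ℝ) ^ Fintype.card W := by
    rw [e1, form_smul _ (fun _ => (mm P B : ℝ)) fun w ω => G w ω ω,
      form_mix T Th U hsum hU B G hG, prod_const, card_univ, mul_sum]
    refine (abs_sum_le_sum_abs _ _).trans (le_trans ?_ (mul_le_of_le_one_left h6 hρ1))
    rw [sum_mul]
    refine sum_le_sum fun a _ => ?_
    have h8 : 0 ≤ ∏ i, (if i ∈ B then Th i else U i) (fun w => a w i) :=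
      prod_nonneg fun i _ => hρ0 i _
    rw [mul_left_comm, abs_mul, abs_mul, abs_of_nonneg h8, abs_of_nonneg hM]
    exact mul_le_mul_of_nonneg_left (h2 a) h8
  have h9 := (abs_sub_abs_le_abs_sub _ _).trans h1
  linarith

end Vale.Agent.P042
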