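import Vale.Agent.P042.Eqd

open Finset Polynomial

namespace Vale.Agent.P042

namespace Bessel

theorem dl_ge {p : ℕ} (a b : ZMod p) : -1 ≤ dl a b := by
  unfold dl
  split_ifs <;> simp

theorem dl_le {p : ℕ} (a b : ZMod p) : dl a b ≤ p - 1 := by
  unfold dl
  split_ifs <;> simp

theorem abs_dl_le {p : ℕ} (hp : 1 ≤ p) (a b : ZMod p) : |dl a b| ≤ p := by
  have h1 : (1 : ℝ) ≤ p := by exact_mod_cast hp
  rw [abs_le]
  constructor <;> linarith [dl_ge a b, dl_le a b]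

theorem dl_symm {p : ℕ} (a b : ZMod p) : dl a b = dl b a := by
  simp only [dl, eq_comm]

theorem sum_dl {p : ℕ} [NeZero p] (b : ZMod p) : ∑ a, dl a b = 0 := by
  simp [dl, Finset.sum_sub_distrib, ZMod.card]

theorem sum_dl_two {p : ℕ} [NeZero p] (b : ZMod p) : ∑ a, (dl a b + 2) = 2 * p := by
  rw [Finset.sum_add_distrib, sum_dl]
  simp [ZMod.card, mul_comm]

theorem sum_mul_dl {p : ℕ} [NeZero p] (g : ZMod p → ℝ) (b : ZMod p) :
    ∑ a, g a * dl a b = p * g b - ∑ a, g a := by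
  simp [dl, mul_sub, Finset.sum_sub_distrib, mul_comm]

theorem sum_dl_dl {p : ℕ} [NeZero p] (y z : ZMod p) : ∑ a, dl a y * dl a z = p * dl y z := by
  rw [sum_mul_dl (fun a => dl a y) z, sum_dl, sub_zero, dl_symm]

theorem quad_dl {p : ℕ} [NeZero p] (g : ZMod p → ℝ) :
    ∑ b, g b * ∑ a, dl b a * g a = p * ∑ a, g a ^ 2 - (∑ a, g a) ^ 2 := by
  have h : ∀ b, ∑ a, dl b a * g a = p * g b - ∑ a, g a := fun b => by
    rw [← sum_mul_dl]
    exact Finset.sum_congr rfl fun a _ => by rw [dl_symm, mul_comm]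
  simp only [h, mul_sub, Finset.sum_sub_distrib]
  rw [← Finset.sum_mul, sq (∑ a, g a), Finset.mul_sum (a := (p : ℝ))]
  congr 1
  exact Finset.sum_congr rfl fun a _ => by ring

theorem psd_of {X : Type} [Fintype X] (K : X → X → ℝ) (h1 : ∀ a b, K a b = K b a)
    (h2 : ∀ g : X → ℝ, 0 ≤ ∑ b, g b * ∑ a, K b a * g a) : (Matrix.of K).PosSemidef := by
  refine Matrix.PosSemidef.of_dotProduct_mulVec_nonneg ?_ fun g => ?_
  · ext a b
    simp [h1 a b]
  · simpa [dotProduct, Matrix.mulVec] using h2 g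

theorem nonneg_of_psd {K : ℕ → ℕ → ℝ} (hK : (Matrix.of K).PosSemidef) (L : ℕ) (h : ℕ → ℝ) :
    0 ≤ ∑ x ∈ range L, ∑ y ∈ range L, h x * h y * K x y := by
  have h1 := (hK.submatrix (fun i : Fin L => (i : ℕ))).dotProduct_mulVec_nonneg fun i => h i
  simp only [dotProduct, Matrix.mulVec, star_trivial, Matrix.submatrix_apply, Matrix.of_apply,
    Finset.mul_sum] at h1
  rw [Finset.sum_range]
  refine h1.trans_eq (Finset.sum_congr rfl fun x _ => ?_)
  rw [Finset.sum_range]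
  exact Finset.sum_congr rfl fun y _ => by ring

theorem psd_prod {ι : Type} [DecidableEq ι] (T : Finset ι) (D K : ι → ℕ → ℕ → ℝ)
    (hK : ∀ i ∈ T, (Matrix.of (K i)).PosSemidef)
    (hD : ∀ i ∈ T, (Matrix.of fun x y => D i x y - K i x y).PosSemidef) :
    (Matrix.of fun x y => ∏ i ∈ T, K i x y).PosSemidef ∧
      (Matrix.of fun x y => ∏ i ∈ T, D i x y - ∏ i ∈ T, K i x y).PosSemidef := by
  induction T using Finset.induction_on with
  | empty =>
    constructor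
    · have h := (psd_of (fun _ _ : Unit => (1 : ℝ)) (fun _ _ => rfl) (fun g => by
        simpa using mul_self_nonneg _)).submatrix (fun _ : ℕ => ())
      exact h
    · have h : (Matrix.of fun x y : ℕ => ∏ i ∈ (∅ : Finset ι), D i x y - ∏ i ∈ ∅, K i x y) = 0 := by
        ext x y
        simp
      rw [h]
      exact Matrix.PosSemidef.zero
  | insert a T ha ih =>
    obtain ⟨h1, h2⟩ := ih (fun i hi => hK i (mem_insert_of_mem hi))
      (fun i hi => hD i (mem_insert_of_mem hi))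
    have h3 := hK a (mem_insert_self _ _)
    have h4 := hD a (mem_insert_self _ _)
    constructor
    · have h5 := h3.hadamard h1
      refine cast (congrArg _ ?_) h5
      ext x y
      simp [Finset.prod_insert ha]
    · have h5 := ((h3.add h4).hadamard h2).add (h4.hadamard h1)
      refine cast (congrArg _ ?_) h5
      ext x y
      simp only [Finset.prod_insert ha, Matrix.add_apply, Matrix.hadamard_apply, Matrix.of_apply]
      ring

section
variable {ι : Type} [Fintype ι] [DecidableEq ι] (P : ι → ℕ) [∀ i, Fact (P i).Prime]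

theorem eqd (hP : Function.Injective P) (S : Finset ι) (F : ∀ i, ZMod (P i) → ℝ) (B : ℝ)
    (hB : ∀ x : ℕ, |∏ i ∈ S, F i (x : ZMod (P i))| ≤ B) (L : ℕ) :
    |∑ x ∈ range L, ∏ i ∈ S, F i (x : ZMod (P i)) - L * ∏ i ∈ S, ((∑ a, F i a) / P i)| ≤
      2 * mm P S * B := by
  have h := per_sum (𝕜 := ℝ) (mm P S) (mm_pos P S) (fun x => ∏ i ∈ S, F i (x : ZMod (P i)))
    (fun n => Finset.prod_congr rfl fun i hi => by
      have : ((mm P S : ℕ) : ZMod (P i)) = 0 :=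
        (ZMod.natCast_eq_zero_iff _ _).2 ((dvd_mm_iff P hP S i).2 hi)
      rw [Nat.cast_add, this, add_zero]) B hB L
  have h2 : ∑ n ∈ range (mm P S), ∏ i ∈ S, F i (n : ZMod (P i)) = ∏ i ∈ S, ∑ a, F i a := by
    have := crt_sum S P (fun i _ => (Fact.out : (P i).Prime).one_le)
      (fun i _ j _ hij => (Nat.coprime_primes Fact.out Fact.out).2 fun h => hij (hP h))
      (fun i n => F i (n : ZMod (P i))) (fun i _ n => by simp)
    unfold mm
    rw [this]
    exact Finset.prod_congr rfl fun i _ => sum_range_zmod _ _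
  rw [h2, Finset.sum_sub_distrib, Finset.sum_const, card_range, nsmul_eq_mul,
    Real.norm_eq_abs] at h
  rw [Finset.prod_div_distrib, ← Nat.cast_prod]
  exact h

theorem abs_c_le (T : Finset ι) (u v : ∀ i, ZMod (P i)) :
    |∏ i ∈ T, dl (u i) (v i)| ≤ mm P T := by
  rw [Finset.abs_prod, mm, Nat.cast_prod]
  exact Finset.prod_le_prod (fun _ _ => abs_nonneg _) fun i _ =>
    abs_dl_le (Fact.out : (P i).Prime).one_le _ _

theorem ub_ge (R : Finset ι) (u b : ∀ i, ZMod (P i)) : 1 ≤ ∏ i ∈ R, (dl (u i) (b i) + 2) :=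
  Finset.one_le_prod fun i _ => by linarith [dl_ge (u i) (b i)]

theorem ub_le (R : Finset ι) (u b : ∀ i, ZMod (P i)) :
    ∏ i ∈ R, (dl (u i) (b i) + 2) ≤ (mm P R : ℝ) ^ 2 := by
  rw [mm, Nat.cast_prod, ← Finset.prod_pow]
  refine Finset.prod_le_prod (fun i _ => by linarith [dl_ge (u i) (b i)]) fun i _ => ?_
  have h1 : (2 : ℝ) ≤ P i := by exact_mod_cast (Fact.out : (P i).Prime).two_le
  nlinarith [dl_le (u i) (b i)]

theorem mean_three (R T T' : Finset ι) (hT : Disjoint T R) (hT' : Disjoint T' R)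
    (b y z : ∀ i, ZMod (P i)) :
    ∏ i ∈ R ∪ T ∪ T', ((∑ a : ZMod (P i), (if i ∈ R then dl a (b i) + 2 else 1) *
      (if i ∈ T then dl a (y i) else 1) * (if i ∈ T' then dl a (z i) else 1)) / P i) =
      if T = T' then 2 ^ R.card * ∏ i ∈ T, dl (y i) (z i) else 0 := by
  have hp : ∀ i, (P i : ℝ) ≠ 0 := fun i => Nat.cast_ne_zero.2 (Fact.out : (P i).Prime).ne_zero
  split_ifs with h
  · subst h
    rw [union_assoc, union_self, Finset.prod_union hT.symm]
    congr 1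
    · rw [← Finset.prod_const]
      refine Finset.prod_congr rfl fun i hi => ?_
      have hiT : i ∉ T := Finset.disjoint_right.1 hT hi
      simp only [hi, hiT, if_true, if_false, mul_one]
      rw [sum_dl_two, mul_div_cancel_right₀ _ (hp i)]
    · refine Finset.prod_congr rfl fun i hi => ?_
      have hiR : i ∉ R := Finset.disjoint_left.1 hT hi
      simp only [hi, hiR, if_true, if_false, one_mul]
      rw [sum_dl_dl, mul_div_cancel_left₀ _ (hp i)]
  · by_cases h1 : T ⊆ T'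
    · have h2 : ¬ T' ⊆ T := fun h2 => h (Subset.antisymm h1 h2)
      obtain ⟨i, hi, hi'⟩ := not_subset.1 h2
      refine Finset.prod_eq_zero (i := i) (by simp [hi]) ?_
      have hiR : i ∉ R := Finset.disjoint_left.1 hT' hi
      simp only [hi, hi', hiR, if_true, if_false, one_mul]
      rw [sum_dl, zero_div]
    · obtain ⟨i, hi, hi'⟩ := not_subset.1 h1
      refine Finset.prod_eq_zero (i := i) (by simp [hi]) ?_
      have hiR : i ∉ R := Finset.disjoint_left.1 hT hi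
      simp only [hi, hi', hiR, if_true, if_false, one_mul, mul_one]
      rw [sum_dl, zero_div]

theorem three (hP : Function.Injective P) (Q L : ℕ) (R T T' : Finset ι) (hR : mm P R ≤ Q)
    (hT : Disjoint T R ∧ mm P T ≤ Q) (hT' : Disjoint T' R ∧ mm P T' ≤ Q)
    (b y z : ∀ i, ZMod (P i)) :
    |∑ x ∈ range L, (∏ i ∈ R, (dl (x : ZMod (P i)) (b i) + 2)) *
        (∏ i ∈ T, dl (x : ZMod (P i)) (y i)) * (∏ i ∈ T', dl (x : ZMod (P i)) (z i)) -
      L * if T = T' then 2 ^ R.card * ∏ i ∈ T, dl (y i) (z i) else 0| ≤ 2 * (Q : ℝ) ^ 7 := by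
  have hR' : (mm P R : ℝ) ≤ Q := by exact_mod_cast hR
  have hT1 : (mm P T : ℝ) ≤ Q := by exact_mod_cast hT.2
  have hT2 : (mm P T' : ℝ) ≤ Q := by exact_mod_cast hT'.2
  have hprod : ∀ x : ℕ, ∏ i ∈ R ∪ T ∪ T', ((if i ∈ R then dl (x : ZMod (P i)) (b i) + 2 else 1) *
      (if i ∈ T then dl (x : ZMod (P i)) (y i) else 1) *
      (if i ∈ T' then dl (x : ZMod (P i)) (z i) else 1)) =
      (∏ i ∈ R, (dl (x : ZMod (P i)) (b i) + 2)) *
        (∏ i ∈ T, dl (x : ZMod (P i)) (y i)) * (∏ i ∈ T', dl (x : ZMod (P i)) (z i)) := by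
    intro x
    rw [Finset.prod_mul_distrib, Finset.prod_mul_distrib, Finset.prod_ite_mem, Finset.prod_ite_mem,
      Finset.prod_ite_mem, inter_eq_right.2 (subset_union_left.trans subset_union_left),
      inter_eq_right.2 (subset_union_right.trans subset_union_left),
      inter_eq_right.2 subset_union_right]
  have h := eqd P hP (R ∪ T ∪ T') (fun i a => (if i ∈ R then dl a (b i) + 2 else 1) *
      (if i ∈ T then dl a (y i) else 1) * (if i ∈ T' then dl a (z i) else 1)) ((Q : ℝ) ^ 4)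
    (fun x => by
      rw [hprod, abs_mul, abs_mul]
      have h1 := ub_ge P R (fun i => (x : ZMod (P i))) b
      have h2 := ub_le P R (fun i => (x : ZMod (P i))) b
      have h3 := (abs_c_le P T (fun i => (x : ZMod (P i))) y).trans hT1
      have h4 := (abs_c_le P T' (fun i => (x : ZMod (P i))) z).trans hT2
      rw [abs_of_nonneg (zero_le_one.trans h1)]
      have h5 := h2.trans (pow_le_pow_left₀ (Nat.cast_nonneg _) hR' 2)
      calc _ ≤ (Q : ℝ) ^ 2 * Q * Q := by gcongr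
        _ = _ := by ring) L
  rw [mean_three P R T T' hT.1 hT'.1] at h
  simp only [hprod] at h
  refine h.trans ?_
  have h6 : mm P (R ∪ T ∪ T') ≤ Q ^ 3 := by
    calc _ ≤ mm P (R ∪ T) * mm P T' := mm_union_le P _ _
      _ ≤ mm P R * mm P T * mm P T' := Nat.mul_le_mul_right _ (mm_union_le P _ _)
      _ ≤ Q * Q * Q := Nat.mul_le_mul (Nat.mul_le_mul hR hT.2) hT'.2
      _ = _ := by ring
  have h7 : (mm P (R ∪ T ∪ T') : ℝ) ≤ (Q : ℝ) ^ 3 := by exact_mod_cast h6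
  calc _ ≤ 2 * (Q : ℝ) ^ 3 * Q ^ 4 := by gcongr
    _ = _ := by ring

theorem sum_ub (hP : Function.Injective P) (Q L : ℕ) (R : Finset ι) (hR : mm P R ≤ Q)
    (b : ∀ i, ZMod (P i)) :
    ∑ x ∈ range L, ∏ i ∈ R, (dl (x : ZMod (P i)) (b i) + 2) ≤ L * 2 ^ R.card + 2 * (Q : ℝ) ^ 7 := by
  have h0 : Disjoint (∅ : Finset ι) R ∧ mm P ∅ ≤ Q :=
    ⟨disjoint_empty_left _, (mm_mono P (empty_subset R)).trans hR⟩
  have h := three P hP Q L R ∅ ∅ hR h0 h0 b b b
  simp only [Finset.prod_empty, mul_one, if_true] at h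
  linarith [(abs_le.1 h).2]

end

/-- the abstract form of the argument -/
theorem abstract {α : Type} [DecidableEq α] (A : Finset α) (s : Finset ℕ) (c : α → ℕ → ℕ → ℝ)
    (ub h : ℕ → ℝ) (a E H : ℝ) (hh : ∀ x, |h x| ≤ ub x) (hH : ∀ x, |h x| ≤ H)
    (h3 : ∀ T ∈ A, ∀ T' ∈ A, ∀ y z, |∑ x ∈ s, ub x * c T x y * c T' x z -
      if T = T' then a * c T y z else 0| ≤ E) :
    (∑ T ∈ A, ∑ x ∈ s, ∑ y ∈ s, h x * h y * c T x y) ^ 2 ≤ (∑ x ∈ s, ub x) *
      (a * ∑ T ∈ A, ∑ x ∈ s, ∑ y ∈ s, h x * h y * c T x y +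
        (A.card : ℝ) ^ 2 * (s.card : ℝ) ^ 2 * (H ^ 2 * E)) := by
  have hub : ∀ x, 0 ≤ ub x := fun x => (abs_nonneg _).trans (hh x)
  set Dh : ℕ → ℝ := fun x => ∑ T ∈ A, ∑ y ∈ s, h y * c T x y with hDh
  have e1 : ∑ T ∈ A, ∑ x ∈ s, ∑ y ∈ s, h x * h y * c T x y = ∑ x ∈ s, h x * Dh x := by
    rw [Finset.sum_comm]
    refine Finset.sum_congr rfl fun x _ => ?_
    simp only [hDh, Finset.mul_sum, mul_assoc]
  have e2 : (∑ x ∈ s, h x * Dh x) ^ 2 ≤ (∑ x ∈ s, ub x) * ∑ x ∈ s, ub x * Dh x ^ 2 := by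
    refine Finset.sum_sq_le_sum_mul_sum_of_sq_le_mul s (fun x _ => hub x)
      (fun x _ => mul_nonneg (hub x) (sq_nonneg _)) fun x _ => ?_
    have : h x ^ 2 ≤ ub x ^ 2 := sq_le_sq' (by linarith [(abs_le.1 (hh x)).1]) (abs_le.1 (hh x)).2
    nlinarith [sq_nonneg (Dh x)]
  have e3 : ∑ x ∈ s, ub x * Dh x ^ 2 = ∑ T ∈ A, ∑ T' ∈ A, ∑ y ∈ s, ∑ z ∈ s,
      h y * h z * ∑ x ∈ s, ub x * c T x y * c T' x z := by
    have : ∀ x, ub x * Dh x ^ 2 = ∑ T ∈ A, ∑ T' ∈ A, ∑ y ∈ s, ∑ z ∈ s,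
        h y * h z * (ub x * c T x y * c T' x z) := by
      intro x
      rw [sq, hDh, Finset.sum_mul_sum, Finset.mul_sum]
      refine Finset.sum_congr rfl fun T _ => ?_
      rw [Finset.mul_sum]
      refine Finset.sum_congr rfl fun T' _ => ?_
      rw [Finset.sum_mul_sum, Finset.mul_sum]
      refine Finset.sum_congr rfl fun y _ => ?_
      rw [Finset.mul_sum]
      exact Finset.sum_congr rfl fun z _ => by ring
    simp only [this, Finset.mul_sum]
    rw [Finset.sum_comm]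
    refine Finset.sum_congr rfl fun T _ => ?_
    rw [Finset.sum_comm]
    refine Finset.sum_congr rfl fun T' _ => ?_
    rw [Finset.sum_comm]
    refine Finset.sum_congr rfl fun y _ => ?_
    rw [Finset.sum_comm]
  have e4 : a * ∑ T ∈ A, ∑ x ∈ s, ∑ y ∈ s, h x * h y * c T x y =
      ∑ T ∈ A, ∑ T' ∈ A, ∑ y ∈ s, ∑ z ∈ s, h y * h z * if T = T' then a * c T y z else 0 := by
    rw [Finset.mul_sum]
    refine Finset.sum_congr rfl fun T hT => ?_
    rw [Finset.sum_eq_single_of_mem T hT (fun T' _ hne => by simp [hne.symm])]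
    simp only [Finset.mul_sum, if_true]
    exact Finset.sum_congr rfl fun y _ => Finset.sum_congr rfl fun z _ => by ring
  have e5 : (A.card : ℝ) ^ 2 * (s.card : ℝ) ^ 2 * (H ^ 2 * E) =
      ∑ _T ∈ A, ∑ _T' ∈ A, ∑ _y ∈ s, ∑ _z ∈ s, H ^ 2 * E := by
    simp only [Finset.sum_const, nsmul_eq_mul]
    ring
  conv_lhs => rw [e1]
  refine e2.trans (mul_le_mul_of_nonneg_left ?_ (Finset.sum_nonneg fun x _ => hub x))
  rw [e3, e4, e5, ← Finset.sum_add_distrib]
  refine Finset.sum_le_sum fun T hT => ?_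
  rw [← Finset.sum_add_distrib]
  refine Finset.sum_le_sum fun T' hT' => ?_
  rw [← Finset.sum_add_distrib]
  refine Finset.sum_le_sum fun y _ => ?_
  rw [← Finset.sum_add_distrib]
  refine Finset.sum_le_sum fun z _ => ?_
  rw [← sub_le_iff_le_add', ← mul_sub]
  refine (le_abs_self _).trans ?_
  rw [abs_mul, abs_mul, sq]
  have h4 := h3 T hT T' hT' y z
  have h5 := hH y
  have h6 := hH z
  have h7 : 0 ≤ H := (abs_nonneg _).trans h5
  gcongr

theorem numer (U a L Q : ℝ) (ha : 1 ≤ a) (hQ : 2 ≤ Q) (hL : Q ^ 20 ≤ L) (S : ℝ)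
    (hS : S ≤ L * a + 2 * Q ^ 7) (W : ℝ) (hW0 : 0 ≤ W) (hW : W ≤ 2 * Q ^ 13 * L ^ 2)
    (h : U ^ 2 ≤ S * (L * a * U + W)) : U ≤ 3 * a ^ 2 * L ^ 2 := by
  by_contra hc
  push Not at hc
  have hQ0 : 0 < Q := by linarith
  have h7 : (128 : ℝ) ≤ Q ^ 7 := by
    calc (128 : ℝ) = 2 ^ 7 := by norm_num
      _ ≤ _ := by gcongr
  have h13 : (2 : ℝ) ≤ Q ^ 13 := by
    calc (2 : ℝ) ≤ 2 ^ 13 := by norm_num
      _ ≤ _ := by gcongr
  have h20 : Q ^ 20 = Q ^ 7 * Q ^ 13 := by ring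
  have hL0 : 0 < L := lt_of_lt_of_le (by positivity) hL
  have h1 : 2 * Q ^ 7 ≤ L := by nlinarith
  have h2 : 128 * Q ^ 13 ≤ L := by nlinarith
  have hU : 0 < U := lt_of_le_of_lt (by positivity) hc
  have h3 : S ≤ 2 * (L * a) := by nlinarith
  have h4 : U ^ 2 ≤ 2 * (L * a) * (L * a * U + 2 * Q ^ 13 * L ^ 2) := by
    refine h.trans ?_
    gcongr
  have h5 : 3 * a ^ 2 * L ^ 2 * U < U ^ 2 := by nlinarith
  have h6 : a ^ 2 * L ^ 2 * U < 4 * a * Q ^ 13 * L ^ 3 := by nlinarith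
  have h8 : a ^ 2 * L ^ 2 * (3 * a ^ 2 * L ^ 2) ≤ a ^ 2 * L ^ 2 * U := by gcongr
  have h9 : 4 * a * Q ^ 13 * L ^ 3 ≤ a * L ^ 4 := by
    have : 4 * Q ^ 13 ≤ L := by nlinarith
    calc _ = a * (4 * Q ^ 13) * L ^ 3 := by ring
      _ ≤ a * L * L ^ 3 := by gcongr
      _ = _ := by ring
  have h10 : a ≤ a ^ 4 := le_self_pow₀ ha (by norm_num)
  have h11 : a * L ^ 4 ≤ a ^ 4 * L ^ 4 := by gcongr
  have h12 : 0 < a ^ 4 * L ^ 4 := by positivity
  nlinarith

end Bessel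

section
variable {ι : Type} [Fintype ι] [DecidableEq ι] (P : ι → ℕ) [∀ i, Fact (P i).Prime]

open Bessel in
/-- A weighted large sieve (Bessel) inequality. -/
theorem bessel (hP : Function.Injective P) (Q L : ℕ) (hQ : 2 ≤ Q) (hL : Q ^ 20 ≤ L)
    (R : Finset ι) (hR : mm P R ≤ Q) (b : ∀ i, ZMod (P i)) (A : Finset (Finset ι))
    (hA : ∀ T ∈ A, Disjoint T R ∧ mm P T ≤ Q) (h : ℕ → ℝ)
    (hh : ∀ x, |h x| ≤ ∏ i ∈ R, (dl (x : ZMod (P i)) (b i) + 2)) :
    ∑ T ∈ A, ∑ x ∈ range L, ∑ y ∈ range L,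
      h x * h y * ∏ i ∈ T, dl (x : ZMod (P i)) (y : ZMod (P i)) ≤
        3 * 4 ^ R.card * (L : ℝ) ^ 2 := by
  have hR' : (mm P R : ℝ) ≤ Q := by exact_mod_cast hR
  have h1 := abstract A (range L) (fun T x y => ∏ i ∈ T, dl (x : ZMod (P i)) (y : ZMod (P i)))
    (fun x => ∏ i ∈ R, (dl (x : ZMod (P i)) (b i) + 2)) h (L * 2 ^ R.card) (2 * (Q : ℝ) ^ 7)
    ((Q : ℝ) ^ 2) hh (fun x => (hh x).trans ((ub_le P R (fun i => (x : ZMod (P i))) b).trans
      (pow_le_pow_left₀ (Nat.cast_nonneg _) hR' 2))) (fun T hT T' hT' y z => by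
        have h2 := three P hP Q L R T T' hR (hA T hT) (hA T' hT') b
          (fun i => (y : ZMod (P i))) (fun i => (z : ZMod (P i)))
        rw [mul_ite, mul_zero, ← mul_assoc] at h2
        exact h2)
  have hcard : A.card ≤ Q := by
    refine le_trans (card_le_card fun T hT => ?_) (card_fam P hP Q)
    simp only [fam, mem_filter, mem_univ, true_and]
    exact (hA T hT).2
  have hcard' : (A.card : ℝ) ≤ Q := by exact_mod_cast hcard
  have h4 : (4 : ℝ) ^ R.card = (2 ^ R.card) ^ 2 := by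
    rw [← pow_mul, mul_comm, pow_mul]
    norm_num
  rw [h4]
  refine numer _ _ _ Q (one_le_pow₀ (by norm_num)) (by exact_mod_cast hQ) (by exact_mod_cast hL)
    _ (sum_ub P hP Q L R hR b) _ (by positivity) ?_ h1
  rw [card_range]
  calc _ ≤ (Q : ℝ) ^ 2 * (L : ℝ) ^ 2 * (((Q : ℝ) ^ 2) ^ 2 * (2 * (Q : ℝ) ^ 7)) := by gcongr
    _ = _ := by ring

open Bessel in
/-- Domination of tensor products of frames. -/
theorem tensor_dom (T : Finset ι) {Θ : ι → Type} [∀ i, Fintype (Θ i)] (ν : ∀ i, Θ i → ℝ)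
    (ψ : ∀ i, Θ i → ZMod (P i) → ℝ) (hν : ∀ i θ, 0 ≤ ν i θ)
    (hfr : ∀ i ∈ T, ∀ h : ZMod (P i) → ℝ,
      ∑ θ, ν i θ * (∑ a, ψ i θ a * h a) ^ 2 ≤ P i * ∑ a, h a ^ 2 - (∑ a, h a) ^ 2)
    (L : ℕ) (h : ℕ → ℝ) :
    ∑ x ∈ range L, ∑ y ∈ range L,
      h x * h y * ∏ i ∈ T, ∑ θ, ν i θ * (ψ i θ (x : ZMod (P i)) * ψ i θ (y : ZMod (P i))) ≤
    ∑ x ∈ range L, ∑ y ∈ range L,
      h x * h y * ∏ i ∈ T, dl (x : ZMod (P i)) (y : ZMod (P i)) := by
  have hq : ∀ (i : ι) (g : ZMod (P i) → ℝ),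
      ∑ b, g b * ∑ a, (∑ θ, ν i θ * (ψ i θ b * ψ i θ a)) * g a =
        ∑ θ, ν i θ * (∑ a, ψ i θ a * g a) ^ 2 := by
    intro i g
    simp only [sq, Finset.mul_sum, Finset.sum_mul]
    conv_rhs => rw [Finset.sum_comm]
    refine Finset.sum_congr rfl fun b _ => ?_
    rw [Finset.sum_comm]
    exact Finset.sum_congr rfl fun θ _ => Finset.sum_congr rfl fun a _ => by ring
  have hs : ∀ (i : ι) (a b : ZMod (P i)),
      ∑ θ, ν i θ * (ψ i θ a * ψ i θ b) = ∑ θ, ν i θ * (ψ i θ b * ψ i θ a) :=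
    fun i a b => Finset.sum_congr rfl fun θ _ => by ring
  have h1 := (psd_prod T (fun i x y => dl (x : ZMod (P i)) (y : ZMod (P i)))
    (fun i x y => ∑ θ, ν i θ * (ψ i θ (x : ZMod (P i)) * ψ i θ (y : ZMod (P i))))
    (fun i _ => (psd_of (fun a b : ZMod (P i) => ∑ θ, ν i θ * (ψ i θ a * ψ i θ b)) (hs i)
      (fun g => by
        rw [hq]
        exact Finset.sum_nonneg fun θ _ => mul_nonneg (hν i θ) (sq_nonneg _))).submatrix
          (fun x : ℕ => (x : ZMod (P i))))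
    (fun i hi => (psd_of (fun a b : ZMod (P i) => dl a b - ∑ θ, ν i θ * (ψ i θ a * ψ i θ b))
      (fun a b => by rw [dl_symm, hs]) (fun g => by
        simp only [sub_mul, Finset.sum_sub_distrib, mul_sub]
        rw [hq, quad_dl, sub_nonneg]
        exact hfr i hi g)).submatrix (fun x : ℕ => (x : ZMod (P i))))).2
  have h2 := nonneg_of_psd h1 L h
  simp only [mul_sub, Finset.sum_sub_distrib] at h2
  exact sub_nonneg.1 h2

end

end Vale.Agent.P042
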