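import Vale.Agent.P042.Four

open Finset Polynomial

namespace Vale.Agent.P042

namespace CSum

lemma natDegree_diff {p : ℕ} [Fact p.Prime] (Q : (ZMod p)[X]) (r : ℕ) (hQ : Q.natDegree = r + 1)
    (hr : r + 1 < p) (h : ZMod p) (hh : h ≠ 0) : (taylor h Q - Q).natDegree = r := by
  have hQ0 : Q ≠ 0 := by
    rintro rfl
    simp at hQ
  have hlead : Q.coeff (r + 1) ≠ 0 := by
    rw [← hQ]
    exact leadingCoeff_ne_zero.mpr hQ0
  refine le_antisymm ?_ (le_natDegree_of_ne_zero ?_)
  · rw [natDegree_le_iff_coeff_eq_zero]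
    intro N hN
    rw [coeff_sub, sub_eq_zero]
    rcases (show r + 1 ≤ N from hN).eq_or_lt with h1 | h1
    · rw [← h1, ← hQ, coeff_taylor_natDegree]
      rfl
    · rw [coeff_eq_zero_of_natDegree_lt (by rw [natDegree_taylor]; omega),
        coeff_eq_zero_of_natDegree_lt (by omega)]
  · have h1 : (hasseDeriv r Q).natDegree < 2 := by
      have := natDegree_hasseDeriv_le Q r
      omega
    rw [coeff_sub, taylor_coeff, eval_eq_sum_range' h1, sum_range_succ, sum_range_one,
      hasseDeriv_coeff, hasseDeriv_coeff, add_comm 1 r, Nat.choose_succ_self_right]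
    have h2 : ((r + 1 : ℕ) : ZMod p) ≠ 0 := by
      rw [Ne, ZMod.natCast_eq_zero_iff]
      exact Nat.not_dvd_of_pos_of_lt (by omega) hr
    have h3 := mul_ne_zero (mul_ne_zero h2 hlead) hh
    simpa using h3

lemma lin {p : ℕ} [Fact p.Prime] (Q : (ZMod p)[X]) (hQ : Q.natDegree = 1) :
    ∑ n : ZMod p, ZMod.stdAddChar (Q.eval n) = 0 := by
  obtain ⟨a, ha, b, rfl⟩ := natDegree_eq_one.mp hQ
  simp only [eval_add, eval_mul, eval_C, eval_X, AddChar.map_add_eq_mul]
  rw [← sum_mul]
  have := Four.orth p a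
  rw [if_neg ha] at this
  simp only [mul_comm a]
  rw [this, zero_mul]

lemma main (p : ℕ) [Fact p.Prime] : ∀ (j : ℕ), j + 1 < p → ∀ Q : (ZMod p)[X],
    1 ≤ Q.natDegree → Q.natDegree ≤ j + 1 →
    ‖∑ n : ZMod p, ZMod.stdAddChar (Q.eval n)‖ ≤ p * (2 * (p : ℝ) ^ (-(1 / 2 ^ j : ℝ)))
  | 0, _, Q, h1, h2 => by
    rw [lin Q (by omega), norm_zero]
    positivity
  | j + 1, hj, Q, h1, h2 => by
    rcases h1.eq_or_lt with h3 | h3
    · rw [lin Q h3.symm, norm_zero]
      positivity
    obtain ⟨r, hr⟩ : ∃ r, Q.natDegree = r + 1 := ⟨Q.natDegree - 1, by omega⟩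
    have hp1 : (1 : ℝ) ≤ p := by exact_mod_cast (by omega : 1 ≤ p)
    have hp0 : (0 : ℝ) < p := by linarith
    set b : ℝ := (p : ℝ) ^ (-(1 / 2 ^ j : ℝ)) with hb
    have hb0 : 0 < b := by positivity
    have hpb : 1 ≤ p * b := by
      have h4 : (p : ℝ) ^ (-1 : ℝ) ≤ b := by
        refine Real.rpow_le_rpow_of_exponent_le hp1 (neg_le_neg ?_)
        rw [div_le_one (by positivity)]
        exact one_le_pow₀ (by norm_num)
      rw [Real.rpow_neg_one] at h4
      have := mul_le_mul_of_nonneg_left h4 hp0.le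
      rwa [mul_inv_cancel₀ hp0.ne'] at this
    have hS : ((‖∑ n : ZMod p, ZMod.stdAddChar (Q.eval n)‖ ^ 2 : ℝ) : ℂ)
        = ∑ h : ZMod p, ∑ n : ZMod p, ZMod.stdAddChar ((taylor h Q - Q).eval n) := by
      push_cast
      rw [← Complex.mul_conj', map_sum, sum_mul_sum, sum_comm, sum_comm (s := univ) (t := univ)
        (f := fun h n => ZMod.stdAddChar ((taylor h Q - Q).eval n))]
      refine sum_congr rfl fun n _ => ?_
      rw [← Equiv.sum_comp (Equiv.addLeft n)]
      refine sum_congr rfl fun h _ => ?_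
      rw [eval_sub, taylor_eval, sub_eq_add_neg, AddChar.map_add_eq_mul, AddChar.map_neg_eq_conj]
      rfl
    have hT : ∀ h : ZMod p, ‖∑ n : ZMod p, ZMod.stdAddChar ((taylor h Q - Q).eval n)‖
        ≤ (if h = 0 then (p : ℝ) else 0) + p * (2 * b) := by
      intro h
      split_ifs with hh
      · refine (norm_sum_le _ _).trans ?_
        simp only [AddChar.norm_apply, sum_const, card_univ, ZMod.card, nsmul_eq_mul, mul_one]
        have : 0 ≤ p * (2 * b) := by positivity
        linarith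
      · have h4 := natDegree_diff Q r hr (by omega) h hh
        rw [zero_add]
        exact main p j (by omega) _ (by omega) (by omega)
    have h5 : ‖∑ n : ZMod p, ZMod.stdAddChar (Q.eval n)‖ ^ 2 ≤ p + p * (p * (2 * b)) := by
      have h6 := congrArg norm hS
      rw [Complex.norm_real, Real.norm_eq_abs, abs_of_nonneg (by positivity)] at h6
      rw [h6]
      refine (norm_sum_le _ _).trans ((sum_le_sum fun h _ => hT h).trans ?_)
      rw [sum_add_distrib]
      simp [ZMod.card]
    have h6 : ((p : ℝ) ^ (-(1 / 2 ^ (j + 1) : ℝ))) ^ 2 = b := by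
      rw [hb, ← Real.rpow_natCast, ← Real.rpow_mul hp0.le]
      congr 1
      push_cast
      field_simp
      ring
    refine (pow_le_pow_iff_left₀ (norm_nonneg _) (by positivity) two_ne_zero).mp (h5.trans ?_)
    rw [mul_pow, mul_pow, h6]
    nlinarith

lemma card_roots_le {p : ℕ} [Fact p.Prime] (P : (ZMod p)[X]) (hP : P ≠ 0) :
    (univ.filter fun n : ZMod p => P.eval n = 0).card ≤ P.natDegree := by
  refine card_le_degree_of_subset_roots fun n hn => ?_
  rw [mem_roots hP]
  exact (mem_filter.mp hn).2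

end CSum

/-- Complete exponential sums modulo a prime, by Weyl differencing. -/
theorem csum (k p : ℕ) [Fact p.Prime] (hp : k < p) (Q : (ZMod p)[X])
    (h1 : 1 ≤ Q.natDegree) (h2 : Q.natDegree ≤ k) :
    ‖∑ n : ZMod p, ZMod.stdAddChar (Q.eval n)‖ ≤
      p * (2 * (p : ℝ) ^ (-(1 / 2 ^ (k - 1) : ℝ))) :=
  CSum.main p (k - 1) (by omega) Q h1 (by omega)

theorem kern_facts (k p : ℕ) [Fact p.Prime] (hk : 2 ≤ k) (hp : k ^ 2 < p) (g : ℤ[X])
    (hdeg : g.natDegree ≤ k) (hnc : NC g p) :
    (∀ d, 0 ≤ kern p g d ∧ kern p g d ≤ k) ∧ OpB (kern p g) (rho k p) ∧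
    (univ.filter fun n : ZMod p => evm p (derivative g) n = 0).card ≤ k ∧
    ∀ ξ : ZMod p, ξ ≠ 0 → ‖∑ n, ZMod.stdAddChar (ξ * evm p g n)‖ ≤
      p * (2 * (p : ℝ) ^ (-(1 / 2 ^ (k - 1) : ℝ))) := by
  have hkp : k < p := by nlinarith
  set G : (ZMod p)[X] := g.map (Int.castRingHom (ZMod p)) with hG
  have hG1 : 1 ≤ G.natDegree := by
    obtain ⟨j, hj, hjp⟩ := hnc
    refine hj.trans (le_natDegree_of_ne_zero ?_)
    rw [hG, coeff_map, eq_intCast, Ne, ZMod.intCast_zmod_eq_zero_iff_dvd]
    exact hjp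
  have hGk : G.natDegree ≤ k := natDegree_map_le.trans hdeg
  have hG0 : G ≠ 0 := by
    intro h
    rw [h] at hG1
    simp at hG1
  have hD : derivative G ≠ 0 := by
    obtain ⟨r, hr⟩ : ∃ r, G.natDegree = r + 1 := ⟨G.natDegree - 1, by omega⟩
    intro h
    have h1 := congrArg (fun P => coeff P r) h
    simp only [coeff_derivative, coeff_zero] at h1
    have h2 : ((r + 1 : ℕ) : ZMod p) ≠ 0 := by
      rw [Ne, ZMod.natCast_eq_zero_iff]
      exact Nat.not_dvd_of_pos_of_lt (by omega) (by omega)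
    have h3 : G.coeff (r + 1) ≠ 0 := by
      rw [← hr]
      exact leadingCoeff_ne_zero.mpr hG0
    exact mul_ne_zero h3 (by exact_mod_cast h2) h1
  have hsing : (univ.filter fun n : ZMod p => evm p (derivative g) n = 0).card ≤ k := by
    have h1 := CSum.card_roots_le _ hD
    have h2 := natDegree_derivative_le G
    simp only [evm, ← derivative_map]
    rw [← hG]
    omega
  have hcomp : ∀ ξ : ZMod p, ξ ≠ 0 → ‖∑ n, ZMod.stdAddChar (ξ * evm p g n)‖ ≤
      p * (2 * (p : ℝ) ^ (-(1 / 2 ^ (k - 1) : ℝ))) := by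
    intro ξ hξ
    have h1 := csum k p hkp (C ξ * G) (by rwa [natDegree_C_mul hξ]) (by rwa [natDegree_C_mul hξ])
    simp only [eval_mul, eval_C] at h1
    exact h1
  refine ⟨fun d => ⟨Nat.cast_nonneg _, ?_⟩, ?_, hsing, hcomp⟩
  · have h1 : G - C d ≠ 0 := by
      intro h
      have h2 := congrArg natDegree h
      rw [natDegree_sub_C, natDegree_zero] at h2
      omega
    have h2 := CSum.card_roots_le _ h1
    rw [natDegree_sub_C] at h2
    unfold kern
    norm_cast
    refine le_trans (card_le_card fun n hn => ?_) (h2.trans hGk)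
    rw [mem_filter] at hn ⊢
    refine ⟨hn.1, ?_⟩
    rw [eval_sub, eval_C, sub_eq_zero]
    exact hn.2.1
  · have hp1 : (1 : ℝ) ≤ p := by exact_mod_cast (by omega : 1 ≤ p)
    have hp0 : (0 : ℝ) < p := by linarith
    set b : ℝ := (p : ℝ) ^ (-(1 / 2 ^ (k - 1) : ℝ)) with hb
    have hb0 : 0 < b := by positivity
    have hkb : (k : ℝ) ≤ p * b := by
      have h4 : (p : ℝ) ^ (-(1 / 2) : ℝ) ≤ b := by
        refine Real.rpow_le_rpow_of_exponent_le hp1 (neg_le_neg ?_)
        refine one_div_le_one_div_of_le (by norm_num) ?_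
        exact le_self_pow₀ (by norm_num) (by omega)
      have h5 : (p : ℝ) * (p : ℝ) ^ (-(1 / 2) : ℝ) = √(p : ℝ) := by
        rw [Real.sqrt_eq_rpow, ← Real.rpow_one_add' hp0.le (by norm_num)]
        norm_num
      have h6 : (k : ℝ) ≤ √(p : ℝ) := Real.le_sqrt_of_sq_le (by exact_mod_cast hp.le)
      nlinarith
    intro u v
    refine opb_of_four p (fun d => kern p g d - 1) (rho k p * p) (fun ξ => ?_) u v
    have h1 : ∑ d, ((kern p g d - 1 : ℝ) : ℂ) * ZMod.stdAddChar (ξ * d)
        = ∑ n, ZMod.stdAddChar (ξ * evm p g n) - ∑ d, ZMod.stdAddChar (ξ * d)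
          - ∑ n ∈ univ.filter (fun n : ZMod p => evm p (derivative g) n = 0),
            ZMod.stdAddChar (ξ * evm p g n) := by
      have h2 : ∑ d, ((kern p g d : ℝ) : ℂ) * ZMod.stdAddChar (ξ * d)
          = ∑ n ∈ univ.filter (fun n : ZMod p => ¬ evm p (derivative g) n = 0),
            ZMod.stdAddChar (ξ * evm p g n) := by
        rw [← sum_fiberwise (univ.filter fun n : ZMod p => ¬ evm p (derivative g) n = 0)
          (evm p g)]
        refine sum_congr rfl fun d _ => ?_
        rw [sum_congr rfl (g := fun _ => ZMod.stdAddChar (ξ * d))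
          fun n hn => by rw [(mem_filter.mp hn).2]]
        rw [sum_const, nsmul_eq_mul, filter_filter, kern]
        simp only [and_comm, Complex.ofReal_natCast]
      have h3 := sum_filter_add_sum_filter_not univ
        (fun n : ZMod p => evm p (derivative g) n = 0) fun n => ZMod.stdAddChar (ξ * evm p g n)
      push_cast
      simp only [sub_mul, one_mul, sum_sub_distrib]
      rw [h2, ← h3]
      ring
    have h2 : ‖∑ n ∈ univ.filter (fun n : ZMod p => evm p (derivative g) n = 0),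
        ZMod.stdAddChar (ξ * evm p g n)‖ ≤ p * b := by
      refine (norm_sum_le _ _).trans (le_trans ?_ hkb)
      simp only [AddChar.norm_apply, sum_const, nsmul_eq_mul, mul_one]
      exact_mod_cast hsing
    have h3 : ‖∑ n, ZMod.stdAddChar (ξ * evm p g n) - ∑ d, ZMod.stdAddChar (ξ * d)‖
        ≤ p * (2 * b) := by
      by_cases hξ : ξ = 0
      · simp only [hξ, zero_mul, sub_self, norm_zero]
        positivity
      · have h4 := Four.orth p ξ
        rw [if_neg hξ] at h4
        simp only [mul_comm _ ξ] at h4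
        rw [h4, sub_zero]
        exact hcomp ξ hξ
    rw [h1]
    refine (norm_sub_le _ _).trans ?_
    unfold rho
    rw [← hb]
    linarith

end Vale.Agent.P042
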