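import Vale.Agent.P042.Defs

open Finset Polynomial

namespace Vale.Agent.P042

namespace Chess

variable {j : ℕ}

lemma tt_tt (c : Fin 3) (x : Fin 6) : tt c (tt c x) = x := by revert c x; decide

lemma inL_tt (c : Fin 3) (x : Fin 6) : inL c (tt c x) ↔ ¬ inL c x := by revert c x; decide

lemma fo_fo (x : Fin 6) : fo 2 (fo 1 (fo 0 x)) = 3 := by revert x; decide

lemma sT_sT (i : Fin j) (c : Fin 3) (a : Site j) : sT i c (sT i c a) = a := by
  simp [sT, tt_tt]

lemma sF_of_mem {i : Fin j} {c : Fin 3} {a : Site j} (h : inL c (a i)) : sF i c a = a := by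
  simp [sF, fo, h]

lemma sF_sT_of_mem {i : Fin j} {c : Fin 3} {a : Site j} (h : inL c (a i)) :
    sF i c (sT i c a) = a := by
  simp [sF, sT, fo, inL_tt, h, tt_tt]

lemma comp_sT_sT {Y : Type} (i : Fin j) (c : Fin 3) (x : Site j → Y) :
    (x ∘ sT i c) ∘ sT i c = x := funext fun a => congrArg x (sT_sT i c a)

lemma prod_split (i : Fin j) (c : Fin 3) (f : Site j → ℝ) :
    ∏ w, f w = (∏ w ∈ univ.filter (fun w : Site j => inL c (w i)), f w) *
      ∏ w ∈ univ.filter (fun w : Site j => inL c (w i)), f (sT i c w) := by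
  rw [← prod_filter_mul_prod_filter_not univ (fun w : Site j => inL c (w i))]
  refine congrArg _ (prod_nbij' (sT i c) (sT i c) ?_ ?_ ?_ ?_ ?_)
  · intro a ha
    simpa [sT, inL_tt] using ha
  · intro a ha
    simpa [sT, inL_tt] using ha
  · exact fun a _ => sT_sT i c a
  · exact fun a _ => sT_sT i c a
  · exact fun a _ => by rw [sT_sT]

lemma max_const (Z : (Site j → Site j) → ℝ) (hZ : ∀ σ i c, 0 ≤ Z (σ ∘ sF i c) ∧
    0 ≤ Z (σ ∘ sT i c ∘ sF i c) ∧ Z σ ^ 2 ≤ Z (σ ∘ sF i c) * Z (σ ∘ sT i c ∘ sF i c)) :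
    ∃ w, |Z id| ≤ |Z fun _ => w| := by
  have step : ∀ σ i c, (∀ τ, |Z τ| ≤ |Z σ|) → ∀ τ, |Z τ| ≤ |Z (σ ∘ sF i c)| := by
    intro σ i c hσ τ
    obtain ⟨h1, h2, h3⟩ := hZ σ i c
    have h4 := hσ (σ ∘ sT i c ∘ sF i c)
    rw [abs_of_nonneg h2] at h4
    refine (hσ τ).trans ?_
    rw [abs_of_nonneg h1]
    rw [← sq_abs] at h3
    by_contra hlt
    rw [not_le] at hlt
    nlinarith
  obtain ⟨σ, hσ⟩ := Finite.exists_max fun τ => |Z τ|
  have key : ∀ s : Finset (Fin j), ∀ τ, |Z τ| ≤
      |Z (σ ∘ fun a i => if i ∈ s then 3 else a i)| := by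
    intro s
    induction s using Finset.induction_on with
    | empty =>
      simp only [notMem_empty, if_false]
      exact hσ
    | insert i s hi ih =>
      have e : (σ ∘ fun (a : Site j) l => if l ∈ insert i s then 3 else a l) =
          (((σ ∘ fun (a : Site j) l => if l ∈ s then 3 else a l) ∘ sF i 2) ∘ sF i 1) ∘ sF i 0 := by
        refine funext fun a => congrArg σ (funext fun l => ?_)
        by_cases hl : l = i
        · subst hl
          simp [sF, fo_fo]
        · simp [sF, hl]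
      rw [e]
      exact step _ i 0 (step _ i 1 (step _ i 2 ih))
  refine ⟨σ fun _ => 3, ?_⟩
  have := key univ id
  simp only [mem_univ, if_true] at this
  exact this

variable {Y : Type} [Fintype Y] {T : (Site j → Y) → ℝ}

/-- the bilinear form across a wall -/
noncomputable def bil (T : (Site j → Y) → ℝ) (i : Fin j) (c : Fin 3) (U V : (Site j → Y) → ℝ) : ℝ :=
  ∑ x, T x * (U (x ∘ sF i c) * V (x ∘ sT i c ∘ sF i c))

lemma bil_nonneg (h : RP T) (i : Fin j) (c : Fin 3) (U : (Site j → Y) → ℝ) :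
    0 ≤ bil T i c U U := (h i c).2 U

lemma bil_symm (h : RP T) (i : Fin j) (c : Fin 3) (U V : (Site j → Y) → ℝ) :
    bil T i c U V = bil T i c V U := by
  have hi : Function.Involutive fun x : Site j → Y => x ∘ sT i c := comp_sT_sT i c
  unfold bil
  rw [← Equiv.sum_comp hi.toPerm]
  refine sum_congr rfl fun x _ => ?_
  simp only [Function.Involutive.coe_toPerm, (h i c).1, ← Function.comp_assoc, comp_sT_sT]
  ring

lemma bil_cs (h : RP T) (i : Fin j) (c : Fin 3) (U V : (Site j → Y) → ℝ) :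
    bil T i c U V ^ 2 ≤ bil T i c U U * bil T i c V V := by
  have key : ∀ t : ℝ, 0 ≤ bil T i c U U * (t * t) + 2 * bil T i c U V * t + bil T i c V V := by
    intro t
    refine ((h i c).2 fun a => t * U a + V a).trans_eq ?_
    rw [two_mul]
    nth_rw 2 [bil_symm h i c U V]
    simp only [bil, add_mul, sum_mul, ← sum_add_distrib]
    exact sum_congr rfl fun x _ => by ring
  have := discrim_le_zero key
  rw [discrim] at this
  linarith

variable [DecidableEq Y]

/-- the kernel of the form -/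
noncomputable def ker (T : (Site j → Y) → ℝ) (i : Fin j) (c : Fin 3) :
    Matrix (Site j → Y) (Site j → Y) ℝ :=
  Matrix.of fun a b => bil T i c (fun x => if x = a then 1 else 0) fun x => if x = b then 1 else 0

lemma bil_eq (i : Fin j) (c : Fin 3) (U V : (Site j → Y) → ℝ) :
    bil T i c U V = U ⬝ᵥ (ker T i c).mulVec V := by
  simp only [dotProduct, Matrix.mulVec, ker, bil, Matrix.of_apply, sum_mul, mul_sum]
  symm
  refine (sum_congr rfl fun a _ => sum_comm).trans (sum_comm.trans (sum_congr rfl fun x _ => ?_))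
  simp only [mul_ite, ite_mul, mul_one, mul_zero, zero_mul, sum_ite_eq, mem_univ, if_true]
  ring

lemma ker_psd (h : RP T) (i : Fin j) (c : Fin 3) : (ker T i c).PosSemidef := by
  refine .of_dotProduct_mulVec_nonneg ?_ fun U => ?_
  · ext a b
    simp only [ker, Matrix.conjTranspose_apply, Matrix.of_apply, star_trivial]
    exact bil_symm h i c _ _
  · rw [star_trivial, ← bil_eq]
    exact (h i c).2 U

lemma psd_prod {ι Z : Type} [Fintype Z] (M : ι → Matrix Z Z ℝ) (h : ∀ t, (M t).PosSemidef)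
    (s : Finset ι) : (Matrix.of fun a b => ∏ t ∈ s, M t a b).PosSemidef := by
  classical
  induction s using Finset.induction_on with
  | empty =>
    have := Matrix.posSemidef_vecMulVec_self_star (fun _ : Z => (1 : ℝ))
    have e : Matrix.vecMulVec (fun _ : Z => (1 : ℝ)) (star fun _ : Z => (1 : ℝ)) =
        Matrix.of fun _ _ => 1 := by ext a b; simp [Matrix.vecMulVec]
    simpa only [e, prod_empty] using this
  | insert t s ht ih =>
    simp only [prod_insert ht]
    exact (h t).hadamard ih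

variable {ι : Type} [Fintype ι] [DecidableEq ι] {X : ι → Type} [∀ i, Fintype (X i)]

lemma rp_tensor (Tw : ∀ i, (Site j → X i) → ℝ) (h : ∀ i, RP (Tw i)) :
    RP fun x : Site j → (∀ i, X i) => ∏ i, Tw i fun w => x w i := by
  classical
  intro i c
  refine ⟨fun x => prod_congr rfl fun t _ => (h t i c).1 fun w => x w t, fun U => ?_⟩
  have hp := psd_prod (fun t => (ker (Tw t) i c).submatrix
    (fun (a : Site j → ∀ i, X i) w => a w t) fun a w => a w t)
    (fun t => (ker_psd (h t) i c).submatrix _) univ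
  have e : ker (fun x : Site j → (∀ i, X i) => ∏ i, Tw i fun w => x w i) i c =
      Matrix.of fun a b => ∏ t, ((ker (Tw t) i c).submatrix
        (fun (a : Site j → ∀ i, X i) w => a w t) fun a w => a w t) a b := by
    ext a b
    simp only [ker, bil, Matrix.of_apply, Matrix.submatrix_apply]
    rw [prod_univ_sum, Fintype.piFinset_univ, ← Equiv.sum_comp (Equiv.piComm _)]
    refine sum_congr rfl fun x _ => ?_
    simp only [prod_mul_distrib, Fintype.prod_boole]
    refine congrArg₂ _ rfl (congrArg₂ _ (if_congr ?_ rfl rfl) (if_congr ?_ rfl rfl))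
    · exact ⟨fun h t => h ▸ rfl, fun h => funext fun w => funext fun t => congrFun (h t) w⟩
    · exact ⟨fun h t => h ▸ rfl, fun h => funext fun w => funext fun t => congrFun (h t) w⟩
  have := hp.dotProduct_mulVec_nonneg U
  rw [star_trivial, ← e, ← bil_eq] at this
  exact this

lemma form_smul {W : Type} [Fintype W] [DecidableEq W] (Tw : ∀ i, (W → X i) → ℝ) (c : W → ℝ)
    (F : W → (∀ i, X i) → ℝ) :
    form Tw (fun w a => c w * F w a) = (∏ w, c w) * form Tw F := by
  simp only [form, prod_mul_distrib, mul_sum]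
  exact sum_congr rfl fun x _ => by ring

end Chess

open Chess

section
variable {ι : Type} [Fintype ι] [DecidableEq ι] {j : ℕ} {X : ι → Type} [∀ i, Fintype (X i)]

/-- Cauchy-Schwarz across a wall for the tensor product. -/
theorem wall_cs (Tw : ∀ i, (Site j → X i) → ℝ) (h : ∀ i, RP (Tw i)) (i : Fin j) (c : Fin 3)
    (F : Site j → (∀ i, X i) → ℝ) :
    0 ≤ form Tw (F ∘ sF i c) ∧ 0 ≤ form Tw (F ∘ sT i c ∘ sF i c) ∧
      form Tw F ^ 2 ≤ form Tw (F ∘ sF i c) * form Tw (F ∘ sT i c ∘ sF i c) := by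
  have hT := rp_tensor Tw h
  set s := univ.filter fun w : Site j => inL c (w i) with hs
  have key : ∀ H H₁ H₂ : Site j → (∀ i, X i) → ℝ, (∀ w ∈ s, H w = H₁ w) →
      (∀ w ∈ s, H (sT i c w) = H₂ w) → form Tw H =
        bil (fun x : Site j → (∀ i, X i) => ∏ i, Tw i fun w => x w i) i c
          (fun a => ∏ w ∈ s, H₁ w (a w)) fun a => ∏ w ∈ s, H₂ w (a w) := by
    intro H H₁ H₂ h1 h2
    refine sum_congr rfl fun x _ => congrArg _ ?_
    rw [prod_split i c]
    refine congrArg₂ _ (prod_congr rfl fun w hw => ?_) (prod_congr rfl fun w hw => ?_)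
    · rw [h1 w hw, Function.comp_apply, sF_of_mem (mem_filter.1 hw).2]
    · rw [h2 w hw, Function.comp_apply, Function.comp_apply, sF_of_mem (mem_filter.1 hw).2]
  rw [key F F (F ∘ sT i c) (fun _ _ => rfl) fun _ _ => rfl,
    key (F ∘ sF i c) F F (fun w hw => congrArg F (sF_of_mem (mem_filter.1 hw).2))
      fun w hw => congrArg F (sF_sT_of_mem (mem_filter.1 hw).2),
    key (F ∘ sT i c ∘ sF i c) (F ∘ sT i c) (F ∘ sT i c)
      (fun w hw => congrArg (F ∘ sT i c) (sF_of_mem (mem_filter.1 hw).2))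
      fun w hw => congrArg (F ∘ sT i c) (sF_sT_of_mem (mem_filter.1 hw).2)]
  exact ⟨bil_nonneg hT i c _, bil_nonneg hT i c _, bil_cs hT i c _ _⟩

theorem diag_nonneg (hj : 1 ≤ j) (Tw : ∀ i, (Site j → X i) → ℝ) (h : ∀ i, RP (Tw i))
    (F : (∀ i, X i) → ℝ) : 0 ≤ form Tw (fun _ => F) :=
  (wall_cs Tw h ⟨0, hj⟩ 0 fun _ => F).1

/-- The chessboard estimate. -/
theorem chess (hj : 1 ≤ j) (Tw : ∀ i, (Site j → X i) → ℝ) (h : ∀ i, RP (Tw i))
    (F : Site j → (∀ i, X i) → ℝ) : ∃ w, |form Tw F| ≤ form Tw (fun _ => F w) := by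
  obtain ⟨w, hw⟩ := max_const (fun σ => form Tw (F ∘ σ)) fun σ i c => wall_cs Tw h i c (F ∘ σ)
  exact ⟨w, hw.trans_eq (abs_of_nonneg (diag_nonneg hj Tw h (F w)))⟩

/-- Contraction principle. -/
theorem contract (hj : 1 ≤ j) (Tw : ∀ i, (Site j → X i) → ℝ) (h : ∀ i, RP (Tw i))
    (F G : (∀ i, X i) → ℝ) (w0 : Site j)
    (hFG : form Tw (fun w => if w = w0 then F else G) = form Tw (fun _ => G)) :
    form Tw (fun _ => G) ≤ form Tw (fun _ => F) := by
  set N := Fintype.card (Site j) with hN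
  have hN0 : N ≠ 0 := Fintype.card_ne_zero
  have hF := diag_nonneg hj Tw h F
  have hG := diag_nonneg hj Tw h G
  have key : ∀ t : ℝ, 1 < t → form Tw (fun _ => G) ≤ (t ^ (N - 1)) ^ N * form Tw (fun _ => F) := by
    intro t ht
    have ht0 : 0 < t := by linarith
    obtain ⟨w, hw⟩ := chess hj Tw h fun w a =>
      (if w = w0 then t ^ (N - 1) else t⁻¹) * (if w = w0 then F else G) a
    have e : ∏ w : Site j, (if w = w0 then t ^ (N - 1) else t⁻¹) = 1 := by
      rw [← mul_prod_erase univ _ (mem_univ w0), if_pos rfl,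
        prod_congr rfl fun w hw => if_neg (ne_of_mem_erase hw), prod_const, card_erase_of_mem
          (mem_univ _), card_univ, ← mul_pow, mul_inv_cancel₀ ht0.ne', one_pow]
    rw [form_smul, form_smul Tw (fun _ => if w = w0 then t ^ (N - 1) else t⁻¹), e, one_mul, hFG,
      abs_of_nonneg hG, prod_const, card_univ] at hw
    split_ifs at hw
    · exact hw
    · have e1 : t⁻¹ ^ N < 1 := pow_lt_one₀ (by positivity) (inv_lt_one_of_one_lt₀ ht) hN0
      have e2 : 0 ≤ (t ^ (N - 1)) ^ N * form Tw (fun _ => F) := by positivity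
      nlinarith
  have hl : Filter.Tendsto (fun t : ℝ => (t ^ (N - 1)) ^ N * form Tw (fun _ => F))
      (nhdsWithin 1 (Set.Ioi 1)) (nhds (form Tw (fun _ => F))) := by
    have hc : Continuous fun t : ℝ => (t ^ (N - 1)) ^ N * form Tw (fun _ => F) := by fun_prop
    simpa using (hc.tendsto 1).mono_left nhdsWithin_le_nhds
  exact ge_of_tendsto hl (eventually_nhdsWithin_of_forall key)

end

end Vale.Agent.P042
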