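import Vale.Agent.P042.Expand

open Finset Polynomial

namespace Vale.Agent.P042

namespace Child

theorem prog (lam : ℕ) (hlam : 1 ≤ lam) (a b r : ℕ) (hr : r < lam) :
    ∃ x0 n : ℕ, b ≤ a + lam * n + lam ∧
      ∀ x, (a ≤ x ∧ x < b ∧ x % lam = r) ↔ ∃ y < n, x0 + lam * y = x := by
  obtain ⟨x0, h1, h2, h3⟩ : ∃ x0, a ≤ x0 ∧ x0 < a + lam ∧ x0 % lam = r := by
    refine ⟨a + (r + lam - a % lam) % lam, Nat.le_add_right _ _,
      Nat.add_lt_add_left (Nat.mod_lt _ hlam) _, ?_⟩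
    have h := Nat.mod_lt a hlam
    rw [Nat.add_mod_mod, ← Nat.mod_add_mod, show a % lam + (r + lam - a % lam) = r + lam by omega,
      Nat.add_mod_right, Nat.mod_eq_of_lt hr]
  have hn : ∀ y, y < (b - x0 + lam - 1) / lam ↔ x0 + lam * y < b := by
    intro y
    rw [Nat.lt_iff_add_one_le, Nat.le_div_iff_mul_le hlam, add_mul, one_mul, mul_comm y]
    omega
  refine ⟨x0, (b - x0 + lam - 1) / lam, ?_, fun x => ⟨?_, ?_⟩⟩
  · have := (hn ((b - x0 + lam - 1) / lam)).not.1 (lt_irrefl _)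
    omega
  · rintro ⟨e1, e2, e3⟩
    have hm : x0 ≡ x [MOD lam] := h3.trans e3.symm
    have hle : x0 ≤ x := by
      by_contra hlt
      have := Nat.eq_zero_of_dvd_of_lt ((Nat.modEq_iff_dvd' (not_le.1 hlt).le).1 hm.symm)
        (by omega)
      omega
    obtain ⟨y, hy⟩ := (Nat.modEq_iff_dvd' hle).1 hm
    exact ⟨y, (hn y).2 (by omega), by omega⟩
  · rintro ⟨y, hy, rfl⟩
    exact ⟨by omega, (hn y).1 hy, by rw [Nat.add_mul_mod_self_left, h3]⟩

/-- the cell of `x` -/
def ce (lam L x : ℕ) : Bool × ℕ := (decide (2 * x < L), x % lam)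

theorem cell (lam : ℕ) (hlam : 1 ≤ lam) (L : ℕ) (hL : 8 * lam ≤ L) (c : Bool × ℕ) :
    ∃ x0 n : ℕ, c.2 < lam → L ≤ 4 * lam * n ∧
      (range L).filter (fun x => ce lam L x = c) = (range n).image fun y => x0 + lam * y := by
  obtain ⟨b, r⟩ := c
  by_cases hr : r < lam
  swap
  · exact ⟨0, 0, fun h => absurd h hr⟩
  cases b
  · obtain ⟨x0, n, h1, h2⟩ := prog lam hlam ((L + 1) / 2) L r hr
    refine ⟨x0, n, fun _ => ⟨by rw [mul_assoc]; omega, ?_⟩⟩
    ext x
    simp only [mem_filter, mem_range, mem_image, ← h2, ce, Prod.mk.injEq, decide_eq_false_iff_not]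
    omega
  · obtain ⟨x0, n, h1, h2⟩ := prog lam hlam 0 ((L + 1) / 2) r hr
    refine ⟨x0, n, fun _ => ⟨by rw [mul_assoc]; omega, ?_⟩⟩
    ext x
    simp only [mem_filter, mem_range, mem_image, ← h2, ce, Prod.mk.injEq, decide_eq_true_eq]
    omega

theorem kap_aff {W : Type} [Fintype W] [DecidableEq W] {p : ℕ} [Fact p.Prime]
    (T T' : (W → ZMod p) → ℝ) (c l : ZMod p) (hl : l ≠ 0)
    (h : ∀ x, T' x = T fun w => c + l * x w) (J : Finset W) (a : W → ZMod p) :
    kap T J (fun w => c + l * a w) = kap T' J a := by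
  unfold kap
  symm
  refine Fintype.sum_equiv
    (Equiv.piCongrRight fun _ => (Equiv.mulLeft₀ l hl).trans (Equiv.addLeft c)) _ _ fun x => ?_
  rw [h]
  refine congrArg₂ _ rfl (prod_congr rfl fun w _ => ?_)
  change _ = dl (c + l * a w) (c + l * x w)
  simp only [dl, add_right_inj, mul_right_inj' hl]

theorem form_aff {ι W : Type} [Fintype ι] [DecidableEq ι] [Fintype W] [DecidableEq W]
    (P : ι → ℕ) [∀ i, Fact (P i).Prime] (T T' : ∀ i, (W → ZMod (P i)) → ℝ)
    (hT : ∀ i, ∑ x, T i x = 1) (hT' : ∀ i, ∑ x, T' i x = 1) (B : Finset ι) (lam : ℕ)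
    (hcop : ∀ i ∉ B, ¬ P i ∣ lam)
    (hrel : ∀ i ∉ B, ∀ (c : ZMod (P i)) (x : W → ZMod (P i)),
      T' i x = T i (fun w => c + (lam : ZMod (P i)) * x w)) (Q x0 : ℕ) (x : W → ℕ) :
    form T (fun w => DD P (famB P B Q) (x0 + lam * x w)) =
      form T' (fun w => DD P (famB P B Q) (x w)) := by
  rw [form_DD P T (fun _ => famB P B Q) fun w => x0 + lam * x w,
    form_DD P T' (fun _ => famB P B Q) x]
  refine sum_congr rfl fun J hJ => prod_congr rfl fun i _ => ?_
  by_cases hi : i ∈ B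
  · have h0 : J i = ∅ := by
      refine eq_empty_of_forall_notMem fun w hw => ?_
      have h1 := (mem_filter.1 ((mem_filter.1 hJ).2 w)).2.1
      exact disjoint_left.1 h1 (mem_filter.2 ⟨mem_univ i, hw⟩) hi
    simp only [kap, h0, prod_empty, mul_one, hT, hT']
  · rw [← kap_aff (T i) (T' i) x0 lam
      (fun h => hcop i hi ((ZMod.natCast_eq_zero_iff _ _).1 h)) (hrel i hi x0)]
    simp only [Nat.cast_add, Nat.cast_mul]

end Child

open Child

/-- A form evaluated on unions of cells is controlled by the children. -/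
theorem children {ι : Type} [Fintype ι] [DecidableEq ι] (P : ι → ℕ) [∀ i, Fact (P i).Prime]
    {j : ℕ} (hj : 1 ≤ j) (T T' : ∀ i, (Site j → ZMod (P i)) → ℝ)
    (hT : ∀ i, Nice (T i)) (hT' : ∀ i, Nice (T' i)) (B : Finset ι) (lam : ℕ) (hlam : 1 ≤ lam)
    (hcop : ∀ i ∉ B, ¬ P i ∣ lam)
    (hrel : ∀ i ∉ B, ∀ (c : ZMod (P i)) (x : Site j → ZMod (P i)),
      T' i x = T i (fun w => c + (lam : ZMod (P i)) * x w))
    (Q L : ℕ) (hL : 8 * lam ≤ L) (f : ℕ → ℝ) (Zm : ℝ)
    (hZ : ∀ x0 L' : ℕ, L ≤ 4 * lam * L' →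
      form T' (fun _ => lift P (fam P Q) L' (fun x => f (x0 + lam * x))) ≤ Zm)
    (R : Site j → Finset ℕ) (hR : ∀ w, R w ⊆ range L)
    (hcell : ∀ w x y, x < L → y < L → (2 * x < L ↔ 2 * y < L) → x ≡ y [MOD lam] →
      x ∈ R w → y ∈ R w) :
    |form T (fun w => lift P (famB P B Q) L (fun x => if x ∈ R w then f x else 0))| ≤
      Zm * ∏ w, (((R w).card : ℝ) / L) := by
  choose x0 n hc using cell lam hlam L hL
  let s : Site j → Finset (Bool × ℕ) := fun w => (R w).image (ce lam L)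
  have hs : ∀ w, ∀ c ∈ s w, c.2 < lam := by
    intro w c hcs
    obtain ⟨x, -, rfl⟩ := mem_image.1 hcs
    exact Nat.mod_lt _ hlam
  have hn : ∀ c : Bool × ℕ, c.2 < lam → (n c : ℝ) ≠ 0 := by
    intro c h h0
    have h1 := (hc c h).1
    rw [Nat.cast_eq_zero.1 h0] at h1
    omega
  have hfib : ∀ w, ∀ c ∈ s w, (R w).filter (fun x => ce lam L x = c) =
      (range (n c)).image fun y => x0 c + lam * y := by
    intro w c hcs
    rw [← (hc c (hs w c hcs)).2]
    obtain ⟨x, hx, rfl⟩ := mem_image.1 hcs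
    ext y
    simp only [mem_filter]
    refine ⟨fun h => ⟨hR w h.1, h.2⟩, fun h => ⟨?_, h.2⟩⟩
    have h1 := h.2
    simp only [ce, Prod.mk.injEq, decide_eq_decide] at h1
    exact hcell w x y (mem_range.1 (hR w hx)) (mem_range.1 h.1) h1.1.symm h1.2.symm hx
  have hsum : ∀ w (g : ℕ → ℝ), ∑ x ∈ R w, g x =
      ∑ c ∈ s w, ∑ y ∈ range (n c), g (x0 c + lam * y) := by
    intro w g
    rw [← sum_fiberwise_of_maps_to (g := ce lam L) (t := s w) fun x hx => mem_image_of_mem _ hx]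
    refine sum_congr rfl fun c hcs => ?_
    rw [hfib w c hcs, sum_image]
    intro y _ y' _ h
    exact Nat.eq_of_mul_eq_mul_left hlam (Nat.add_left_cancel h)
  let F : Bool × ℕ → (∀ i, ZMod (P i)) → ℝ := fun c ω =>
    ∑ y ∈ range (n c), f (x0 c + lam * y) / n c * DD P (famB P B Q) (x0 c + lam * y) ω
  have e1 : (fun w => lift P (famB P B Q) L (fun x => if x ∈ R w then f x else 0)) =
      fun w ω => ∑ c ∈ s w, (n c : ℝ) / L * F c ω := by
    funext w ω
    have e : ∑ x ∈ range L, (if x ∈ R w then f x else 0) * DD P (famB P B Q) x ω =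
        ∑ x ∈ R w, f x * DD P (famB P B Q) x ω := by
      simp only [ite_mul, zero_mul, sum_ite_mem, inter_eq_right.2 (hR w)]
    rw [lift, e, hsum, sum_div]
    refine sum_congr rfl fun c hcs => ?_
    have h0 := hn c (hs w c hcs)
    simp only [F]
    rw [mul_sum, sum_div]
    refine sum_congr rfl fun y _ => ?_
    field_simp
  have e2 : ∀ c : Bool × ℕ, c.2 < lam → form T (fun _ => F c) ≤ Zm := by
    intro c h
    refine le_trans (le_of_eq ?_) ((diag_famB_le P hj T' hT' B Q (n c)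
      fun y => f (x0 c + lam * y)).trans (hZ _ _ (hc c h).1))
    have e : (fun _ : Site j => lift P (famB P B Q) (n c) fun y => f (x0 c + lam * y)) =
        fun _ ω => ∑ y ∈ range (n c), f (x0 c + lam * y) / n c * DD P (famB P B Q) y ω := by
      funext _ ω
      rw [lift, sum_div]
      exact sum_congr rfl fun y _ => by ring
    rw [e, form_sum T' (fun _ => range (n c)) (fun _ y => f (x0 c + lam * y) / n c)
      fun _ y => DD P (famB P B Q) y]
    refine (form_sum T (fun _ => range (n c)) (fun _ y => f (x0 c + lam * y) / n c)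
      fun _ y => DD P (famB P B Q) (x0 c + lam * y)).trans (sum_congr rfl fun y _ => ?_)
    rw [form_aff P T T' (fun i => (hT i).2.1) (fun i => (hT' i).2.1) B lam hcop hrel]
  have e3 : ∏ w, (((R w).card : ℝ) / L) =
      ∑ c ∈ Fintype.piFinset s, ∏ w, (n (c w) : ℝ) / L := by
    rw [← prod_univ_sum s fun _ c => (n c : ℝ) / L]
    refine prod_congr rfl fun w _ => ?_
    have := hsum w fun _ => 1
    simp only [sum_const, card_range, nsmul_eq_mul, mul_one] at this
    rw [this, sum_div]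
  rw [e1, form_sum T s (fun _ c => (n c : ℝ) / L) fun _ c => F c, e3, mul_sum]
  refine (abs_sum_le_sum_abs _ _).trans (sum_le_sum fun c hcs => ?_)
  have h0 : 0 ≤ ∏ w, (n (c w) : ℝ) / L := prod_nonneg fun w _ => by positivity
  rw [abs_mul, abs_of_nonneg h0, mul_comm]
  refine mul_le_mul_of_nonneg_right ?_ h0
  obtain ⟨w, hw⟩ := chess hj T (fun i => (hT i).1) fun w => F (c w)
  exact hw.trans (e2 _ (hs w _ (Fintype.mem_piFinset.1 hcs w)))

end Vale.Agent.P042
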