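import Vale.Agent.P042.Defs

open Finset Polynomial

namespace Vale.Agent.P042

namespace Eqd

theorem per_add_mul {R : Type} {M : ℕ} {Φ : ℕ → R} (hΦ : ∀ n, Φ (n + M) = Φ n) (n c : ℕ) :
    Φ (n + c * M) = Φ n := by
  induction c with
  | zero => simp
  | succ c ih => rw [Nat.succ_mul, ← add_assoc, hΦ, ih]

theorem per_mod {R : Type} {M : ℕ} {Φ : ℕ → R} (hΦ : ∀ n, Φ (n + M) = Φ n) (n : ℕ) :
    Φ (n % M) = Φ n := by
  conv_rhs => rw [← Nat.mod_add_div' n M]
  rw [per_add_mul hΦ]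

theorem crt_two {R : Type} [CommSemiring R] (a b : ℕ) (ha : 1 ≤ a) (hb : 1 ≤ b)
    (hab : Nat.Coprime a b) (F G : ℕ → R) (hF : ∀ n, F (n + a) = F n)
    (hG : ∀ n, G (n + b) = G n) :
    ∑ n ∈ range (a * b), F n * G n = (∑ n ∈ range a, F n) * ∑ n ∈ range b, G n := by
  rw [Finset.sum_mul_sum, ← Finset.sum_product']
  refine Finset.sum_bij' (fun n _ => (n % a, n % b))
    (fun x _ => (Nat.chineseRemainder hab x.1 x.2 : ℕ)) ?_ ?_ ?_ ?_ ?_
  · intro n _
    simp only [mem_product, mem_range]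
    exact ⟨Nat.mod_lt _ ha, Nat.mod_lt _ hb⟩
  · intro x _
    exact mem_range.2 (Nat.chineseRemainder_lt_mul hab _ _ (by omega) (by omega))
  · intro n hn
    have h1 := (Nat.chineseRemainder hab (n % a) (n % b)).2
    have h2 : (Nat.chineseRemainder hab (n % a) (n % b) : ℕ) ≡ n [MOD a * b] :=
      (Nat.modEq_and_modEq_iff_modEq_mul hab).1
        ⟨h1.1.trans (Nat.mod_modEq n a), h1.2.trans (Nat.mod_modEq n b)⟩
    exact Nat.ModEq.eq_of_lt_of_lt h2
      (Nat.chineseRemainder_lt_mul hab _ _ (by omega) (by omega)) (mem_range.1 hn)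
  · rintro ⟨x, y⟩ hx
    simp only [mem_product, mem_range] at hx
    have h1 := (Nat.chineseRemainder hab x y).2
    refine Prod.ext ?_ ?_
    · exact Eq.trans h1.1 (Nat.mod_eq_of_lt hx.1)
    · exact Eq.trans h1.2 (Nat.mod_eq_of_lt hx.2)
  · intro n _
    rw [per_mod hF, per_mod hG]

end Eqd

/-- Chinese remainder factorization of a complete sum of a product of periodic functions. -/
theorem crt_sum {ι R : Type} [CommSemiring R] (s : Finset ι) (r : ι → ℕ)
    (hr : ∀ i ∈ s, 1 ≤ r i) (hc : ∀ i ∈ s, ∀ i' ∈ s, i ≠ i' → Nat.Coprime (r i) (r i'))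
    (F : ι → ℕ → R) (hF : ∀ i ∈ s, ∀ n, F i (n + r i) = F i n) :
    ∑ n ∈ range (∏ i ∈ s, r i), ∏ i ∈ s, F i n = ∏ i ∈ s, ∑ n ∈ range (r i), F i n := by
  classical
  induction s using Finset.induction_on with
  | empty => simp
  | insert a s ha ih =>
    simp only [Finset.prod_insert ha]
    rw [← ih (fun i hi => hr i (mem_insert_of_mem hi))
      (fun i hi i' hi' => hc i (mem_insert_of_mem hi) i' (mem_insert_of_mem hi'))
      (fun i hi => hF i (mem_insert_of_mem hi))]
    refine Eqd.crt_two _ _ (hr a (mem_insert_self _ _))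
      (Finset.one_le_prod' fun i hi => hr i (mem_insert_of_mem hi))
      (Nat.Coprime.prod_right fun i hi => hc a (mem_insert_self _ _) i (mem_insert_of_mem hi)
        (fun h => ha (h ▸ hi))) _ _ (hF a (mem_insert_self _ _)) fun n => ?_
    refine Finset.prod_congr rfl fun i hi => ?_
    obtain ⟨c, hc'⟩ := Finset.dvd_prod_of_mem r hi
    rw [hc', mul_comm]
    exact Eqd.per_add_mul (hF i (mem_insert_of_mem hi)) n c

/-- The mean over a multiple of the period. -/
theorem per_mul {R : Type} [CommSemiring R] (M c : ℕ) (Φ : ℕ → R)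
    (hΦ : ∀ n, Φ (n + M) = Φ n) :
    ∑ n ∈ range (c * M), Φ n = c * ∑ n ∈ range M, Φ n := by
  induction c with
  | zero => simp
  | succ c ih =>
    rw [Nat.succ_mul, Finset.sum_range_add, ih]
    have h : ∑ x ∈ range M, Φ (c * M + x) = ∑ x ∈ range M, Φ x :=
      Finset.sum_congr rfl fun x _ => by rw [add_comm, Eqd.per_add_mul hΦ]
    rw [h]
    push_cast
    ring

/-- A periodic function is equidistributed on an initial interval. -/
theorem per_sum {𝕜 : Type} [RCLike 𝕜] (M : ℕ) (hM : 1 ≤ M) (Φ : ℕ → 𝕜)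
    (hΦ : ∀ n, Φ (n + M) = Φ n) (B : ℝ) (hB : ∀ n, ‖Φ n‖ ≤ B) (L : ℕ) :
    ‖∑ n ∈ range L, (Φ n - (∑ n ∈ range M, Φ n) / (M : 𝕜))‖ ≤ 2 * M * B := by
  have hM0 : (M : 𝕜) ≠ 0 := Nat.cast_ne_zero.2 (by omega)
  have hMr : (0 : ℝ) < M := Nat.cast_pos.2 (by omega)
  have hB0 : 0 ≤ B := (norm_nonneg _).trans (hB 0)
  set μ : 𝕜 := (∑ n ∈ range M, Φ n) / (M : 𝕜) with hμ
  have hμB : ‖μ‖ ≤ B := by
    rw [hμ, norm_div, RCLike.norm_natCast, div_le_iff₀ hMr]
    refine (norm_sum_le _ _).trans ?_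
    refine (Finset.sum_le_sum fun n _ => hB n).trans ?_
    simp [mul_comm]
  have h0 : ∑ n ∈ range (L / M * M), (Φ n - μ) = 0 := by
    rw [per_mul M (L / M) (fun n => Φ n - μ) (fun n => by rw [hΦ])]
    rw [Finset.sum_sub_distrib, Finset.sum_const, card_range, nsmul_eq_mul, hμ,
      mul_div_cancel₀ _ hM0, sub_self, mul_zero]
  have hL : L = L / M * M + L % M := (Nat.div_add_mod' L M).symm
  rw [hL, Finset.sum_range_add, h0, zero_add]
  refine (norm_sum_le _ _).trans ?_
  refine (Finset.sum_le_sum (g := fun _ => 2 * B) fun n _ => ?_).trans ?_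
  · refine (norm_sub_le _ _).trans ?_
    have := hB (L / M * M + n)
    linarith
  · rw [Finset.sum_const, card_range, nsmul_eq_mul]
    have h1 : ((L % M : ℕ) : ℝ) ≤ M := Nat.cast_le.2 (Nat.mod_lt _ (by omega)).le
    nlinarith

theorem sum_range_zmod {R : Type} [AddCommMonoid R] (p : ℕ) [NeZero p] (F : ZMod p → R) :
    ∑ n ∈ range p, F (n : ZMod p) = ∑ a : ZMod p, F a := by
  refine Finset.sum_bij' (fun n _ => (n : ZMod p)) (fun a _ => a.val) ?_ ?_ ?_ ?_ ?_
  · intro n _
    exact mem_univ _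
  · intro a _
    exact mem_range.2 (ZMod.val_lt a)
  · intro n hn
    exact ZMod.val_cast_of_lt (mem_range.1 hn)
  · intro a _
    exact ZMod.natCast_zmod_val a
  · intro n _
    rfl

section
variable {ι : Type} [Fintype ι] [DecidableEq ι] (P : ι → ℕ) [∀ i, Fact (P i).Prime]

theorem mm_pos (T : Finset ι) : 1 ≤ mm P T :=
  Finset.one_le_prod' fun i _ => (Fact.out : (P i).Prime).one_le

theorem mm_mono {S T : Finset ι} (h : S ⊆ T) : mm P S ≤ mm P T :=
  Nat.le_of_dvd (mm_pos P T) (Finset.prod_dvd_prod_of_subset _ _ _ h)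

theorem mm_union_le (S T : Finset ι) : mm P (S ∪ T) ≤ mm P S * mm P T := by
  have h : mm P (S ∪ T) * mm P (S ∩ T) = mm P S * mm P T := Finset.prod_union_inter
  have h1 := mm_pos P (S ∩ T)
  nlinarith

theorem two_pow_card_le_mm (T : Finset ι) : 2 ^ T.card ≤ mm P T :=
  Finset.pow_card_le_prod _ _ _ fun i _ => (Fact.out : (P i).Prime).two_le

theorem dvd_mm_iff (hP : Function.Injective P) (T : Finset ι) (i : ι) :
    P i ∣ mm P T ↔ i ∈ T := by
  refine ⟨fun h => ?_, fun h => Finset.dvd_prod_of_mem P h⟩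
  obtain ⟨j, hj, hij⟩ := (Prime.dvd_finsetProd_iff (Fact.out : (P i).Prime).prime _).1 h
  have := (Nat.prime_dvd_prime_iff_eq Fact.out Fact.out).1 hij
  exact hP this ▸ hj

theorem mm_inj (hP : Function.Injective P) : Function.Injective (mm P) := by
  intro S T h
  ext i
  rw [← dvd_mm_iff P hP, ← dvd_mm_iff P hP, h]

theorem card_fam (hP : Function.Injective P) (Q : ℕ) : (fam P Q).card ≤ Q := by
  have h : (fam P Q).card ≤ (Icc 1 Q).card := by
    refine card_le_card_of_injOn (mm P) (fun T hT => ?_) (fun S _ T _ h => mm_inj P hP h)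
    simp only [fam, coe_filter, mem_univ, true_and, Set.mem_ofPred_eq] at hT
    simp only [coe_Icc, Set.mem_Icc]
    exact ⟨mm_pos P T, hT⟩
  simpa using h

theorem card_famB (hP : Function.Injective P) (B : Finset ι) (Q : ℕ) :
    (famB P B Q).card ≤ Q := by
  refine le_trans (card_le_card fun T hT => ?_) (card_fam P hP Q)
  simp only [famB, fam, mem_filter, mem_univ, true_and] at hT ⊢
  exact hT.2

theorem cast_eq_iff_modEq (hP : Function.Injective P) (T : Finset ι) (x y : ℕ) :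
    (∀ i ∈ T, (x : ZMod (P i)) = (y : ZMod (P i))) ↔ x ≡ y [MOD mm P T] := by
  induction T using Finset.induction_on with
  | empty => simp [mm, Nat.modEq_one]
  | insert a T ha ih =>
    have hc : Nat.Coprime (P a) (mm P T) :=
      (Nat.Prime.coprime_iff_not_dvd Fact.out).2 fun h => ha ((dvd_mm_iff P hP T a).1 h)
    have hm : mm P (insert a T) = P a * mm P T := Finset.prod_insert ha
    rw [hm, ← Nat.modEq_and_modEq_iff_modEq_mul hc, ← ih, Finset.forall_mem_insert,
      ZMod.natCast_eq_natCast_iff]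

end

end Vale.Agent.P042
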