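import Vale.Agent.P042.Chess
import Vale.Agent.P042.Eqd

open Finset Polynomial

namespace Vale.Agent.P042

section
variable {ι W : Type} [Fintype ι] [DecidableEq ι] [Fintype W] [DecidableEq W]

/-- factorization of the form on products of local functions -/
theorem Expand.form_cols {X : ι → Type} [∀ i, Fintype (X i)] (Tw : ∀ i, (W → X i) → ℝ)
    (J : ι → Finset W) (g : W → ∀ i, X i → ℝ) :
    form Tw (fun w ω => ∏ i ∈ cols J w, g w i (ω i)) =
      ∏ i, ∑ z : W → X i, Tw i z * ∏ w ∈ J i, g w i (z w) := by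
  unfold form
  rw [Finset.prod_univ_sum, Fintype.piFinset_univ]
  refine Fintype.sum_equiv (Equiv.piComm (fun (_ : W) (i : ι) => X i)) _ _ fun x => ?_
  rw [Finset.prod_mul_distrib]
  congr 1
  refine Finset.prod_comm' ?_
  intro w i
  simp [cols]

/-- multilinearity -/
theorem form_sum {X : ι → Type} [∀ i, Fintype (X i)] (Tw : ∀ i, (W → X i) → ℝ)
    {σ : Type} [DecidableEq σ] (s : W → Finset σ) (a : W → σ → ℝ)
    (F : W → σ → (∀ i, X i) → ℝ) :
    form Tw (fun w ω => ∑ c ∈ s w, a w c * F w c ω) =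
      ∑ c ∈ Fintype.piFinset s, (∏ w, a w (c w)) * form Tw (fun w => F w (c w)) := by
  unfold form
  simp_rw [Finset.prod_univ_sum, Finset.mul_sum]
  rw [Finset.sum_comm]
  refine Finset.sum_congr rfl fun c _ => Finset.sum_congr rfl fun x _ => ?_
  rw [Finset.prod_mul_distrib]
  ring

theorem form_smul {X : ι → Type} [∀ i, Fintype (X i)] (Tw : ∀ i, (W → X i) → ℝ)
    (a : W → ℝ) (F : W → (∀ i, X i) → ℝ) :
    form Tw (fun w ω => a w * F w ω) = (∏ w, a w) * form Tw F := by
  unfold form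
  rw [Finset.mul_sum]
  refine Finset.sum_congr rfl fun x _ => ?_
  rw [Finset.prod_mul_distrib]
  ring

/-- additivity at one site -/
theorem form_add {X : ι → Type} [∀ i, Fintype (X i)] (Tw : ∀ i, (W → X i) → ℝ)
    (F : W → (∀ i, X i) → ℝ) (w0 : W) (G H : (∀ i, X i) → ℝ) :
    form Tw (Function.update F w0 (fun ω => G ω + H ω)) =
      form Tw (Function.update F w0 G) + form Tw (Function.update F w0 H) := by
  unfold form
  rw [← Finset.sum_add_distrib]
  refine Finset.sum_congr rfl fun x _ => ?_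
  have key : ∀ K : (∀ i, X i) → ℝ, ∏ w, Function.update F w0 K w (x w) =
      K (x w0) * ∏ w ∈ univ.erase w0, F w (x w) := by
    intro K
    rw [← Finset.mul_prod_erase univ _ (mem_univ w0), Function.update_self]
    congr 1
    refine Finset.prod_congr rfl fun w hw => ?_
    rw [Function.update_of_ne (Finset.ne_of_mem_erase hw)]
  rw [key, key, key]
  ring

/-- expansion in the local weights -/
theorem form_split {X : ι → Type} [∀ i, Fintype (X i)] (T Tg Th : ∀ i, (W → X i) → ℝ)
    (ζ β : ι → ℝ) (h : ∀ i x, T i x = ζ i * Tg i x + β i * Th i x)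
    (F : W → (∀ i, X i) → ℝ) :
    |form T F| ≤ |∏ i, ζ i| * |form Tg F| + ∑ B ∈ univ.filter (fun B : Finset ι => B.Nonempty),
      (∏ i ∈ B, |β i|) * |form (fun i => if i ∈ B then Th i else T i) F| := by
  have e1 : (∏ i, ζ i) * form Tg F = ∑ B ∈ (univ : Finset ι).powerset,
      (∏ i ∈ B, (-β i)) * form (fun i => if i ∈ B then Th i else T i) F := by
    unfold form
    simp_rw [Finset.mul_sum]
    rw [Finset.sum_comm]
    refine Finset.sum_congr rfl fun x _ => ?_
    have e2 : (∏ i, ζ i) * ∏ i, Tg i (fun w => x w i) =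
        ∏ i, (-β i * Th i (fun w => x w i) + T i (fun w => x w i)) := by
      rw [← Finset.prod_mul_distrib]
      refine Finset.prod_congr rfl fun i _ => ?_
      rw [h]
      ring
    rw [← mul_assoc, e2, Finset.prod_add, Finset.sum_mul]
    refine Finset.sum_congr rfl fun B _ => ?_
    have e3 : ∏ i, (if i ∈ B then Th i else T i) (fun w => x w i) =
        (∏ i ∈ B, Th i (fun w => x w i)) * ∏ i ∈ univ \ B, T i (fun w => x w i) := by
      rw [← Finset.prod_sdiff (Finset.subset_univ B), mul_comm]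
      congr 1
      · exact Finset.prod_congr rfl fun i hi => by rw [if_pos hi]
      · exact Finset.prod_congr rfl fun i hi => by rw [if_neg (Finset.mem_sdiff.1 hi).2]
    rw [e3, Finset.prod_mul_distrib]
    ring
  have e4 : (univ : Finset ι).powerset =
      insert ∅ (univ.filter (fun B : Finset ι => B.Nonempty)) := by
    ext B
    simp only [Finset.mem_powerset, Finset.subset_univ, Finset.mem_insert, Finset.mem_filter,
      Finset.mem_univ, true_and, true_iff]
    exact B.eq_empty_or_nonempty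
  rw [e4, Finset.sum_insert (by simp)] at e1
  simp only [Finset.prod_empty, Finset.notMem_empty, if_false, one_mul] at e1
  have e5 : form T F = (∏ i, ζ i) * form Tg F -
      ∑ B ∈ univ.filter (fun B : Finset ι => B.Nonempty),
        (∏ i ∈ B, (-β i)) * form (fun i => if i ∈ B then Th i else T i) F := by
    rw [e1]
    ring
  rw [e5]
  refine (abs_sub _ _).trans (add_le_add (by rw [abs_mul]) ?_)
  refine (Finset.abs_sum_le_sum_abs _ _).trans (le_of_eq ?_)
  refine Finset.sum_congr rfl fun B _ => ?_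
  rw [abs_mul, Finset.abs_prod]
  simp only [abs_neg]

variable (P : ι → ℕ) [∀ i, Fact (P i).Prime]

theorem form_DD (Tw : ∀ i, (W → ZMod (P i)) → ℝ) (A : W → Finset (Finset ι)) (x : W → ℕ) :
    form Tw (fun w => DD P (A w) (x w)) =
      ∑ J ∈ univ.filter (fun J : ι → Finset W => ∀ w, cols J w ∈ A w),
        ∏ i, kap (Tw i) (J i) (fun w => (x w : ZMod (P i))) := by
  have e1 : (fun w => DD P (A w) (x w)) = fun w ω =>
      ∑ T ∈ A w, (1 : ℝ) * ∏ i ∈ T, dl (x w : ZMod (P i)) (ω i) := by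
    funext w ω
    simp only [DD, one_mul]
  rw [e1, form_sum Tw A (fun _ _ => 1) (fun w T ω => ∏ i ∈ T, dl (x w : ZMod (P i)) (ω i))]
  symm
  refine Finset.sum_bij' (fun J _ => cols J)
    (fun Tt _ => fun i => univ.filter fun w => i ∈ Tt w) ?_ ?_ ?_ ?_ ?_
  · intro J hJ
    exact Fintype.mem_piFinset.2 (Finset.mem_filter.1 hJ).2
  · intro Tt hT
    refine Finset.mem_filter.2 ⟨mem_univ _, fun w => ?_⟩
    have : cols (fun i => univ.filter fun w => i ∈ Tt w) w = Tt w := by
      ext i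
      simp [cols]
    rw [this]
    exact Fintype.mem_piFinset.1 hT w
  · intro J _
    funext i
    ext w
    simp [cols]
  · intro Tt _
    funext w
    ext i
    simp [cols]
  · intro J _
    rw [Finset.prod_const_one, one_mul,
      Expand.form_cols Tw J (fun w i a => dl (x w : ZMod (P i)) a)]
    rfl

theorem form_lift (Tw : ∀ i, (W → ZMod (P i)) → ℝ) (A : W → Finset (Finset ι)) (L : ℕ)
    (f : W → ℕ → ℝ) :
    form Tw (fun w => lift P (A w) L (f w)) =
      ∑ J ∈ univ.filter (fun J : ι → Finset W => ∀ w, cols J w ∈ A w), term P Tw L f J := by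
  have e1 : (fun w => lift P (A w) L (f w)) = fun w ω =>
      ∑ c ∈ range L, (f w c / L) * DD P (A w) c ω := by
    funext w ω
    unfold lift
    rw [Finset.sum_div]
    refine Finset.sum_congr rfl fun c _ => ?_
    ring
  rw [e1, form_sum Tw (fun _ => range L) (fun w c => f w c / L) (fun w c => DD P (A w) c)]
  simp_rw [form_DD P Tw A, Finset.mul_sum]
  rw [Finset.sum_comm]
  refine Finset.sum_congr rfl fun J _ => ?_
  unfold term
  rw [Finset.sum_div]
  refine Finset.sum_congr rfl fun c _ => ?_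
  rw [Finset.prod_div_distrib, Finset.prod_const, Finset.card_univ]
  ring

/-- tails of the expansion -/
theorem gm_tail (Tw : ∀ i, (W → ZMod (P i)) → ℝ) (Q L : ℕ) (κ C : ℝ) (hκ : 0 ≤ κ)
    (hG : GM P Tw Q L κ C) (f : W → ℕ → ℝ) (hf : ∀ w x, |f w x| ≤ 1) (Y : ℕ) (hY : 1 ≤ Y)
    (s : Finset (ι → Finset W))
    (hs : ∀ J ∈ s, (∀ w, mm P (cols J w) ≤ Q) ∧ Y ≤ mm P (supp J)) :
    ∑ J ∈ s, |term P Tw L f J| ≤ C * (Y : ℝ) ^ (-κ) := by
  have hY0 : (0 : ℝ) < Y := by exact_mod_cast hY
  have hp : 0 < (Y : ℝ) ^ (-κ) := Real.rpow_pos_of_pos hY0 _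
  have h1 : ∑ J ∈ s, |term P Tw L f J| ≤
      ∑ J ∈ s, ((mm P (supp J) : ℝ) ^ κ * |term P Tw L f J|) * (Y : ℝ) ^ (-κ) := by
    refine Finset.sum_le_sum fun J hJ => ?_
    have h2 : (Y : ℝ) ^ κ ≤ (mm P (supp J) : ℝ) ^ κ :=
      Real.rpow_le_rpow hY0.le (by exact_mod_cast (hs J hJ).2) hκ
    have h3 : (Y : ℝ) ^ κ * (Y : ℝ) ^ (-κ) = 1 := by
      rw [← Real.rpow_add hY0, add_neg_cancel, Real.rpow_zero]
    have h4 : 0 ≤ |term P Tw L f J| := abs_nonneg _
    calc |term P Tw L f J| = ((Y : ℝ) ^ κ * |term P Tw L f J|) * (Y : ℝ) ^ (-κ) := by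
          rw [mul_right_comm, h3, one_mul]
      _ ≤ _ := by gcongr
  rw [← Finset.sum_mul] at h1
  refine h1.trans (mul_le_mul_of_nonneg_right (le_trans ?_ (hG f hf)) hp.le)
  refine Finset.sum_le_sum_of_subset_of_nonneg ?_ ?_
  · intro J hJ
    exact Finset.mem_filter.2 ⟨mem_univ _, (hs J hJ).1⟩
  · intro J _ _
    positivity

theorem gm_bound (Tw : ∀ i, (W → ZMod (P i)) → ℝ) (Q L : ℕ) (κ C : ℝ) (hκ : 0 ≤ κ)
    (hG : GM P Tw Q L κ C) (f : W → ℕ → ℝ) (hf : ∀ w x, |f w x| ≤ 1)
    (A : W → Finset (Finset ι)) (hA : ∀ w, A w ⊆ fam P Q) :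
    |form Tw (fun w => lift P (A w) L (f w))| ≤ C := by
  rw [form_lift]
  refine (Finset.abs_sum_le_sum_abs _ _).trans ?_
  have := gm_tail P Tw Q L κ C hκ hG f hf 1 le_rfl
    (univ.filter (fun J : ι → Finset W => ∀ w, cols J w ∈ A w)) (by
      intro J hJ
      exact ⟨fun w => (Finset.mem_filter.1 (hA w ((Finset.mem_filter.1 hJ).2 w))).2,
        mm_pos P _⟩)
  simpa using this

/-- changing the truncation -/
theorem fam_change (Tw : ∀ i, (W → ZMod (P i)) → ℝ) (Q L : ℕ) (κ C : ℝ) (hκ : 0 ≤ κ)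
    (hG : GM P Tw Q L κ C) (f : W → ℕ → ℝ) (hf : ∀ w x, |f w x| ≤ 1) (Y : ℕ) (hY : 1 ≤ Y)
    (A A' : W → Finset (Finset ι)) (hA : ∀ w, A w ⊆ fam P Q) (hA' : ∀ w, A' w ⊆ fam P Q)
    (hag : ∀ w T, mm P T ≤ Y → (T ∈ A w ↔ T ∈ A' w)) :
    |form Tw (fun w => lift P (A w) L (f w)) - form Tw (fun w => lift P (A' w) L (f w))| ≤
      C * (Y : ℝ) ^ (-κ) := by
  rw [form_lift, form_lift]
  set S := univ.filter (fun J : ι → Finset W => ∀ w, cols J w ∈ A w) with hS
  set S' := univ.filter (fun J : ι → Finset W => ∀ w, cols J w ∈ A' w) with hS'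
  have hsub : ∀ (J : ι → Finset W) (w : W), mm P (cols J w) ≤ mm P (supp J) := by
    intro J w
    refine mm_mono P fun i hi => ?_
    exact Finset.mem_filter.2 ⟨mem_univ _, ⟨w, (Finset.mem_filter.1 hi).2⟩⟩
  have hdisj : Disjoint (S \ S') (S' \ S) := disjoint_sdiff_sdiff
  have key := gm_tail P Tw Q L κ C hκ hG f hf Y hY ((S \ S') ∪ (S' \ S)) (by
    intro J hJ
    rcases Finset.mem_union.1 hJ with hJ | hJ
    · obtain ⟨h1, h2⟩ := Finset.mem_sdiff.1 hJ
      have h1' := (Finset.mem_filter.1 h1).2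
      refine ⟨fun w => (Finset.mem_filter.1 (hA w (h1' w))).2, ?_⟩
      by_contra hc
      refine h2 (Finset.mem_filter.2 ⟨mem_univ _, fun w => ?_⟩)
      exact (hag w _ (by have := hsub J w; omega)).1 (h1' w)
    · obtain ⟨h1, h2⟩ := Finset.mem_sdiff.1 hJ
      have h1' := (Finset.mem_filter.1 h1).2
      refine ⟨fun w => (Finset.mem_filter.1 (hA' w (h1' w))).2, ?_⟩
      by_contra hc
      refine h2 (Finset.mem_filter.2 ⟨mem_univ _, fun w => ?_⟩)
      exact (hag w _ (by have := hsub J w; omega)).2 (h1' w))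
  rw [Finset.sum_union hdisj] at key
  rw [← Finset.sum_sdiff_sub_sum_sdiff]
  refine le_trans ?_ key
  exact (abs_sub _ _).trans
    (add_le_add (Finset.abs_sum_le_sum_abs _ _) (Finset.abs_sum_le_sum_abs _ _))

end

section
variable {ι : Type} [Fintype ι] [DecidableEq ι] (P : ι → ℕ) [∀ i, Fact (P i).Prime] {j : ℕ}

/-- forgetting the primes in `B` decreases the diagonal form -/
theorem diag_famB_le (hj : 1 ≤ j) (T : ∀ i, (Site j → ZMod (P i)) → ℝ) (hT : ∀ i, Nice (T i))
    (B : Finset ι) (Q L : ℕ) (f : ℕ → ℝ) :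
    form T (fun _ => lift P (famB P B Q) L f) ≤ form T (fun _ => lift P (fam P Q) L f) := by
  refine contract hj T (fun i => (hT i).1) _ _ (fun _ => 0) ?_
  have e1 : (fun w : Site j => if w = (fun _ => 0) then lift P (fam P Q) L f
      else lift P (famB P B Q) L f) = fun w : Site j =>
        lift P (if w = (fun _ => 0) then fam P Q else famB P B Q) L f := by
    funext w
    split_ifs <;> rfl
  rw [e1, form_lift P T (fun w => if w = (fun _ => 0) then fam P Q else famB P B Q) L
    (fun _ => f), form_lift P T (fun _ => famB P B Q) L (fun _ => f)]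
  symm
  refine Finset.sum_subset ?_ ?_
  · intro J hJ
    refine Finset.mem_filter.2 ⟨mem_univ _, fun w => ?_⟩
    have h1 := (Finset.mem_filter.1 hJ).2 w
    split_ifs
    · exact Finset.mem_filter.2 ⟨mem_univ _, (Finset.mem_filter.1 h1).2.2⟩
    · exact h1
  · intro J hJ hJ'
    have h1 := (Finset.mem_filter.1 hJ).2
    have h2 : ¬ Disjoint (cols J (fun _ => 0)) B := by
      intro hd
      refine hJ' (Finset.mem_filter.2 ⟨mem_univ _, fun w => ?_⟩)
      have h3 := h1 w
      split_ifs at h3 with hw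
      · rw [hw] at h3 ⊢
        exact Finset.mem_filter.2 ⟨mem_univ _, hd, (Finset.mem_filter.1 h3).2⟩
      · exact h3
    obtain ⟨i, hi, hiB⟩ := Finset.not_disjoint_iff.1 h2
    have h4 : J i = {fun _ => 0} := by
      refine Finset.eq_singleton_iff_unique_mem.2 ⟨(Finset.mem_filter.1 hi).2, fun w hw => ?_⟩
      by_contra hne
      have h3 := h1 w
      rw [if_neg hne] at h3
      exact Finset.disjoint_left.1 (Finset.mem_filter.1 h3).2.1
        (Finset.mem_filter.2 ⟨mem_univ _, hw⟩) hiB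
    unfold term
    rw [Finset.sum_eq_zero, zero_div]
    intro x _
    rw [Finset.prod_eq_zero (mem_univ i) (by rw [h4]; exact (hT i).2.2 _ _), mul_zero]

/-- the diagonal form dominates the power of the density -/
theorem dens_le_diag (hj : 1 ≤ j) (T : ∀ i, (Site j → ZMod (P i)) → ℝ) (hT : ∀ i, Nice (T i))
    (Q L : ℕ) (hQ : 1 ≤ Q) (f : ℕ → ℝ) :
    ((∑ x ∈ range L, f x) / L) ^ (6 ^ j) ≤ form T (fun _ => lift P (fam P Q) L f) := by
  refine le_trans (le_of_eq ?_) (diag_famB_le P hj T hT univ Q L f)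
  have e1 : famB P univ Q = {∅} := by
    ext S
    simp only [famB, Finset.mem_filter, Finset.mem_univ, true_and, Finset.mem_singleton]
    constructor
    · intro h
      exact Finset.eq_empty_of_forall_notMem fun i hi =>
        Finset.disjoint_left.1 h.1 hi (mem_univ i)
    · rintro rfl
      exact ⟨Finset.disjoint_empty_left _, by simpa [mm] using hQ⟩
  have e2 : (fun _ : Site j => lift P (famB P univ Q) L f) = fun _ ω =>
      ((∑ x ∈ range L, f x) / L) * ∏ i ∈ (∅ : Finset ι), (fun _ => (1 : ℝ)) (ω i) := by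
    funext w ω
    simp [lift, DD, e1]
  rw [e2, form_smul]
  have e3 := Expand.form_cols T (fun _ => ∅) (fun _ _ _ => (1 : ℝ))
  have e4 : ∀ w : Site j, cols (fun _ : ι => (∅ : Finset (Site j))) w = ∅ := by
    intro w
    simp [cols]
  simp only [e4] at e3
  rw [e3]
  simp only [Finset.prod_empty, mul_one, (hT _).2.1, Finset.prod_const_one, Finset.prod_const,
    Finset.card_univ, Fintype.card_fun, Fintype.card_fin]

end

end Vale.Agent.P042
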