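import Vale.Agent.P042.Defs

open Finset Polynomial

namespace Vale.Agent.P042

namespace Finner

variable {ι : Type} [Fintype ι] [DecidableEq ι] {A : ι → Type} [∀ i, Fintype (A i)]
  [∀ i, DecidableEq (A i)] (μ : ∀ i, A i → ℝ)

/-- integrate out the coordinates in `U` -/
noncomputable def marg (U : Finset ι) (Φ : (∀ i, A i) → ℝ) (α : ∀ i, A i) : ℝ :=
  ∑ β : ∀ i, A i, (∏ i, if i ∈ U then μ i (β i) else if β i = α i then 1 else 0) * Φ β

lemma marg_empty (Φ : (∀ i, A i) → ℝ) (α : ∀ i, A i) : marg μ ∅ Φ α = Φ α := by
  simp only [marg, notMem_empty, if_false, Fintype.prod_boole, ← funext_iff]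
  simp

lemma sum_update (i : ι) (c : A i) (F : (∀ i, A i) → ℝ) :
    ∑ β, F β = ∑ β : ∀ i, A i, ∑ a, if β i = c then F (Function.update β i a) else 0 := by
  have hi : Function.Involutive fun p : (∀ i, A i) × A i =>
      (Function.update p.1 i p.2, p.1 i) := fun p => by simp
  have := Equiv.sum_comp hi.toPerm fun p => if p.2 = c then F p.1 else 0
  simp only [Function.Involutive.coe_toPerm, Fintype.sum_prod_type, sum_ite_eq', mem_univ,
    if_true] at this
  exact this.symm

lemma marg_insert {U : Finset ι} {i : ι} (hi : i ∉ U) (Φ : (∀ i, A i) → ℝ) (α : ∀ i, A i) :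
    marg μ (insert i U) Φ α = marg μ U (fun β => ∑ a, μ i a * Φ (Function.update β i a)) α := by
  unfold marg
  rw [sum_update i (α i)]
  refine sum_congr rfl fun β _ => ?_
  rw [mul_sum]
  refine sum_congr rfl fun a _ => ?_
  rw [← mul_prod_erase univ _ (mem_univ i), ← mul_prod_erase univ _ (mem_univ i),
    if_pos (mem_insert_self i U), if_neg hi, Function.update_self]
  have e : ∏ l ∈ univ.erase i, (if l ∈ insert i U then μ l (Function.update β i a l)
      else if Function.update β i a l = α l then 1 else 0) =
      ∏ l ∈ univ.erase i, (if l ∈ U then μ l (β l) else if β l = α l then 1 else 0) :=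
    prod_congr rfl fun l hl => by
      have := ne_of_mem_erase hl
      simp only [mem_insert, this, false_or, Function.update_of_ne this]
  rw [e]
  split_ifs <;> ring

variable {μ}

lemma marg_mono (hμ : ∀ i a, 0 ≤ μ i a) (U : Finset ι) {Φ Ψ : (∀ i, A i) → ℝ}
    (h : ∀ β, Φ β ≤ Ψ β) (α : ∀ i, A i) : marg μ U Φ α ≤ marg μ U Ψ α :=
  sum_le_sum fun β _ => mul_le_mul_of_nonneg_left (h β) (prod_nonneg fun i _ => by
    split_ifs
    exacts [hμ i _, zero_le_one, le_rfl])

lemma main {W : Type} [Fintype W] [DecidableEq W] (hμ : ∀ i a, 0 ≤ μ i a) (rk : W → ℕ)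
    (hrk : Function.Injective rk) (cf cs : ι → W) (hc : ∀ i, rk (cf i) < rk (cs i))
    (U : Finset ι) : ∀ G : W → (∀ i, A i) → ℝ,
      (∀ w, ∀ i ∈ U, ∀ α a, w ≠ cf i → rk w < rk (cs i) → G w (Function.update α i a) = G w α) →
      (∀ w α, marg μ (U.filter fun i => w = cf i ∨ w = cs i) (fun β => G w β ^ 2) α ≤ 1) →
      ∀ α, marg μ U (fun β => ∏ w, |G w β|) α ≤ 1 := by
  induction U using Finset.induction_on_max_value fun i => rk (cs i) with
  | empty =>
    intro G _ hbd α
    rw [marg_empty]
    refine prod_le_one (fun _ _ => abs_nonneg _) fun w _ => ?_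
    have := hbd w α
    rw [filter_empty, marg_empty] at this
    exact (sq_le_one_iff_abs_le_one _).1 this
  | insert i U hi hmax ih =>
    intro G hdep hbd α
    have hne : cf i ≠ cs i := fun h => (hc i).ne (congrArg rk h)
    have hemp : ∀ w, rk (cs i) < rk w →
        (insert i U).filter (fun l => w = cf l ∨ w = cs l) = ∅ := fun w hw => by
      refine filter_eq_empty_iff.2 fun l hl => ?_
      have h1 : rk (cs l) ≤ rk (cs i) := by
        rcases mem_insert.1 hl with rfl | hl
        exacts [le_rfl, hmax l hl]
      have h2 := hc l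
      rintro (rfl | rfl) <;> omega
    let G' : W → (∀ i, A i) → ℝ := fun w β =>
      if w = cf i ∨ w = cs i then √(∑ a, μ i a * G w (Function.update β i a) ^ 2)
      else if rk w < rk (cs i) then G w β else 1
    rw [marg_insert μ hi]
    refine (marg_mono hμ U (Ψ := fun β => ∏ w, |G' w β|) (fun β => ?_) α).trans (ih G' ?_ ?_ α)
    · have hs : cs i ∈ univ.erase (cf i) := mem_erase.2 ⟨hne.symm, mem_univ _⟩
      have e : ∀ f : W → ℝ, ∏ w, f w =
          f (cf i) * (f (cs i) * ∏ w ∈ (univ.erase (cf i)).erase (cs i), f w) := fun f => by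
        rw [mul_prod_erase _ _ hs, mul_prod_erase _ _ (mem_univ _)]
      have e1 : ∀ a, ∏ w ∈ (univ.erase (cf i)).erase (cs i), |G w (Function.update β i a)| ≤
          ∏ w ∈ (univ.erase (cf i)).erase (cs i), |G' w β| := fun a =>
        prod_le_prod (fun _ _ => abs_nonneg _) fun w hw => by
          have h1 := ne_of_mem_erase hw
          have h2 := ne_of_mem_erase (mem_of_mem_erase hw)
          simp only [G', h1, h2, or_self, if_false]
          split_ifs with h3
          · rw [hdep w i (mem_insert_self _ _) β a h2 h3]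
          · have h4 : rk (cs i) < rk w := lt_of_le_of_ne (not_lt.1 h3) fun h => h1 (hrk h).symm
            have := hbd w (Function.update β i a)
            rw [hemp w h4, marg_empty] at this
            rw [abs_one]
            exact (sq_le_one_iff_abs_le_one _).1 this
      have e2 := Real.sum_mul_le_sqrt_mul_sqrt univ
        (fun a => √(μ i a) * |G (cf i) (Function.update β i a)|)
        fun a => √(μ i a) * |G (cs i) (Function.update β i a)|
      simp only [mul_pow, Real.sq_sqrt (hμ i _), sq_abs, mul_mul_mul_comm √(μ i _) _ √(μ i _),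
        Real.mul_self_sqrt (hμ i _)] at e2
      simp only [e]
      calc _ ≤ ∑ a, μ i a * (|G (cf i) (Function.update β i a)| *
            |G (cs i) (Function.update β i a)|) *
              ∏ w ∈ (univ.erase (cf i)).erase (cs i), |G' w β| := sum_le_sum fun a _ => by
            rw [← mul_assoc, ← mul_assoc, mul_assoc (μ i a)]
            exact mul_le_mul_of_nonneg_left (e1 a) (mul_nonneg (hμ i a) (by positivity))
        _ ≤ _ := by
            rw [← sum_mul, ← mul_assoc]
            refine mul_le_mul_of_nonneg_right (e2.trans_eq ?_) (prod_nonneg fun _ _ => abs_nonneg _)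
            simp only [G', true_or, or_true, if_true, abs_of_nonneg (Real.sqrt_nonneg _)]
    · intro w l hl β a h1 h2
      have hli : l ≠ i := fun h => hi (h ▸ hl)
      have := fun β => hdep w l (mem_insert_of_mem hl) β a h1 h2
      simp only [G', Function.update_comm hli, this]
    · intro w β
      have := hbd w β
      by_cases h1 : w = cf i ∨ w = cs i
      · rw [filter_insert, if_pos h1, marg_insert μ fun h => hi (mem_of_mem_filter _ h)] at this
        refine le_of_eq_of_le (congrArg (fun Φ => marg μ _ Φ β) (funext fun γ => ?_)) this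
        simp only [G', h1, if_true]
        exact Real.sq_sqrt (sum_nonneg fun a _ => mul_nonneg (hμ i a) (sq_nonneg _))
      · by_cases h2 : rk w < rk (cs i)
        · rw [filter_insert, if_neg h1] at this
          simpa only [G', h1, h2, if_true, if_false] using this
        · have h4 : rk (cs i) < rk w :=
            lt_of_le_of_ne (not_lt.1 h2) fun h => h1 (Or.inr (hrk h).symm)
          have h5 := hemp w h4
          rw [filter_insert, if_neg h1] at h5
          rw [h5, marg_empty]
          simp only [G', h1, h2, if_false, one_pow, le_refl]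

end Finner

/-- A Finner type inequality with frozen extra dependence. -/
theorem finner {ι W : Type} [Fintype ι] [DecidableEq ι] [Fintype W] [DecidableEq W]
    {A : ι → Type} [∀ i, Fintype (A i)] [∀ i, DecidableEq (A i)]
    (μ : ∀ i, A i → ℝ) (hμ : ∀ i a, 0 ≤ μ i a) (rk : W → ℕ) (hrk : Function.Injective rk)
    (cf cs : ι → W) (hc : ∀ i, rk (cf i) < rk (cs i)) (G : W → (∀ i, A i) → ℝ)
    (hdep : ∀ w i α a, w ≠ cf i → rk w < rk (cs i) → G w (Function.update α i a) = G w α)
    (hbd : ∀ w (α : ∀ i, A i), ∑ β : ∀ i, A i,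
      (∏ i, if w = cf i ∨ w = cs i then μ i (β i) else if β i = α i then 1 else 0) *
        G w β ^ 2 ≤ 1) :
    ∑ α : ∀ i, A i, (∏ i, μ i (α i)) * ∏ w, |G w α| ≤ 1 := by
  rcases isEmpty_or_nonempty (∀ i, A i) with h | ⟨⟨α⟩⟩
  · simp
  have := Finner.main hμ rk hrk cf cs hc univ G (fun w i _ => hdep w i)
    (fun w α => by simpa only [Finner.marg, mem_filter, mem_univ, true_and] using hbd w α) α
  simpa only [Finner.marg, mem_univ, if_true] using this

end Vale.Agent.P042
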