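import Vale.Agent.P042.Defs

open Finset Polynomial

namespace Vale.Agent.P042

namespace Four

lemma orth (M : ℕ) [NeZero M] (b : ZMod M) :
    ∑ ξ : ZMod M, ZMod.stdAddChar (ξ * b) = if b = 0 then (M : ℂ) else 0 := by
  rw [AddChar.sum_mulShift b (ZMod.isPrimitive_stdAddChar M), ZMod.card]
  split_ifs <;> simp

lemma parseval (M : ℕ) [NeZero M] {α : Type} (A : Finset α) (a : α → ℝ) (f : α → ZMod M)
    (hf : Set.InjOn f A) :
    ∑ ξ : ZMod M, ‖∑ x ∈ A, (a x : ℂ) * ZMod.stdAddChar (ξ * f x)‖ ^ 2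
      = M * ∑ x ∈ A, a x ^ 2 := by
  classical
  have h1 : ∀ ξ : ZMod M, ((‖∑ x ∈ A, (a x : ℂ) * ZMod.stdAddChar (ξ * f x)‖ ^ 2 : ℝ) : ℂ)
      = ∑ x ∈ A, ∑ y ∈ A, (a x : ℂ) * a y * ZMod.stdAddChar (ξ * (f x - f y)) := by
    intro ξ
    push_cast
    rw [← Complex.mul_conj', map_sum, sum_mul_sum]
    refine sum_congr rfl fun x _ => sum_congr rfl fun y _ => ?_
    rw [map_mul (starRingEnd ℂ), Complex.conj_ofReal, ← AddChar.map_neg_eq_conj, mul_sub,
      sub_eq_add_neg,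
      AddChar.map_add_eq_mul]
    ring
  apply Complex.ofReal_injective
  rw [Complex.ofReal_sum]
  simp only [h1]
  rw [sum_comm]
  push_cast
  rw [mul_sum]
  refine sum_congr rfl fun x hx => ?_
  rw [sum_comm, sum_eq_single_of_mem x hx]
  · rw [← mul_sum, orth]
    simp only [sub_self, if_true]
    ring
  · intro y hy hyx
    rw [← mul_sum, orth, if_neg, mul_zero]
    intro h
    exact hyx (hf hx hy (sub_eq_zero.mp h)).symm

lemma core (M : ℕ) [NeZero M] {σ α β : Type} (s : Finset σ) (A : Finset α) (B : Finset β)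
    (c : σ → ℝ) (d : σ → ZMod M) (a : α → ℝ) (b : β → ℝ) (f : α → ZMod M) (g : β → ZMod M)
    (hf : Set.InjOn f A) (hg : Set.InjOn g B) (ρ : ℝ)
    (h : ∀ ξ : ZMod M, ‖∑ t ∈ s, (c t : ℂ) * ZMod.stdAddChar (ξ * d t)‖ ≤ ρ) :
    |∑ x ∈ A, ∑ y ∈ B, a x * b y * ∑ t ∈ s.filter (fun t => d t = f x - g y), c t| ≤
      ρ * (√(∑ x ∈ A, a x ^ 2) * √(∑ y ∈ B, b y ^ 2)) := by
  have hρ : 0 ≤ ρ := (norm_nonneg _).trans (h 0)
  have hM : (0 : ℝ) < M := by exact_mod_cast Nat.pos_of_ne_zero (NeZero.ne M)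
  have hf' : Set.InjOn (fun x => -f x) A := fun x hx y hy hxy => hf hx hy (neg_injective hxy)
  set U : ZMod M → ℂ := fun ξ => ∑ x ∈ A, (a x : ℂ) * ZMod.stdAddChar (ξ * -f x) with hU
  set V : ZMod M → ℂ := fun ξ => ∑ y ∈ B, (b y : ℂ) * ZMod.stdAddChar (ξ * g y) with hV
  set K : ZMod M → ℂ := fun ξ => ∑ t ∈ s, (c t : ℂ) * ZMod.stdAddChar (ξ * d t) with hK
  have h1 : ∑ ξ, U ξ * V ξ * K ξ = ((M * ∑ x ∈ A, ∑ y ∈ B, a x * b y *
      ∑ t ∈ s.filter (fun t => d t = f x - g y), c t : ℝ) : ℂ) := by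
    have h2 : ∀ ξ, U ξ * V ξ * K ξ = ∑ x ∈ A, ∑ y ∈ B, ∑ t ∈ s,
        (a x : ℂ) * b y * c t * ZMod.stdAddChar (ξ * (d t - (f x - g y))) := by
      intro ξ
      simp only [hU, hV, hK]
      rw [sum_mul_sum, sum_mul]
      refine sum_congr rfl fun x _ => ?_
      rw [sum_mul]
      refine sum_congr rfl fun y _ => ?_
      rw [mul_sum]
      refine sum_congr rfl fun t _ => ?_
      have : ξ * (d t - (f x - g y)) = ξ * -f x + ξ * g y + ξ * d t := by ring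
      rw [this, AddChar.map_add_eq_mul, AddChar.map_add_eq_mul]
      ring
    simp only [h2]
    push_cast
    rw [sum_comm, mul_sum]
    refine sum_congr rfl fun x _ => ?_
    rw [sum_comm, mul_sum]
    refine sum_congr rfl fun y _ => ?_
    rw [sum_comm, sum_filter, mul_sum, mul_sum]
    refine sum_congr rfl fun t _ => ?_
    rw [← mul_sum, orth]
    simp only [sub_eq_zero]
    split_ifs <;> ring
  have h3 : ‖∑ ξ, U ξ * V ξ * K ξ‖ ≤ ρ * (√(M * ∑ x ∈ A, a x ^ 2) * √(M * ∑ y ∈ B, b y ^ 2)) := by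
    rw [← parseval M A a _ hf', ← parseval M B b g hg]
    refine (norm_sum_le _ _).trans (le_trans ?_ (mul_le_mul_of_nonneg_left
      (Real.sum_mul_le_sqrt_mul_sqrt univ (fun ξ => ‖U ξ‖) (fun ξ => ‖V ξ‖)) hρ))
    rw [mul_sum]
    refine sum_le_sum fun ξ _ => ?_
    rw [norm_mul, norm_mul, mul_comm]
    exact mul_le_mul_of_nonneg_right (h ξ) (by positivity)
  rw [h1, Complex.norm_real, Real.norm_eq_abs, abs_mul, abs_of_pos hM, Real.sqrt_mul hM.le,
    Real.sqrt_mul hM.le] at h3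
  have h4 := Real.mul_self_sqrt hM.le
  refine le_of_mul_le_mul_left (h3.trans (le_of_eq ?_)) hM
  linear_combination (ρ * √(∑ x ∈ A, a x ^ 2) * √(∑ y ∈ B, b y ^ 2)) * h4

end Four

/-- A bound on all Fourier coefficients gives an operator bound. -/
theorem opb_of_four (M : ℕ) [NeZero M] (K : ZMod M → ℝ) (ρ : ℝ)
    (h : ∀ ξ : ZMod M, ‖∑ d, (K d : ℂ) * ZMod.stdAddChar (ξ * d)‖ ≤ ρ) (u v : ZMod M → ℝ) :
    |∑ x, ∑ y, u x * v y * K (x - y)| ≤ ρ * (√(∑ x, u x ^ 2) * √(∑ y, v y ^ 2)) := by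
  have := Four.core M univ univ univ K id u v id id (Set.injOn_id _) (Set.injOn_id _) ρ h
  simpa [filter_eq'] using this

/-- An operator bound gives a bound on all Fourier coefficients. -/
theorem four_of_opb (M : ℕ) [NeZero M] (K : ZMod M → ℝ) (ρ : ℝ) (hρ : 0 ≤ ρ)
    (h : ∀ u v : ZMod M → ℝ,
      |∑ x, ∑ y, u x * v y * K (x - y)| ≤ ρ * (√(∑ x, u x ^ 2) * √(∑ y, v y ^ 2)))
    (ξ : ZMod M) : ‖∑ d, (K d : ℂ) * ZMod.stdAddChar (ξ * d)‖ ≤ 4 * ρ := by
  have hM : (0 : ℝ) < M := by exact_mod_cast Nat.pos_of_ne_zero (NeZero.ne M)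
  have hb : ∀ u v : ZMod M → ℝ, (∀ x, |u x| ≤ 1) → (∀ x, |v x| ≤ 1) →
      |∑ x, ∑ y, u x * v y * K (x - y)| ≤ ρ * M := by
    intro u v hu hv
    have h1 : ∀ w : ZMod M → ℝ, (∀ x, |w x| ≤ 1) → √(∑ x, w x ^ 2) ≤ √(M : ℝ) := by
      intro w hw
      refine Real.sqrt_le_sqrt ?_
      have := sum_le_card_nsmul univ (fun x => w x ^ 2) 1 fun x _ =>
        (sq_le_one_iff_abs_le_one _).mpr (hw x)
      simpa [ZMod.card] using this
    refine (h u v).trans (mul_le_mul_of_nonneg_left ?_ hρ)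
    refine (mul_le_mul (h1 u hu) (h1 v hv) (Real.sqrt_nonneg _) (Real.sqrt_nonneg _)).trans ?_
    rw [Real.mul_self_sqrt hM.le]
  set c : ZMod M → ℝ := fun x => (ZMod.stdAddChar (ξ * x)).re with hc
  set s : ZMod M → ℝ := fun x => (ZMod.stdAddChar (ξ * x)).im with hs
  have hc1 : ∀ x, |c x| ≤ 1 := fun x =>
    (Complex.abs_re_le_norm _).trans (AddChar.norm_apply _ _).le
  have hs1 : ∀ x, |s x| ≤ 1 := fun x =>
    (Complex.abs_im_le_norm _).trans (AddChar.norm_apply _ _).le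
  have h1 : (M : ℂ) * ∑ d, (K d : ℂ) * ZMod.stdAddChar (ξ * d)
      = ∑ x, ∑ y, (K (x - y) : ℂ) * ZMod.stdAddChar (ξ * (x - y)) := by
    have h2 : ∀ x : ZMod M, ∑ y, (K (x - y) : ℂ) * ZMod.stdAddChar (ξ * (x - y))
        = ∑ d, (K d : ℂ) * ZMod.stdAddChar (ξ * d) := fun x =>
      Equiv.sum_comp (Equiv.subLeft x) fun d => (K d : ℂ) * ZMod.stdAddChar (ξ * d)
    simp only [h2, sum_const, card_univ, ZMod.card, nsmul_eq_mul]
  have h2 : ∑ x, ∑ y, (K (x - y) : ℂ) * ZMod.stdAddChar (ξ * (x - y))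
      = ((∑ x, ∑ y, c x * c y * K (x - y) : ℝ) : ℂ) + ((∑ x, ∑ y, s x * s y * K (x - y) : ℝ) : ℂ)
        + ((∑ x, ∑ y, s x * c y * K (x - y) : ℝ) : ℂ) * Complex.I
        - ((∑ x, ∑ y, c x * s y * K (x - y) : ℝ) : ℂ) * Complex.I := by
    push_cast
    simp only [sum_mul, ← sum_add_distrib, ← sum_sub_distrib]
    refine sum_congr rfl fun x _ => sum_congr rfl fun y _ => ?_
    rw [mul_sub, sub_eq_add_neg (ξ * x), AddChar.map_add_eq_mul, AddChar.map_neg_eq_conj]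
    have h3 : ZMod.stdAddChar (ξ * x) = c x + s x * Complex.I := (Complex.re_add_im _).symm
    have h4 : ZMod.stdAddChar (ξ * y) = c y + s y * Complex.I := (Complex.re_add_im _).symm
    rw [h3, h4, map_add, map_mul, Complex.conj_ofReal, Complex.conj_ofReal, Complex.conj_I]
    linear_combination (-(K (x - y) : ℂ) * s x * s y) * Complex.I_mul_I
  have h3 : ‖(M : ℂ) * ∑ d, (K d : ℂ) * ZMod.stdAddChar (ξ * d)‖ ≤ M * (4 * ρ) := by
    rw [h1, h2]
    refine (norm_sub_le _ _).trans ?_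
    refine (add_le_add (norm_add₃_le) le_rfl).trans ?_
    simp only [norm_mul, Complex.norm_I, mul_one, Complex.norm_real, Real.norm_eq_abs]
    linarith [hb c c hc1 hc1, hb s s hs1 hs1, hb s c hs1 hc1, hb c s hc1 hs1]
  rw [norm_mul, Complex.norm_natCast] at h3
  exact le_of_mul_le_mul_left h3 hM

/-- Integer version: a finitely supported kernel with small exponential sums. -/
theorem opb_int {σ : Type} (s : Finset σ) (c : σ → ℝ) (d : σ → ℤ) (ρ : ℝ)
    (h : ∀ θ : ℝ, ‖∑ t ∈ s, (c t : ℂ) * ee (θ * d t)‖ ≤ ρ) (L : ℕ) (a b : ℕ → ℝ) :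
    |∑ x ∈ range L, ∑ y ∈ range L, a x * b y *
        ∑ t ∈ s.filter (fun t => d t = (x : ℤ) - y), c t| ≤
      ρ * (√(∑ x ∈ range L, a x ^ 2) * √(∑ y ∈ range L, b y ^ 2)) := by
  obtain ⟨M, hM0, hML, hMd⟩ : ∃ M : ℕ, M ≠ 0 ∧ L ≤ M ∧ ∀ t ∈ s, (d t).natAbs + L ≤ M :=
    ⟨s.sup (fun t => (d t).natAbs) + L + 1, by omega, by omega, fun t ht => by
      have := le_sup (f := fun t => (d t).natAbs) ht
      omega⟩
  have : NeZero M := ⟨hM0⟩
  have hinj : Set.InjOn (fun x : ℕ => (x : ZMod M)) (range L) := by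
    intro x hx y hy hxy
    have hx' : x < L := mem_range.mp (mem_coe.mp hx)
    have hy' : y < L := mem_range.mp (mem_coe.mp hy)
    exact Nat.ModEq.eq_of_lt_of_lt ((ZMod.natCast_eq_natCast_iff _ _ _).mp hxy)
      (by omega) (by omega)
  have h1 := Four.core M s (range L) (range L) c (fun t => (d t : ZMod M)) a b _ _ hinj hinj ρ
    (fun ξ => by
      have h2 : ∀ t, ZMod.stdAddChar (ξ * (d t : ZMod M)) = ee ((ξ.val : ℝ) / M * d t) := by
        intro t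
        have h3 : ξ * (d t : ZMod M) = (((ξ.val : ℤ) * d t : ℤ) : ZMod M) := by simp
        rw [h3, ZMod.stdAddChar_coe, ee]
        congr 1
        push_cast
        ring
      simp only [h2]
      exact h _)
  refine le_of_eq_of_le (congrArg _ ?_) h1
  refine sum_congr rfl fun x hx => sum_congr rfl fun y hy => ?_
  congr 1
  refine sum_congr (filter_congr fun t ht => ?_) fun _ _ => rfl
  have hx' := mem_range.mp hx
  have hy' := mem_range.mp hy
  have h2 := hMd t ht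
  constructor
  · intro h3
    rw [h3]
    push_cast
    rfl
  · intro h3
    have h4 : ((d t - ((x : ℤ) - y) : ℤ) : ZMod M) = 0 := by
      push_cast
      rw [h3, sub_self]
    rw [ZMod.intCast_zmod_eq_zero_iff_dvd] at h4
    have h5 := Int.eq_zero_of_abs_lt_dvd h4 (by rw [abs_lt]; omega)
    omega

end Vale.Agent.P042
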