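import Vale.Agent.P042.Finner
import Vale.Agent.P042.Bessel

open Finset

namespace Vale.Agent.P042

namespace Gmb

noncomputable section

variable {ι W : Type} [Fintype ι] [DecidableEq ι] [Fintype W] [DecidableEq W]
  {P : ι → ℕ} {A : ι → Type}

/-- the local factor of an atom at the site `w` -/
def ef (Js : ∀ i, A i → Finset W) (ψ : ∀ i, A i → W → ZMod (P i) → ℝ) (i : ι) (a : A i) (w : W)
    (x : ZMod (P i)) : ℝ := if w ∈ Js i a then ψ i a w x else 1

def gg (Js : ∀ i, A i → Finset W) (ψ : ∀ i, A i → W → ZMod (P i) → ℝ) (L : ℕ) (f : W → ℕ → ℝ)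
    (w : W) (α : ∀ i, A i) : ℝ :=
  (∑ x ∈ range L, f w x * ∏ i, ef Js ψ i (α i) w (x : ZMod (P i))) / L

def G0 (Js : ∀ i, A i → Finset W) (ψ : ∀ i, A i → W → ZMod (P i) → ℝ) (Q L : ℕ) (f : W → ℕ → ℝ)
    (w : W) (α : ∀ i, A i) : ℝ :=
  if mm P (cols (fun i => Js i (α i)) w) ≤ Q then gg Js ψ L f w α else 0

def RR (Js : ∀ i, A i → Finset W) (cf cs : ι → W) (w : W) (α : ∀ i, A i) : Finset ι :=
  univ.filter fun i => ¬ (w = cf i ∨ w = cs i) ∧ w ∈ Js i (α i)

def GG (Js : ∀ i, A i → Finset W) (ψ : ∀ i, A i → W → ZMod (P i) → ℝ) (cf cs : ι → W) (Q L : ℕ)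
    (f : W → ℕ → ℝ) (w : W) (α : ∀ i, A i) : ℝ :=
  G0 Js ψ Q L f w α / (2 * 2 ^ (RR Js cf cs w α).card)

variable {Js : ∀ i, A i → Finset W} {ψ : ∀ i, A i → W → ZMod (P i) → ℝ} {cf cs : ι → W}
  {Q L : ℕ} {f : W → ℕ → ℝ}

omit [Fintype W] [DecidableEq ι] in
theorem GG_congr {w : W} {α β : ∀ i, A i}
    (h : ∀ j, β j = α j ∨ (w ∉ Js j (β j) ∧ w ∉ Js j (α j))) :
    GG Js ψ cf cs Q L f w β = GG Js ψ cf cs Q L f w α := by
  have h1 : ∀ j, w ∈ Js j (β j) ↔ w ∈ Js j (α j) := fun j => by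
    rcases h j with h | h
    · rw [h]
    · simp [h.1, h.2]
  have h2 : ∀ j x, ef Js ψ j (β j) w x = ef Js ψ j (α j) w x := fun j x => by
    rcases h j with h | h
    · rw [h]
    · simp [ef, h.1, h.2]
  simp only [GG, G0, gg, RR, cols, h1, h2]

omit [Fintype W] in
theorem ind_cols (J : ι → Finset W) (w : W) (S : Finset ι) :
    (if cols J w = S then (1 : ℝ) else 0) = ∏ i, if (w ∈ J i ↔ i ∈ S) then (1 : ℝ) else 0 := by
  rw [Finset.prod_ite_zero]
  simp only [mem_univ, forall_const, prod_const_one]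
  refine if_congr ?_ rfl rfl
  simp [cols, Finset.ext_iff]

omit [Fintype W] in
theorem G0_sq (w : W) (β : ∀ i, A i) :
    G0 Js ψ Q L f w β ^ 2 = (∑ S ∈ fam P Q, ∑ x ∈ range L, ∑ y ∈ range L, f w x * f w y *
      ∏ i, ((if (w ∈ Js i (β i) ↔ i ∈ S) then (1 : ℝ) else 0) *
        (ef Js ψ i (β i) w (x : ZMod (P i)) * ef Js ψ i (β i) w (y : ZMod (P i))))) / (L : ℝ) ^ 2 := by
  have h1 : G0 Js ψ Q L f w β ^ 2 = ∑ S ∈ fam P Q,
      (if cols (fun i => Js i (β i)) w = S then (1 : ℝ) else 0) * gg Js ψ L f w β ^ 2 := by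
    simp only [ite_mul, one_mul, zero_mul, Finset.sum_ite_eq, fam, mem_filter, mem_univ, true_and,
      G0]
    split_ifs <;> simp
  rw [h1, Finset.sum_div]
  refine Finset.sum_congr rfl fun S _ => ?_
  rw [ind_cols, gg, div_pow, mul_div_assoc', sq, Finset.sum_mul_sum, Finset.mul_sum]
  congr 1
  refine Finset.sum_congr rfl fun x _ => ?_
  rw [Finset.mul_sum]
  refine Finset.sum_congr rfl fun y _ => ?_
  simp only [Finset.prod_mul_distrib]
  ring

variable [∀ i, Fintype (A i)] [∀ i, DecidableEq (A i)]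

omit [Fintype W] in
theorem prod_kern {μ : ∀ i, A i → ℝ} {w : W} (α : ∀ i, A i)
    (hJ : ∀ i a, Js i a = ∅ ∨ (cf i ∈ Js i a ∧ cs i ∈ Js i a))
    (hone : ∀ i, ∑ a, (if Js i a = ∅ then μ i a else 0) = 1) (S : Finset ι)
    (x y : ∀ i, ZMod (P i)) :
    ∏ i, ∑ a, (if w = cf i ∨ w = cs i then μ i a else if a = α i then 1 else 0) *
      ((if (w ∈ Js i a ↔ i ∈ S) then (1 : ℝ) else 0) *
        (ef Js ψ i a w (x i) * ef Js ψ i a w (y i)))
      = if S.filter (fun i => ¬ (w = cf i ∨ w = cs i)) = RR Js cf cs w α then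
        (∏ i ∈ RR Js cf cs w α, ψ i (α i) w (x i)) * (∏ i ∈ RR Js cf cs w α, ψ i (α i) w (y i)) *
          ∏ i ∈ S.filter (fun i => w = cf i ∨ w = cs i),
            ∑ a, (if w ∈ Js i a then μ i a else 0) * (ψ i a w (x i) * ψ i a w (y i))
        else 0 := by
  have hmem : ∀ i a, (w = cf i ∨ w = cs i) → (w ∈ Js i a ↔ Js i a ≠ ∅) := by
    intro i a hw
    rcases hJ i a with h | h
    · simp [h]
    · have : w ∈ Js i a := by rcases hw with rfl | rfl; exacts [h.1, h.2]
      simp only [this, true_iff]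
      exact Finset.ne_empty_of_mem this
  have hk : ∀ i, ∑ a, (if w = cf i ∨ w = cs i then μ i a else if a = α i then 1 else 0) *
      ((if (w ∈ Js i a ↔ i ∈ S) then (1 : ℝ) else 0) *
        (ef Js ψ i a w (x i) * ef Js ψ i a w (y i)))
      = if w = cf i ∨ w = cs i then
          (if i ∈ S then ∑ a, (if w ∈ Js i a then μ i a else 0) * (ψ i a w (x i) * ψ i a w (y i))
            else 1)
        else (if (w ∈ Js i (α i) ↔ i ∈ S) then (1 : ℝ) else 0) *
          (ef Js ψ i (α i) w (x i) * ef Js ψ i (α i) w (y i)) := by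
    intro i
    by_cases hw : w = cf i ∨ w = cs i
    · simp only [if_pos hw]
      by_cases hS : i ∈ S
      · rw [if_pos hS]
        refine Finset.sum_congr rfl fun a _ => ?_
        by_cases ha : w ∈ Js i a <;> simp [ef, ha, hS]
      · rw [if_neg hS]
        refine Eq.trans (Finset.sum_congr rfl fun a _ => ?_) (hone i)
        by_cases ha : w ∈ Js i a
        · have := (hmem i a hw).1 ha
          simp [ha, hS, this]
        · have : Js i a = ∅ := by
            by_contra hc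
            exact ha ((hmem i a hw).2 hc)
          simp [ef, hS, this]
    · simp only [if_neg hw, ite_mul, one_mul, zero_mul, Finset.sum_ite_eq', mem_univ, if_true]
  simp only [hk]
  rw [Finset.prod_ite]
  split_ifs with hS
  · have hS' : ∀ i, ¬ (w = cf i ∨ w = cs i) → (w ∈ Js i (α i) ↔ i ∈ S) := by
      intro i hi
      have := Finset.ext_iff.1 hS i
      simp only [RR, mem_filter, mem_univ, true_and, hi, not_false_eq_true, and_true] at this
      exact this.symm
    have e1 : ∏ i ∈ univ.filter (fun i => w = cf i ∨ w = cs i),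
        (if i ∈ S then ∑ a, (if w ∈ Js i a then μ i a else 0) * (ψ i a w (x i) * ψ i a w (y i))
          else 1) = ∏ i ∈ S.filter (fun i => w = cf i ∨ w = cs i),
            ∑ a, (if w ∈ Js i a then μ i a else 0) * (ψ i a w (x i) * ψ i a w (y i)) := by
      rw [← Finset.prod_filter, Finset.filter_filter]
      refine Finset.prod_congr ?_ fun _ _ => rfl
      ext i
      simp [and_comm]
    have e2 : ∏ i ∈ univ.filter (fun i => ¬ (w = cf i ∨ w = cs i)),
        (if (w ∈ Js i (α i) ↔ i ∈ S) then (1 : ℝ) else 0) *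
          (ef Js ψ i (α i) w (x i) * ef Js ψ i (α i) w (y i))
        = (∏ i ∈ RR Js cf cs w α, ψ i (α i) w (x i)) *
          (∏ i ∈ RR Js cf cs w α, ψ i (α i) w (y i)) := by
      rw [← Finset.prod_mul_distrib, RR, ← Finset.filter_filter, Finset.prod_filter (s := filter _ _)]
      refine Finset.prod_congr rfl fun i hi => ?_
      rw [if_pos (hS' i (mem_filter.1 hi).2), one_mul]
      by_cases ha : w ∈ Js i (α i) <;> simp [ef, ha]
    rw [e1, e2, mul_comm]
  · have : ∃ i, ¬ (w = cf i ∨ w = cs i) ∧ ¬ (w ∈ Js i (α i) ↔ i ∈ S) := by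
      by_contra hc
      push Not at hc
      apply hS
      ext i
      simp only [RR, mem_filter, mem_univ, true_and]
      constructor
      · rintro ⟨h1, h2⟩
        exact ⟨h2, (hc i (by tauto)).2 h1⟩
      · rintro ⟨h1, h2⟩
        exact ⟨(hc i (by tauto)).1 h2, h1⟩
    obtain ⟨i, hi, hi2⟩ := this
    rw [Finset.prod_eq_zero (i := i) (s := univ.filter (fun i => ¬ (w = cf i ∨ w = cs i)))
      (by simpa using hi) (by rw [if_neg hi2, zero_mul]), mul_zero]

variable [∀ i, Fact (P i).Prime]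

omit [Fintype W] in
theorem sq_bound (hP : Function.Injective P) (hQ : 2 ≤ Q) (hL : Q ^ 20 ≤ L)
    {μ : ∀ i, A i → ℝ} (hμ : ∀ i a, 0 ≤ μ i a)
    (hJ : ∀ i a, Js i a = ∅ ∨ (cf i ∈ Js i a ∧ cs i ∈ Js i a))
    (hone : ∀ i, ∑ a, (if Js i a = ∅ then μ i a else 0) = 1)
    (hfr : ∀ i w, w = cf i ∨ w = cs i → ∀ h : ZMod (P i) → ℝ,
      ∑ a, (if w ∈ Js i a then μ i a else 0) * (∑ z, ψ i a w z * h z) ^ 2
        ≤ P i * ∑ z, h z ^ 2 - (∑ z, h z) ^ 2)
    (hb : ∀ i a w, ¬ (w = cf i ∨ w = cs i) → w ∈ Js i a → ∃ b, ∀ z, |ψ i a w z| ≤ dl z b + 2)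
    (hf : ∀ w x, |f w x| ≤ 1) (w : W) (α : ∀ i, A i) :
    ∑ β : ∀ i, A i, (∏ i, if w = cf i ∨ w = cs i then μ i (β i) else if β i = α i then 1 else 0) *
      GG Js ψ cf cs Q L f w β ^ 2 ≤ 1 := by
  set R := RR Js cf cs w α with hR
  have hL0 : (0 : ℝ) < L := by
    have : 0 < Q ^ 20 := by positivity
    exact_mod_cast this.trans_le hL
  have hstep : ∀ β : ∀ i, A i,
      (∏ i, if w = cf i ∨ w = cs i then μ i (β i) else if β i = α i then 1 else 0) *
        GG Js ψ cf cs Q L f w β ^ 2 =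
      (∏ i, if w = cf i ∨ w = cs i then μ i (β i) else if β i = α i then 1 else 0) *
        G0 Js ψ Q L f w β ^ 2 / (4 * 4 ^ R.card) := by
    intro β
    by_cases hβ : ∀ i, ¬ (w = cf i ∨ w = cs i) → β i = α i
    · have : RR Js cf cs w β = R := by
        ext i
        simp only [hR, RR, mem_filter, mem_univ, true_and]
        exact and_congr_right fun hi => by rw [hβ i hi]
      rw [GG, this, div_pow, mul_div_assoc, mul_pow, ← pow_mul, mul_comm R.card 2, pow_mul]
      norm_num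
    · push Not at hβ
      obtain ⟨i, hi, hi2⟩ := hβ
      rw [Finset.prod_eq_zero (mem_univ i) (by rw [if_neg (by tauto), if_neg hi2])]
      simp
  simp only [hstep]
  rw [← Finset.sum_div, div_le_one (by positivity)]
  obtain ⟨b, hb'⟩ : ∃ b : ∀ i, ZMod (P i), ∀ i ∈ R, ∀ z, |ψ i (α i) w z| ≤ dl z (b i) + 2 := by
    have : ∀ i, ∃ b : ZMod (P i), i ∈ R → ∀ z, |ψ i (α i) w z| ≤ dl z b + 2 := by
      intro i
      by_cases hi : i ∈ R
      · have hi' := (mem_filter.1 hi).2
        obtain ⟨b, hb⟩ := hb i (α i) w hi'.1 hi'.2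
        exact ⟨b, fun _ => hb⟩
      · exact ⟨0, fun h => absurd h hi⟩
    choose b hb using this
    exact ⟨b, hb⟩
  set h : ℕ → ℝ := fun x => f w x * ∏ i ∈ R, ψ i (α i) w (x : ZMod (P i)) with hh
  have hhb : ∀ x, |h x| ≤ ∏ i ∈ R, (dl (x : ZMod (P i)) (b i) + 2) := by
    intro x
    rw [hh]
    simp only [abs_mul, Finset.abs_prod]
    calc |f w x| * ∏ i ∈ R, |ψ i (α i) w (x : ZMod (P i))|
        ≤ 1 * ∏ i ∈ R, (dl (x : ZMod (P i)) (b i) + 2) :=
          mul_le_mul (hf w x) (Finset.prod_le_prod (fun i _ => abs_nonneg _) fun i hi => hb' i hi _)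
            (Finset.prod_nonneg fun i _ => abs_nonneg _) zero_le_one
      _ = _ := one_mul _
  set B : Finset (Finset ι) :=
    (fam P Q).filter fun S => S.filter (fun i => ¬ (w = cf i ∨ w = cs i)) = R with hB
  have e1 : ∑ β : ∀ i, A i,
      (∏ i, if w = cf i ∨ w = cs i then μ i (β i) else if β i = α i then 1 else 0) *
        G0 Js ψ Q L f w β ^ 2 = (∑ S ∈ B, ∑ x ∈ range L, ∑ y ∈ range L, h x * h y *
          ∏ i ∈ S.filter (fun i => w = cf i ∨ w = cs i), ∑ a, (if w ∈ Js i a then μ i a else 0) *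
            (ψ i a w (x : ZMod (P i)) * ψ i a w (y : ZMod (P i)))) / (L : ℝ) ^ 2 := by
    simp only [G0_sq, mul_div_assoc']
    rw [← Finset.sum_div]
    congr 1
    simp only [Finset.mul_sum]
    rw [Finset.sum_comm, hB, Finset.sum_filter]
    refine Finset.sum_congr rfl fun S _ => ?_
    have e2 : ∀ x y : ℕ, ∑ β : ∀ i, A i,
        (∏ i, if w = cf i ∨ w = cs i then μ i (β i) else if β i = α i then 1 else 0) *
        (f w x * f w y * ∏ i, ((if (w ∈ Js i (β i) ↔ i ∈ S) then (1 : ℝ) else 0) *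
          (ef Js ψ i (β i) w (x : ZMod (P i)) * ef Js ψ i (β i) w (y : ZMod (P i)))))
        = if S.filter (fun i => ¬ (w = cf i ∨ w = cs i)) = R then h x * h y *
          ∏ i ∈ S.filter (fun i => w = cf i ∨ w = cs i), ∑ a, (if w ∈ Js i a then μ i a else 0) *
            (ψ i a w (x : ZMod (P i)) * ψ i a w (y : ZMod (P i))) else 0 := by
      intro x y
      have e3 := prod_kern (ψ := ψ) (w := w) α hJ hone S (fun i => (x : ZMod (P i)))
        (fun i => (y : ZMod (P i)))
      rw [Finset.prod_univ_sum, Fintype.piFinset_univ] at e3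
      calc _ = f w x * f w y * ∑ β : ∀ i, A i, ∏ i,
            (if w = cf i ∨ w = cs i then μ i (β i) else if β i = α i then 1 else 0) *
            ((if (w ∈ Js i (β i) ↔ i ∈ S) then (1 : ℝ) else 0) *
              (ef Js ψ i (β i) w (x : ZMod (P i)) * ef Js ψ i (β i) w (y : ZMod (P i)))) := by
            rw [Finset.mul_sum]
            refine Finset.sum_congr rfl fun β _ => ?_
            rw [Finset.prod_mul_distrib (f := fun i =>
              if w = cf i ∨ w = cs i then μ i (β i) else if β i = α i then 1 else 0)]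
            ring
        _ = _ := by
            rw [e3, ← hR]
            split_ifs
            · simp only [hh]; ring
            · simp
    rw [Finset.sum_comm]
    split_ifs with hS
    · refine Finset.sum_congr rfl fun x _ => ?_
      rw [Finset.sum_comm]
      refine Finset.sum_congr rfl fun y _ => ?_
      rw [e2, if_pos hS]
    · refine Finset.sum_eq_zero fun x _ => ?_
      rw [Finset.sum_comm]
      refine Finset.sum_eq_zero fun y _ => ?_
      rw [e2, if_neg hS]
  rw [e1, div_le_iff₀ (by positivity)]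
  have e4 : ∑ S ∈ B, ∑ x ∈ range L, ∑ y ∈ range L, h x * h y *
      ∏ i ∈ S.filter (fun i => w = cf i ∨ w = cs i), ∑ a, (if w ∈ Js i a then μ i a else 0) *
        (ψ i a w (x : ZMod (P i)) * ψ i a w (y : ZMod (P i)))
      ≤ ∑ S ∈ B, ∑ x ∈ range L, ∑ y ∈ range L, h x * h y *
        ∏ i ∈ S.filter (fun i => w = cf i ∨ w = cs i), dl (x : ZMod (P i)) (y : ZMod (P i)) := by
    refine Finset.sum_le_sum fun S _ => ?_
    refine tensor_dom P (S.filter (fun i => w = cf i ∨ w = cs i))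
      (fun i a => if w ∈ Js i a then μ i a else 0) (fun i a z => ψ i a w z) ?_ ?_ L h
    · intro i a
      split_ifs
      exacts [hμ i a, le_rfl]
    · intro i hi
      exact hfr i w (mem_filter.1 hi).2
  refine e4.trans ?_
  rcases B.eq_empty_or_nonempty with hBe | ⟨S₀, hS₀⟩
  · rw [hBe, Finset.sum_empty]; positivity
  have hBm : ∀ S ∈ B, mm P S ≤ Q ∧ S.filter (fun i => ¬ (w = cf i ∨ w = cs i)) = R := by
    intro S hS
    have := mem_filter.1 hS
    exact ⟨(mem_filter.1 this.1).2, this.2⟩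
  have hRQ : mm P R ≤ Q := by
    obtain ⟨h1, h2⟩ := hBm S₀ hS₀
    exact (mm_mono P (h2 ▸ Finset.filter_subset _ _)).trans h1
  have hinj : Set.InjOn (fun S : Finset ι => S.filter (fun i => w = cf i ∨ w = cs i)) B := by
    intro S hS S' hS' hSS
    rw [← Finset.filter_union_filter_not_eq (fun i => w = cf i ∨ w = cs i) S,
      ← Finset.filter_union_filter_not_eq (fun i => w = cf i ∨ w = cs i) S',
      (hBm S hS).2, (hBm S' hS').2]
    exact congrArg (· ∪ R) hSS
  have e5 := bessel P hP Q L hQ hL R hRQ b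
    (B.image fun S : Finset ι => S.filter (fun i => w = cf i ∨ w = cs i)) ?_ h hhb
  · rw [Finset.sum_image hinj] at e5
    refine e5.trans ?_
    gcongr
    norm_num
  · intro T hT
    obtain ⟨S, hS, rfl⟩ := mem_image.1 hT
    refine ⟨?_, (mm_mono P (Finset.filter_subset _ _)).trans (hBm S hS).1⟩
    rw [← (hBm S hS).2]
    exact Finset.disjoint_filter_filter_not _ _ _

/-- The abstract bound after the labels are fixed. -/
theorem fin_bound (hP : Function.Injective P) (hQ : 2 ≤ Q) (hL : Q ^ 20 ≤ L)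
    {μ : ∀ i, A i → ℝ} (hμ : ∀ i a, 0 ≤ μ i a) {rk : W → ℕ} (hrk : Function.Injective rk)
    (hc : ∀ i, rk (cf i) < rk (cs i))
    (hJ : ∀ i a, Js i a = ∅ ∨ (cf i ∈ Js i a ∧ cs i ∈ Js i a))
    (hJ2 : ∀ i a, ∀ w ∈ Js i a, w = cf i ∨ w = cs i ∨ rk (cs i) < rk w)
    (hone : ∀ i, ∑ a, (if Js i a = ∅ then μ i a else 0) = 1)
    (hfr : ∀ i w, w = cf i ∨ w = cs i → ∀ h : ZMod (P i) → ℝ,
      ∑ a, (if w ∈ Js i a then μ i a else 0) * (∑ z, ψ i a w z * h z) ^ 2
        ≤ P i * ∑ z, h z ^ 2 - (∑ z, h z) ^ 2)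
    (hb : ∀ i a w, ¬ (w = cf i ∨ w = cs i) → w ∈ Js i a → ∃ b, ∀ z, |ψ i a w z| ≤ dl z b + 2)
    (hf : ∀ w x, |f w x| ≤ 1) :
    ∑ α : ∀ i, A i, (∏ i, μ i (α i)) * ∏ w, |GG Js ψ cf cs Q L f w α| ≤ 1 := by
  refine finner μ hμ rk hrk cf cs hc _ ?_ (sq_bound hP hQ hL hμ hJ hone hfr hb hf)
  intro w i α a h1 h2
  have hn : ∀ a, w ∉ Js i a := by
    intro a ha
    rcases hJ2 i a w ha with h | h | h
    · exact h1 h
    · rw [h] at h2; exact lt_irrefl _ h2
    · exact lt_asymm h h2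
  refine GG_congr fun j => ?_
  by_cases hj : j = i
  · subst hj
    exact Or.inr ⟨hn _, hn _⟩
  · exact Or.inl (Function.update_of_ne hj _ _)

omit [DecidableEq ι] [∀ i, Fintype (A i)] [∀ i, DecidableEq (A i)] [∀ i, Fact (P i).Prime] in
theorem prod_G0_le (α : ∀ i, A i) :
    ∏ w, |G0 Js ψ Q L f w α| ≤ 2 ^ Fintype.card W *
      (∏ i, if Js i (α i) = ∅ then (1 : ℝ) else 2 ^ Fintype.card W) *
        ∏ w, |GG Js ψ cf cs Q L f w α| := by
  have e1 : ∀ w, |G0 Js ψ Q L f w α|
      = 2 * 2 ^ (RR Js cf cs w α).card * |GG Js ψ cf cs Q L f w α| := by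
    intro w
    rw [GG, abs_div, abs_of_pos (a := (2 : ℝ) * 2 ^ _) (by positivity)]
    field_simp
  simp only [e1, Finset.prod_mul_distrib, Finset.prod_const, Finset.card_univ]
  refine mul_le_mul_of_nonneg_right (mul_le_mul_of_nonneg_left ?_ (by positivity))
    (Finset.prod_nonneg fun _ _ => abs_nonneg _)
  have e2 : ∀ w, (2 : ℝ) ^ (RR Js cf cs w α).card
      = ∏ i, if ¬ (w = cf i ∨ w = cs i) ∧ w ∈ Js i (α i) then (2 : ℝ) else 1 := by
    intro w
    rw [← Finset.prod_filter, Finset.prod_const, RR]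
  simp only [e2]
  rw [Finset.prod_comm]
  refine Finset.prod_le_prod (fun i _ => Finset.prod_nonneg fun w _ => by positivity) fun i _ => ?_
  split_ifs with hi
  · simp [hi]
  · calc ∏ w, (if ¬ (w = cf i ∨ w = cs i) ∧ w ∈ Js i (α i) then (2 : ℝ) else 1)
        ≤ ∏ _w : W, (2 : ℝ) := Finset.prod_le_prod (fun w _ => by positivity) fun w _ => by
          split_ifs <;> norm_num
      _ = _ := by rw [Finset.prod_const, Finset.card_univ]

omit [∀ i, DecidableEq (A i)] in
/-- expansion of one term into atoms -/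
theorem term_le (Tw : ∀ i, (W → ZMod (P i)) → ℝ) {ν sg : ∀ i, A i → ℝ}
    (hsg : ∀ i a, |sg i a| ≤ ν i a) (J : ι → Finset W)
    (hk : ∀ i z, kap (Tw i) (J i) z
      = ∑ a, (if Js i a = J i then sg i a else 0) * ∏ w, ef Js ψ i a w (z w)) :
    |term P Tw L f J| ≤ ∑ α : ∀ i, A i, (if (fun i => Js i (α i)) = J then
      (∏ i, ν i (α i)) * ∏ w, |gg Js ψ L f w α| else 0) := by
  have e1 : term P Tw L f J = ∑ α : ∀ i, A i,
      (∏ i, if Js i (α i) = J i then sg i (α i) else 0) * ∏ w, gg Js ψ L f w α := by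
    simp only [term, hk, gg, Finset.prod_div_distrib, Finset.prod_const, Finset.card_univ,
      mul_div_assoc']
    rw [← Finset.sum_div]
    congr 1
    simp only [Finset.prod_univ_sum, Fintype.piFinset_univ, Finset.mul_sum]
    rw [Finset.sum_comm]
    refine Finset.sum_congr rfl fun α _ => Finset.sum_congr rfl fun x _ => ?_
    simp only [Finset.prod_mul_distrib]
    rw [Finset.prod_comm (f := fun i w => ef Js ψ i (α i) w (x w : ZMod (P i)))]
    ring
  rw [e1]
  refine (Finset.abs_sum_le_sum_abs _ _).trans (Finset.sum_le_sum fun α _ => ?_)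
  rw [abs_mul, Finset.abs_prod, Finset.abs_prod]
  split_ifs with hα
  · refine mul_le_mul_of_nonneg_right ?_ (Finset.prod_nonneg fun _ _ => abs_nonneg _)
    refine Finset.prod_le_prod (fun _ _ => abs_nonneg _) fun i _ => ?_
    rw [if_pos (congrFun hα i)]
    exact hsg i _
  · obtain ⟨i, hi⟩ := Function.ne_iff.1 hα
    rw [Finset.prod_eq_zero (mem_univ i) (by rw [if_neg hi, abs_zero]), zero_mul]

end

end Gmb

end Vale.Agent.P042
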