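import Vale.Agent.P042.Finner
import Vale.Agent.P042.Bessel
import Vale.Agent.P042.GmbAux

open Finset Polynomial

namespace Vale.Agent.P042

namespace Gmb

noncomputable section

variable {ι W : Type} [Fintype ι] [DecidableEq ι] [Fintype W] [DecidableEq W]

/-- `u, v` are the two elements of smallest rank of `J` -/
def compat (rk : W → ℕ) (J : Finset W) (u v : W) : Prop :=
  u ∈ J ∧ v ∈ J ∧ ∀ w ∈ J, w = u ∨ w = v ∨ rk v < rk w

instance (rk : W → ℕ) (J : Finset W) (u v : W) : Decidable (compat rk J u v) := by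
  unfold compat; infer_instance

omit [Fintype W] in
theorem exists_compat {rk : W → ℕ} (hrk : Function.Injective rk) {J : Finset W}
    (hJ : 2 ≤ J.card) : ∃ u v, rk u < rk v ∧ compat rk J u v := by
  obtain ⟨u, hu, hu'⟩ := J.exists_min_image rk (card_pos.1 (by omega))
  obtain ⟨v, hv, hv'⟩ := (J.erase u).exists_min_image rk
    (card_pos.1 (by rw [card_erase_of_mem hu]; omega))
  have hv1 := mem_erase.1 hv
  refine ⟨u, v, lt_of_le_of_ne (hu' v hv1.2) fun h => hv1.1 (hrk h).symm, hu, hv1.2, ?_⟩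
  intro w hw
  by_cases h1 : w = u
  · exact Or.inl h1
  by_cases h2 : w = v
  · exact Or.inr (Or.inl h2)
  · exact Or.inr (Or.inr (lt_of_le_of_ne (hv' w (mem_erase.2 ⟨h1, hw⟩))
      fun h => h2 (hrk h).symm))

/-- the label weight -/
def lw (rk : W → ℕ) (M : ℝ) (J : Finset W) (u v : W) : ℝ :=
  if J = ∅ then 1 else if compat rk J u v then M else 0

theorem var_nonneg {p : ℕ} [NeZero p] (h : ZMod p → ℝ) :
    0 ≤ p * ∑ a, h a ^ 2 - (∑ a, h a) ^ 2 := by
  have := sq_sum_le_card_mul_sum_sq (s := (univ : Finset (ZMod p))) (f := h)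
  rw [Finset.card_univ, ZMod.card] at this
  linarith

theorem atoms' {Θ : Type} [Fintype Θ] {p : ℕ} [NeZero p] {T : (W → ZMod p) → ℝ} {η : ℝ}
    (hT : Tame Θ T η) {rk : W → ℕ} {u v : W} (huv : rk u < rk v) (J : Finset W) :
    ∃ (ν : Θ → ℝ) (ψ : Θ → W → ZMod p → ℝ), (∀ θ, 0 ≤ ν θ) ∧
      (¬ compat rk J u v → ∀ θ, ν θ = 0) ∧ (compat rk J u v →
      (∀ a, kap T J a = ∑ θ, ν θ * ∏ w ∈ J, ψ θ w (a w)) ∧
      (∀ w, w = u ∨ w = v → ∀ h : ZMod p → ℝ,
        ∑ θ, ν θ * (∑ a, ψ θ w a * h a) ^ 2 ≤ η * (p * ∑ a, h a ^ 2 - (∑ a, h a) ^ 2)) ∧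
      (∀ θ w, w ≠ u → w ≠ v → ∃ b, ∀ a, |ψ θ w a| ≤ dl a b + 2)) := by
  by_cases hc : compat rk J u v
  · obtain ⟨ν, ψ, h1, h2⟩ := hT.atoms J u v hc.1 hc.2.1 (fun h => by rw [h] at huv; omega)
    exact ⟨ν, ψ, h1, fun h => absurd hc h, fun _ => h2⟩
  · exact ⟨fun _ => 0, fun _ _ _ => 0, fun _ => le_rfl, fun _ _ => rfl, fun h => absurd h hc⟩

theorem label_bound (P : ι → ℕ) [∀ i, Fact (P i).Prime] (hP : Function.Injective P)
    (Θ : ι → Type) [∀ i, Fintype (Θ i)] (Tw : ∀ i, (W → ZMod (P i)) → ℝ) (η : ι → ℝ) (κ : ℝ)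
    (hT : ∀ i, Tame (Θ i) (Tw i) (η i)) {M : ℝ} (hM0 : 0 ≤ M)
    (hM : M ≤ (Fintype.card W : ℝ) ^ 2)
    (hη : ∀ i, (Fintype.card W : ℝ) ^ 2 * 4 ^ Fintype.card W * (P i : ℝ) ^ κ * η i ≤ 1)
    {Q L : ℕ} (hQ : 2 ≤ Q) (hL : Q ^ 20 ≤ L) {rk : W → ℕ} (hrk : Function.Injective rk)
    {cf cs : ι → W} (hc : ∀ i, rk (cf i) < rk (cs i)) {f : W → ℕ → ℝ} (hf : ∀ w x, |f w x| ≤ 1) :
    ∑ J ∈ univ.filter (fun J : ι → Finset W => ∀ w, mm P (cols J w) ≤ Q),
      (∏ i, lw rk (M * (P i : ℝ) ^ κ) (J i) (cf i) (cs i)) * |term P Tw L f J|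
        ≤ 2 ^ Fintype.card W := by
  classical
  choose ν₀ ψ₀ hν₀ hν₁ hat using fun i J => atoms' (hT i) (hc i) J
  set N := Fintype.card W with hN
  let A : ι → Type := fun i => Option (Finset W × Θ i)
  let Js : ∀ i, A i → Finset W := fun i a =>
    a.elim ∅ fun b => if compat rk b.1 (cf i) (cs i) then b.1 else ∅
  let ψ : ∀ i, A i → W → ZMod (P i) → ℝ := fun i a => a.elim (fun _ _ => 1) fun b => ψ₀ i b.1 b.2
  let ν : ∀ i, A i → ℝ := fun i a => a.elim 1 fun b => ν₀ i b.1 b.2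
  let sg : ∀ i, A i → ℝ := fun i a => a.elim (∑ x, Tw i x) fun b => ν₀ i b.1 b.2
  let μ : ∀ i, A i → ℝ := fun i a =>
    ν i a * (if Js i a = ∅ then 1 else M * (P i : ℝ) ^ κ * 2 ^ N)
  have hPκ : ∀ i, 0 ≤ (P i : ℝ) ^ κ := fun i => Real.rpow_nonneg (Nat.cast_nonneg _) _
  have hν : ∀ i a, 0 ≤ ν i a := by
    rintro i (_ | b)
    exacts [zero_le_one, hν₀ i b.1 b.2]
  have hμ : ∀ i a, 0 ≤ μ i a := fun i a => mul_nonneg (hν i a) (by
    have := hPκ i
    split_ifs <;> positivity)
  have hne : ∀ i J, compat rk J (cf i) (cs i) → J ≠ ∅ := fun i J h => ne_empty_of_mem h.1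
  have hJc : ∀ i a, Js i a = ∅ ∨ compat rk (Js i a) (cf i) (cs i) := by
    rintro i (_ | b)
    · exact Or.inl rfl
    · by_cases hb : compat rk b.1 (cf i) (cs i)
      · right; simp [Js, hb]
      · left; simp [Js, hb]
  have hsg : ∀ i a, |sg i a| ≤ ν i a := by
    rintro i (_ | b)
    exacts [(hT i).mass, (abs_of_nonneg (hν₀ i b.1 b.2)).le]
  have hone : ∀ i, ∑ a, (if Js i a = ∅ then μ i a else 0) = 1 := by
    intro i
    rw [Fintype.sum_option, Finset.sum_eq_zero]
    · simp [Js, μ, ν]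
    · rintro ⟨J, θ⟩ _
      by_cases hb : compat rk J (cf i) (cs i)
      · simp [Js, hb, hne i J hb]
      · simp [μ, ν, hν₁ i J hb]
  have hfr : ∀ i w, w = cf i ∨ w = cs i → ∀ h : ZMod (P i) → ℝ,
      ∑ a, (if w ∈ Js i a then μ i a else 0) * (∑ z, ψ i a w z * h z) ^ 2
        ≤ P i * ∑ z, h z ^ 2 - (∑ z, h z) ^ 2 := by
    intro i w hw h
    have hV := var_nonneg h
    set V := (P i : ℝ) * ∑ z, h z ^ 2 - (∑ z, h z) ^ 2 with hVdef
    have ha : M * (P i : ℝ) ^ κ * 2 ^ N * η i ≤ 1 / 2 ^ N := by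
      rcases le_total (η i) 0 with h0 | h0
      · have : 0 ≤ M * (P i : ℝ) ^ κ * 2 ^ N := by have := hPκ i; positivity
        exact (mul_nonpos_of_nonneg_of_nonpos this h0).trans (by positivity)
      · rw [le_div_iff₀ (by positivity)]
        refine le_trans ?_ (hη i)
        have h4 : (4 : ℝ) ^ N = 2 ^ N * 2 ^ N := by rw [← mul_pow]; norm_num
        have h5 : 0 ≤ 4 ^ N * (P i : ℝ) ^ κ * η i := by have := hPκ i; positivity
        have h6 := mul_le_mul_of_nonneg_right hM h5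
        rw [h4] at h6 ⊢
        linarith
    rw [Fintype.sum_option, Fintype.sum_prod_type]
    have e0 : (if w ∈ Js i none then μ i none else 0) * (∑ z, ψ i none w z * h z) ^ 2 = 0 := by
      simp [Js]
    rw [e0, zero_add]
    calc ∑ J : Finset W, ∑ θ : Θ i, (if w ∈ Js i (some (J, θ)) then μ i (some (J, θ)) else 0) *
          (∑ z, ψ i (some (J, θ)) w z * h z) ^ 2 ≤ ∑ _J : Finset W, 1 / 2 ^ N * V := by
          refine Finset.sum_le_sum fun J _ => ?_
          by_cases hb : compat rk J (cf i) (cs i)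
          · have hwJ : w ∈ J := by rcases hw with rfl | rfl; exacts [hb.1, hb.2.1]
            have h1 := (hat i J hb).2.1 w hw h
            have e1 : ∑ θ : Θ i, (if w ∈ Js i (some (J, θ)) then μ i (some (J, θ)) else 0) *
                (∑ z, ψ i (some (J, θ)) w z * h z) ^ 2 = M * (P i : ℝ) ^ κ * 2 ^ N *
                  ∑ θ, ν₀ i J θ * (∑ a, ψ₀ i J θ w a * h a) ^ 2 := by
              rw [Finset.mul_sum]
              refine Finset.sum_congr rfl fun θ _ => ?_
              simp only [Js, μ, ν, ψ, Option.elim_some, if_pos hb, if_pos hwJ, if_neg (hne i J hb)]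
              ring
            rw [e1]
            calc _ ≤ M * (P i : ℝ) ^ κ * 2 ^ N * (η i * V) :=
                  mul_le_mul_of_nonneg_left h1 (by have := hPκ i; positivity)
              _ = M * (P i : ℝ) ^ κ * 2 ^ N * η i * V := by ring
              _ ≤ _ := mul_le_mul_of_nonneg_right ha hV
          · rw [Finset.sum_eq_zero fun θ _ => by simp [Js, hb]]
            positivity
      _ = V := by
          rw [Finset.sum_const, Finset.card_univ, Fintype.card_finset, nsmul_eq_mul, ← hN]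
          push_cast
          field_simp
  have hb : ∀ i a w, ¬ (w = cf i ∨ w = cs i) → w ∈ Js i a →
      ∃ b, ∀ z, |ψ i a w z| ≤ dl z b + 2 := by
    rintro i (_ | b) w hw hwa
    · simp [Js] at hwa
    · by_cases hb : compat rk b.1 (cf i) (cs i)
      · exact (hat i b.1 hb).2.2 b.2 w (fun h => hw (Or.inl h)) (fun h => hw (Or.inr h))
      · simp [Js, hb] at hwa
  have hfin := fin_bound (Js := Js) (ψ := ψ) (f := f) hP hQ hL hμ hrk hc
    (fun i a => (hJc i a).imp id fun h => ⟨h.1, h.2.1⟩)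
    (fun i a w hw => by
      rcases hJc i a with h | h
      · simp [h] at hw
      · exact h.2.2 w hw) hone hfr hb hf
  have hlw : ∀ i J, 0 ≤ lw rk (M * (P i : ℝ) ^ κ) J (cf i) (cs i) := by
    intro i J
    have := hPκ i
    unfold lw
    split_ifs <;> positivity
  have hterm : ∀ J : ι → Finset W,
      (∏ i, lw rk (M * (P i : ℝ) ^ κ) (J i) (cf i) (cs i)) * |term P Tw L f J|
        ≤ ∑ α : ∀ i, A i, (if (fun i => Js i (α i)) = J then
          (∏ i, lw rk (M * (P i : ℝ) ^ κ) (Js i (α i)) (cf i) (cs i)) *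
            ((∏ i, ν i (α i)) * ∏ w, |gg Js ψ L f w α|) else 0) := by
    intro J
    by_cases hJ : ∀ i, J i = ∅ ∨ compat rk (J i) (cf i) (cs i)
    · have h1 := term_le (Js := Js) (ψ := ψ) (L := L) (f := f) Tw hsg J ?_
      · refine (mul_le_mul_of_nonneg_left h1 (Finset.prod_nonneg fun i _ => hlw i _)).trans ?_
        rw [Finset.mul_sum]
        refine le_of_eq (Finset.sum_congr rfl fun α _ => ?_)
        split_ifs with hα
        · subst hα; rfl
        · exact mul_zero _
      · intro i z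
        rw [Fintype.sum_option, Fintype.sum_prod_type]
        rcases hJ i with h | h
        · rw [h, Finset.sum_eq_zero]
          · simp [kap, Js, sg, ef]
          · intro J' _
            refine Finset.sum_eq_zero fun θ _ => ?_
            by_cases hb : compat rk J' (cf i) (cs i)
            · simp [Js, hb, hne i J' hb]
            · simp [sg, hν₁ i J' hb]
        · rw [(hat i _ h).1 z, Finset.sum_eq_single (J i)]
          · have e0 : Js i none ≠ J i := (hne i _ h).symm
            rw [if_neg e0, zero_mul, zero_add]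
            refine Finset.sum_congr rfl fun θ _ => ?_
            simp only [Js, sg, ψ, ef, Option.elim_some, if_pos h, if_true]
            rw [← Finset.prod_filter, Finset.filter_mem_eq_inter, Finset.univ_inter]
          · intro J' _ hJ'
            refine Finset.sum_eq_zero fun θ _ => ?_
            by_cases hb : compat rk J' (cf i) (cs i)
            · simp [Js, hb, hJ']
            · simp [sg, hν₁ i J' hb]
          · exact fun h => absurd (mem_univ _) h
    · push Not at hJ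
      obtain ⟨i, hi1, hi2⟩ := hJ
      have : lw rk (M * (P i : ℝ) ^ κ) (J i) (cf i) (cs i) = 0 := by
        rw [lw, if_neg (by simpa [Finset.nonempty_iff_ne_empty] using hi1), if_neg hi2]
      rw [Finset.prod_eq_zero (mem_univ i) this, zero_mul]
      refine Finset.sum_nonneg fun α _ => ?_
      split_ifs
      · exact mul_nonneg (Finset.prod_nonneg fun i _ => hlw i _) (mul_nonneg
          (Finset.prod_nonneg fun i _ => hν i _) (Finset.prod_nonneg fun _ _ => abs_nonneg _))
      · exact le_rfl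
  refine (Finset.sum_le_sum fun J _ => hterm J).trans ?_
  rw [Finset.sum_comm]
  simp only [Finset.sum_ite_eq, mem_filter, mem_univ, true_and]
  refine le_trans (Finset.sum_le_sum (g := fun α => 2 ^ N *
    ((∏ i, μ i (α i)) * ∏ w, |GG Js ψ cf cs Q L f w α|)) fun α _ => ?_) ?_
  · have hG := prod_G0_le (Js := Js) (ψ := ψ) (cf := cf) (cs := cs) (Q := Q) (L := L) (f := f) α
    have hμe : ∏ i, μ i (α i) = (∏ i, lw rk (M * (P i : ℝ) ^ κ) (Js i (α i)) (cf i) (cs i)) *
        (∏ i, ν i (α i)) * ∏ i, if Js i (α i) = ∅ then (1 : ℝ) else 2 ^ N := by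
      rw [← Finset.prod_mul_distrib, ← Finset.prod_mul_distrib]
      refine Finset.prod_congr rfl fun i _ => ?_
      rcases hJc i (α i) with h | h
      · simp only [μ, lw, if_pos h]; ring
      · simp only [μ, lw, if_neg (hne i _ h), if_pos h]; ring
    have h0 : 0 ≤ (∏ i, lw rk (M * (P i : ℝ) ^ κ) (Js i (α i)) (cf i) (cs i)) *
        (∏ i, ν i (α i)) :=
      mul_nonneg (Finset.prod_nonneg fun i _ => hlw i _) (Finset.prod_nonneg fun i _ => hν i _)
    have h1 := mul_le_mul_of_nonneg_left hG h0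
    split_ifs with hg
    · have : ∏ w, |gg Js ψ L f w α| = ∏ w, |G0 Js ψ Q L f w α| :=
        Finset.prod_congr rfl fun w _ => by rw [G0, if_pos (hg w)]
      rw [this, hμe]
      linarith
    · exact mul_nonneg (by positivity) (mul_nonneg (Finset.prod_nonneg fun i _ => hμ i _)
        (Finset.prod_nonneg fun _ _ => abs_nonneg _))
  · rw [← Finset.mul_sum]
    exact mul_le_of_le_one_right (by positivity) hfin

omit [DecidableEq ι] in
theorem term_single (P : ι → ℕ) [∀ i, NeZero (P i)] {Tw : ∀ i, (W → ZMod (P i)) → ℝ}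
    (hT : ∀ i w a, kap (Tw i) {w} a = 0) (L : ℕ) (f : W → ℕ → ℝ) {J : ι → Finset W} {i : ι}
    (hi : (J i).card = 1) : term P Tw L f J = 0 := by
  obtain ⟨w, hw⟩ := card_eq_one.1 hi
  rw [term, Finset.sum_eq_zero, zero_div]
  intro x _
  rw [Finset.prod_eq_zero (mem_univ i) (by rw [hw, hT]), mul_zero]

omit [Fintype W] [DecidableEq ι] in
theorem mm_supp_rpow (P : ι → ℕ) (κ : ℝ) (J : ι → Finset W) :
    (mm P (supp J) : ℝ) ^ κ = ∏ i, if J i = ∅ then 1 else (P i : ℝ) ^ κ := by
  rw [mm, Nat.cast_prod, ← Real.finsetProd_rpow _ _ fun i _ => Nat.cast_nonneg _, supp,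
    Finset.prod_filter]
  refine Finset.prod_congr rfl fun i _ => ?_
  by_cases h : J i = ∅
  · simp [h]
  · rw [if_neg h, if_pos (Finset.nonempty_iff_ne_empty.2 h)]

end

end Gmb

open Gmb in
/-- The general moment bound. -/
theorem gmb {ι W : Type} [Fintype ι] [DecidableEq ι] [Fintype W] [DecidableEq W]
    (hW : 2 ≤ Fintype.card W) (P : ι → ℕ) [∀ i, Fact (P i).Prime] (hP : Function.Injective P)
    (Θ : ι → Type) [∀ i, Fintype (Θ i)] (Tw : ∀ i, (W → ZMod (P i)) → ℝ) (η : ι → ℝ) (κ : ℝ)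
    (hT : ∀ i, Tame (Θ i) (Tw i) (η i))
    (hη : ∀ i, (Fintype.card W : ℝ) ^ 2 * 4 ^ Fintype.card W * (P i : ℝ) ^ κ * η i ≤ 1)
    (Q L : ℕ) (hQ : 2 ≤ Q) (hL : Q ^ 20 ≤ L) : GM P Tw Q L κ (2 ^ Fintype.card W) := by
  intro f hf
  let rk : W → ℕ := fun w => (Fintype.equivFin W w : ℕ)
  have hrk : Function.Injective rk := Fin.val_injective.comp (Fintype.equivFin W).injective
  let Pr : Finset (W × W) := univ.filter fun p => rk p.1 < rk p.2
  set M : ℝ := (Pr.card : ℝ) with hMdef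
  have hM : M ≤ (Fintype.card W : ℝ) ^ 2 := by
    have := Finset.card_le_univ Pr
    rw [Fintype.card_prod] at this
    rw [hMdef, sq]
    exact_mod_cast this
  have hM0 : 0 < M := by
    obtain ⟨u, v, huv, -⟩ := exists_compat hrk (J := univ) (by rwa [Finset.card_univ])
    exact Nat.cast_pos.2 (card_pos.2 ⟨(u, v), mem_filter.2 ⟨mem_univ _, huv⟩⟩)
  have hPκ : ∀ i, 0 ≤ (P i : ℝ) ^ κ := fun i => Real.rpow_nonneg (Nat.cast_nonneg _) _
  have hlw : ∀ i J u v, 0 ≤ lw rk (M * (P i : ℝ) ^ κ) J u v := by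
    intro i J u v
    have := hPκ i
    unfold lw
    split_ifs <;> positivity
  have h1 : ∀ J : ι → Finset W, M ^ Fintype.card ι * ((mm P (supp J) : ℝ) ^ κ * |term P Tw L f J|)
      ≤ ∑ c ∈ Fintype.piFinset (fun _ : ι => Pr),
        (∏ i, lw rk (M * (P i : ℝ) ^ κ) (J i) (c i).1 (c i).2) * |term P Tw L f J| := by
    intro J
    rw [← Finset.sum_mul, ← mul_assoc]
    by_cases hJ : ∃ i, (J i).card = 1
    · obtain ⟨i, hi⟩ := hJ
      rw [term_single P (fun i => (hT i).single) L f hi]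
      simp
    refine mul_le_mul_of_nonneg_right ?_ (abs_nonneg _)
    rw [← Finset.prod_univ_sum (fun _ : ι => Pr)
      (fun i p => lw rk (M * (P i : ℝ) ^ κ) (J i) p.1 p.2), mm_supp_rpow, ← Finset.card_univ,
      ← Finset.prod_const, ← Finset.prod_mul_distrib]
    refine Finset.prod_le_prod (fun i _ => ?_) fun i _ => ?_
    · have := hPκ i
      split_ifs <;> positivity
    · by_cases h : J i = ∅
      · simp [lw, h, hMdef]
      · have h2 : 2 ≤ (J i).card := by
          have h3 : (J i).card ≠ 0 := by simpa using h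
          have h4 : (J i).card ≠ 1 := fun h => hJ ⟨i, h⟩
          omega
        obtain ⟨u, v, huv, hc⟩ := exists_compat hrk h2
        have h5 := Finset.single_le_sum (f := fun p : W × W =>
          lw rk (M * (P i : ℝ) ^ κ) (J i) p.1 p.2) (fun p _ => hlw i _ _ _)
          (show (u, v) ∈ Pr from mem_filter.2 ⟨mem_univ _, huv⟩)
        rw [if_neg h]
        simpa only [lw, if_neg h, if_pos hc] using h5
  refine le_of_mul_le_mul_left (a := M ^ Fintype.card ι) ?_ (by positivity)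
  rw [Finset.mul_sum]
  refine (Finset.sum_le_sum fun J _ => h1 J).trans ?_
  rw [Finset.sum_comm]
  refine (Finset.sum_le_sum (g := fun _ => (2 : ℝ) ^ Fintype.card W) fun c hc => ?_).trans ?_
  · exact label_bound P hP Θ Tw η κ hT hM0.le hM hη hQ hL hrk
      (fun i => (mem_filter.1 (Fintype.mem_piFinset.1 hc i)).2) hf
  · rw [Finset.sum_const, Fintype.card_piFinset, Finset.prod_const, Finset.card_univ,
      nsmul_eq_mul, Nat.cast_pow]

end Vale.Agent.P042
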