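import Vale.Agent.P042.Expand

open Finset Polynomial

namespace Vale.Agent.P042

namespace Good

section Freeze
variable {W : Type} [Fintype W] [DecidableEq W]

theorem freeze1 (L : ℕ) (u : W) (F : (W → ℕ) → ℝ) :
    (L : ℝ) * ∑ x ∈ Fintype.piFinset (fun _ : W => range L), F x =
      ∑ x ∈ Fintype.piFinset (fun _ : W => range L), ∑ s ∈ range L,
        F (Function.update x u s) := by
  have h1 : (L : ℝ) * ∑ x ∈ Fintype.piFinset (fun _ : W => range L), F x =
      ∑ z ∈ (Fintype.piFinset (fun _ : W => range L)) ×ˢ range L, F z.1 := by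
    rw [Finset.sum_product, Finset.mul_sum]
    refine Finset.sum_congr rfl fun x _ => ?_
    simp
  rw [h1, ← Finset.sum_product' (f := fun x s => F (Function.update x u s))]
  have hmem : ∀ z ∈ (Fintype.piFinset (fun _ : W => range L)) ×ˢ range L,
      (Function.update z.1 u z.2, z.1 u) ∈
        (Fintype.piFinset (fun _ : W => range L)) ×ˢ range L := by
    intro z hz
    rw [Finset.mem_product, Fintype.mem_piFinset] at hz ⊢
    refine ⟨fun w => ?_, hz.1 u⟩
    by_cases hw : w = u
    · subst hw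
      simpa using hz.2
    · simpa [Function.update_of_ne hw] using hz.1 w
  refine Finset.sum_nbij' (fun z => (Function.update z.1 u z.2, z.1 u))
    (fun z => (Function.update z.1 u z.2, z.1 u)) hmem hmem ?_ ?_ ?_
  · intro z _
    simp
  · intro z _
    simp
  · intro z _
    simp

theorem freeze2 (L : ℕ) (u v : W) (F : (W → ℕ) → ℝ) :
    (L : ℝ) ^ 2 * ∑ x ∈ Fintype.piFinset (fun _ : W => range L), F x =
      ∑ x ∈ Fintype.piFinset (fun _ : W => range L), ∑ s ∈ range L, ∑ t ∈ range L,
        F (Function.update (Function.update x u s) v t) := by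
  rw [sq, mul_assoc, freeze1 L v F,
    freeze1 L u (fun x => ∑ t ∈ range L, F (Function.update x v t))]

theorem frozen_bound (L : ℕ) (hL : 1 ≤ L) (u v : W) (F : (W → ℕ) → ℝ) (B : ℝ)
    (h : ∀ x : W → ℕ, |∑ s ∈ range L, ∑ t ∈ range L,
      F (Function.update (Function.update x u s) v t)| ≤ B * (L : ℝ) ^ 2) :
    |∑ x ∈ Fintype.piFinset (fun _ : W => range L), F x| ≤ B * (L : ℝ) ^ Fintype.card W := by
  have hL' : (0 : ℝ) < (L : ℝ) ^ 2 := by
    have : (0 : ℝ) < L := by exact_mod_cast hL
    positivity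
  have h2 : (L : ℝ) ^ 2 * |∑ x ∈ Fintype.piFinset (fun _ : W => range L), F x| ≤
      (L : ℝ) ^ 2 * (B * (L : ℝ) ^ Fintype.card W) := by
    rw [← abs_of_pos hL', ← abs_mul, abs_of_pos hL', freeze2 L u v F]
    refine (Finset.abs_sum_le_sum_abs _ _).trans ?_
    refine (Finset.sum_le_sum fun x _ => h x).trans ?_
    rw [Finset.sum_const, Fintype.card_piFinset]
    simp only [card_range, prod_const, card_univ, nsmul_eq_mul, Nat.cast_pow]
    exact le_of_eq (by ring)
  exact le_of_mul_le_mul_left h2 hL'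

theorem prod_update (u v : W) (huv : u ≠ v) (f : W → ℕ → ℝ) (x : W → ℕ) (s t : ℕ) :
    ∏ w, f w (Function.update (Function.update x u s) v t w) =
      f u s * f v t * ∏ w ∈ (univ.erase u).erase v, f w (x w) := by
  rw [← Finset.mul_prod_erase univ _ (mem_univ u),
    ← Finset.mul_prod_erase (univ.erase u) _ (show v ∈ univ.erase u by simp [huv.symm])]
  rw [Function.update_of_ne huv, Function.update_self, Function.update_self, mul_assoc]
  congr 2
  refine Finset.prod_congr rfl fun w hw => ?_
  simp only [mem_erase, mem_univ, and_true] at hw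
  rw [Function.update_of_ne hw.1, Function.update_of_ne hw.2]

end Freeze

section Local
variable {W : Type} [Fintype W] [DecidableEq W] {p : ℕ} [NeZero p]

theorem sum_kap (T : (W → ZMod p) → ℝ) (a : W → ZMod p) :
    ∑ K : Finset W, kap T K a = (p : ℝ) ^ Fintype.card W * T a := by
  unfold kap
  rw [Finset.sum_comm]
  have h1 : ∀ x : W → ZMod p, ∑ K : Finset W, T x * ∏ w ∈ K, dl (a w) (x w) =
      if x = a then (p : ℝ) ^ Fintype.card W * T a else 0 := by
    intro x
    rw [← Finset.mul_sum, ← Finset.powerset_univ, ← Finset.prod_one_add]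
    split_ifs with hx
    · subst hx
      simp [dl, mul_comm]
    · obtain ⟨w, hw⟩ := Function.ne_iff.mp hx
      rw [Finset.prod_eq_zero (mem_univ w), mul_zero]
      simp [dl, hw.symm]
  rw [Finset.sum_congr rfl fun x _ => h1 x]
  simp

theorem kap_empty (T : (W → ZMod p) → ℝ) (hsum : ∑ x, T x = 1) (a : W → ZMod p) :
    kap T ∅ a = 1 := by
  simp [kap, hsum]

omit [Fintype W] in
theorem subset_pair {u v : W} {K : Finset W} (h : K ⊆ {u, v}) :
    K = ∅ ∨ K = {u} ∨ K = {v} ∨ K = {u, v} := by
  by_cases hu : u ∈ K <;> by_cases hv : v ∈ K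
  · right; right; right
    refine Finset.Subset.antisymm h ?_
    intro w hw
    simp only [mem_insert, mem_singleton] at hw
    rcases hw with rfl | rfl <;> assumption
  · right; left
    ext w
    simp only [mem_singleton]
    refine ⟨fun hw => ?_, fun hw => hw ▸ hu⟩
    have := h hw
    simp only [mem_insert, mem_singleton] at this
    rcases this with h1 | h1
    · exact h1
    · exact absurd (h1 ▸ hw) hv
  · right; right; left
    ext w
    simp only [mem_singleton]
    refine ⟨fun hw => ?_, fun hw => hw ▸ hv⟩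
    have := h hw
    simp only [mem_insert, mem_singleton] at this
    rcases this with h1 | h1
    · exact absurd (h1 ▸ hw) hu
    · exact h1
  · left
    ext w
    simp only [notMem_empty, iff_false]
    intro hw
    have := h hw
    simp only [mem_insert, mem_singleton] at this
    rcases this with h1 | h1
    · exact hu (h1 ▸ hw)
    · exact hv (h1 ▸ hw)

/-- the sum of the cumulants that see a site outside the pair -/
noncomputable def rr (T : (W → ZMod p) → ℝ) (u v : W) (a : W → ZMod p) : ℝ :=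
  ∑ K ∈ univ.filter (fun K : Finset W => ¬ K ⊆ {u, v}), kap T K a

theorem rr_eq (T : (W → ZMod p) → ℝ) (u v : W) (huv : u ≠ v) (k : ZMod p → ℝ)
    (hsum : ∑ x, T x = 1) (hsing : ∀ w a, kap T {w} a = 0)
    (hpair : ∀ a, kap T {u, v} a = k (a u - a v) - 1) (a : W → ZMod p) :
    rr T u v a = (p : ℝ) ^ Fintype.card W * T a - k (a u - a v) := by
  have h1 := Finset.sum_filter_add_sum_filter_not univ (fun K : Finset W => K ⊆ {u, v})
    (fun K => kap T K a)
  have h2 : univ.filter (fun K : Finset W => K ⊆ {u, v}) = ({u, v} : Finset W).powerset := by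
    ext K
    simp
  have h3 : ∑ K ∈ ({u, v} : Finset W).powerset, kap T K a = k (a u - a v) := by
    rw [Finset.sum_powerset_insert (by simpa using huv)]
    have h4 : ({v} : Finset W).powerset = {∅, {v}} := by
      ext K
      simp [Finset.subset_singleton_iff]
    have h5 : (∅ : Finset W) ≠ {v} := (Finset.singleton_ne_empty v).symm
    rw [h4, Finset.sum_pair h5, Finset.sum_pair h5, kap_empty T hsum, hsing,
      Finset.insert_empty, hsing, hpair]
    ring
  rw [h2, h3, sum_kap] at h1
  unfold rr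
  linarith

theorem rr_abs (T : (W → ZMod p) → ℝ) (u v : W) (huv : u ≠ v) (k : ZMod p → ℝ)
    (hpos : ∀ x, 0 ≤ T x) (hsum : ∑ x, T x = 1) (hsing : ∀ w a, kap T {w} a = 0)
    (hpair : ∀ a, kap T {u, v} a = k (a u - a v) - 1) (hk : ∀ d, 0 ≤ k d ∧ k d ≤ p)
    (a : W → ZMod p) : |rr T u v a| ≤ (p : ℝ) ^ (Fintype.card W + 1) := by
  rw [rr_eq T u v huv k hsum hsing hpair]
  have hp : (1 : ℝ) ≤ p := by exact_mod_cast Nat.one_le_iff_ne_zero.mpr (NeZero.ne p)
  have hT1 : T a ≤ 1 := by
    rw [← hsum]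
    exact Finset.single_le_sum (fun x _ => hpos x) (mem_univ a)
  have hq : (1 : ℝ) ≤ (p : ℝ) ^ Fintype.card W := one_le_pow₀ hp
  have h0 : 0 ≤ (p : ℝ) ^ Fintype.card W * T a := mul_nonneg (by linarith) (hpos a)
  have h1 : (p : ℝ) ^ Fintype.card W * T a ≤ (p : ℝ) ^ (Fintype.card W + 1) := by
    rw [pow_succ]
    exact mul_le_mul_of_nonneg_left (hT1.trans hp) (by linarith)
  have h2 : k (a u - a v) ≤ (p : ℝ) ^ (Fintype.card W + 1) := by
    rw [pow_succ]
    refine (hk _).2.trans ?_
    nlinarith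
  have h3 := (hk (a u - a v)).1
  rw [abs_le]
  constructor <;> linarith

theorem rr_ok (T : (W → ZMod p) → ℝ) (u v : W) (huv : u ≠ v) (k : ZMod p → ℝ)
    (ok : ZMod p → Prop) (hsum : ∑ x, T x = 1) (hsing : ∀ w a, kap T {w} a = 0)
    (hpair : ∀ a, kap T {u, v} a = k (a u - a v) - 1)
    (hok1 : ∀ x, T x ≠ 0 → ok (x u - x v)) (hok2 : ∀ d, k d ≠ 0 → ok d)
    (a : W → ZMod p) (h : rr T u v a ≠ 0) : ok (a u - a v) := by
  rw [rr_eq T u v huv k hsum hsing hpair] at h
  by_cases h1 : T a = 0
  · refine hok2 _ fun h2 => h ?_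
    rw [h1, h2]
    ring
  · exact hok1 a h1

end Local

section Main
variable {ι W : Type} [Fintype ι] [DecidableEq ι] [Fintype W] [DecidableEq W]

def S1 (u v : W) (J : ι → Finset W) : Finset ι := univ.filter fun i => ¬ J i ⊆ {u, v}

def T1 (u v : W) (J : ι → Finset W) : Finset ι := univ.filter fun i => J i = {u, v}

def MM (P : ι → ℕ) (u v : W) (Y Y1 : ℕ) : Finset (ι → Finset W) :=
  univ.filter fun J => mm P (S1 u v J) ≤ Y1 ∧ mm P (T1 u v J) ≤ Y ∧
    ∀ i, J i ⊆ {u, v} → J i = ∅ ∨ J i = {u, v}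

def blk (u v : W) (S T : Finset ι) (i : ι) : Finset (Finset W) :=
  if i ∈ S then univ.filter (fun K : Finset W => ¬ K ⊆ {u, v})
  else if i ∈ T then {{u, v}} else {∅}

theorem fiber_eq (P : ι → ℕ) (u v : W) (Y Y1 : ℕ) (S T : Finset ι) (hS : S ∈ fam P Y1)
    (hT : T ∈ famB P S Y) :
    ((MM P u v Y Y1).filter fun J => S1 u v J = S).filter (fun J => T1 u v J = T) =
      Fintype.piFinset (blk u v S T) := by
  simp only [fam, famB, mem_filter, mem_univ, true_and] at hS hT
  have hne : (∅ : Finset W) ≠ {u, v} := (Finset.insert_ne_empty _ _).symm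
  ext J
  simp only [mem_filter, Fintype.mem_piFinset, MM, mem_univ, true_and]
  constructor
  · rintro ⟨⟨⟨_, _, h3⟩, h4⟩, h5⟩ i
    unfold blk
    split_ifs with hiS hiT
    · rw [← h4] at hiS
      simpa [S1] using hiS
    · rw [← h5] at hiT
      simpa [T1] using hiT
    · rw [← h4] at hiS
      rw [← h5] at hiT
      simp only [S1, mem_filter, mem_univ, true_and, not_not] at hiS
      simp only [T1, mem_filter, mem_univ, true_and] at hiT
      simpa using (h3 i hiS).resolve_right hiT
  · intro h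
    have hin : ∀ i ∈ S, ¬ J i ⊆ {u, v} := by
      intro i hi
      have := h i
      simpa [blk, hi] using this
    have hinT : ∀ i ∈ T, J i = {u, v} := by
      intro i hi
      have hiS : i ∉ S := Finset.disjoint_left.mp hT.1 hi
      have := h i
      simpa [blk, hi, hiS] using this
    have hout : ∀ i, i ∉ S → i ∉ T → J i = ∅ := by
      intro i hiS hi
      have := h i
      simpa [blk, hi, hiS] using this
    have h4 : S1 u v J = S := by
      ext i
      simp only [S1, mem_filter, mem_univ, true_and]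
      refine ⟨fun hi => ?_, hin i⟩
      by_contra hiS
      by_cases hiT : i ∈ T
      · exact hi (hinT i hiT).subset
      · exact hi (by rw [hout i hiS hiT]; exact Finset.empty_subset _)
    have h5 : T1 u v J = T := by
      ext i
      simp only [T1, mem_filter, mem_univ, true_and]
      refine ⟨fun hi => ?_, hinT i⟩
      by_contra hiT
      by_cases hiS : i ∈ S
      · exact hin i hiS hi.subset
      · exact hne ((hout i hiS hiT).symm.trans hi)
    refine ⟨⟨⟨h4 ▸ hS, h5 ▸ hT.2, fun i hi => ?_⟩, h4⟩, h5⟩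
    by_cases hiT : i ∈ T
    · exact Or.inr (hinT i hiT)
    · exact Or.inl (hout i (fun hiS => hin i hiS hi) hiT)

theorem sum_MM (P : ι → ℕ) (u v : W) (Y Y1 : ℕ) (c : ι → Finset W → ℝ) (hc : ∀ i, c i ∅ = 1) :
    ∑ J ∈ MM P u v Y Y1, ∏ i, c i (J i) =
      ∑ S ∈ fam P Y1, (∏ i ∈ S, ∑ K ∈ univ.filter (fun K : Finset W => ¬ K ⊆ {u, v}), c i K) *
        ∑ T ∈ famB P S Y, ∏ i ∈ T, c i {u, v} := by
  rw [← Finset.sum_fiberwise_of_maps_to (s := MM P u v Y Y1) (t := fam P Y1) (g := S1 u v)]
  swap
  · intro J hJ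
    simp only [MM, mem_filter, mem_univ, true_and] at hJ
    simpa [fam] using hJ.1
  refine Finset.sum_congr rfl fun S hS => ?_
  rw [← Finset.sum_fiberwise_of_maps_to (s := (MM P u v Y Y1).filter fun J => S1 u v J = S)
    (t := famB P S Y) (g := T1 u v)]
  swap
  · intro J hJ
    simp only [MM, mem_filter, mem_univ, true_and] at hJ
    simp only [famB, mem_filter, mem_univ, true_and]
    refine ⟨?_, hJ.1.2.1⟩
    rw [← hJ.2, Finset.disjoint_left]
    intro i hi
    simp only [T1, mem_filter, mem_univ, true_and] at hi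
    simp [S1, hi]
  rw [Finset.mul_sum]
  refine Finset.sum_congr rfl fun T hT => ?_
  rw [fiber_eq P u v Y Y1 S T hS hT, ← Finset.prod_univ_sum]
  have hd : Disjoint T S := by
    simp only [famB, mem_filter, mem_univ, true_and] at hT
    exact hT.1
  have h1 : ∀ i, ∑ K ∈ blk u v S T i, c i K =
      (if i ∈ S then ∑ K ∈ univ.filter (fun K : Finset W => ¬ K ⊆ {u, v}), c i K else 1) *
        (if i ∈ T then c i {u, v} else 1) := by
    intro i
    unfold blk
    by_cases hiS : i ∈ S
    · have hiT : i ∉ T := Finset.disjoint_right.mp hd hiS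
      simp [hiS, hiT]
    · by_cases hiT : i ∈ T
      · simp [hiS, hiT]
      · simp [hiS, hiT, hc]
  rw [Finset.prod_congr rfl fun i _ => h1 i, Finset.prod_mul_distrib,
    Finset.prod_ite_mem, Finset.prod_ite_mem, Finset.univ_inter, Finset.univ_inter]

variable (P : ι → ℕ) [∀ i, Fact (P i).Prime]

theorem MM_valid (u v : W) (Q Y Y1 : ℕ) (hQ : Y * Y1 ≤ Q) (J : ι → Finset W)
    (hJ : J ∈ MM P u v Y Y1) (w : W) : cols J w ∈ fam P Q := by
  simp only [MM, mem_filter, mem_univ, true_and] at hJ
  simp only [fam, mem_filter, mem_univ, true_and]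
  have hsub : cols J w ⊆ T1 u v J ∪ S1 u v J := by
    intro i hi
    simp only [cols, mem_filter, mem_univ, true_and] at hi
    simp only [T1, S1, mem_union, mem_filter, mem_univ, true_and]
    by_cases h : J i ⊆ {u, v}
    · rcases hJ.2.2 i h with h1 | h1
      · rw [h1] at hi
        exact absurd hi (notMem_empty w)
      · exact Or.inl h1
    · exact Or.inr h
  exact (mm_mono P hsub).trans ((mm_union_le P _ _).trans
    ((Nat.mul_le_mul hJ.2.1 hJ.1).trans hQ))

theorem not_MM (Tg : ∀ i, (W → ZMod (P i)) → ℝ) (u v : W)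
    (hsing : ∀ i w a, kap (Tg i) {w} a = 0) (L Y Y1 : ℕ) (hYY : Y1 ≤ Y) (f : W → ℕ → ℝ)
    (J : ι → Finset W) (hJ : J ∉ MM P u v Y Y1) (hs : ¬ Y1 ≤ mm P (supp J)) :
    term P Tg L f J = 0 := by
  have hS : S1 u v J ⊆ supp J := by
    intro i hi
    simp only [S1, mem_filter, mem_univ, true_and] at hi
    simp only [supp, mem_filter, mem_univ, true_and]
    rw [Finset.nonempty_iff_ne_empty]
    intro h
    exact hi (by rw [h]; exact Finset.empty_subset _)
  have hT : T1 u v J ⊆ supp J := by
    intro i hi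
    simp only [T1, mem_filter, mem_univ, true_and] at hi
    simp only [supp, mem_filter, mem_univ, true_and]
    rw [hi]
    exact Finset.insert_nonempty _ _
  have h1 := mm_mono P hS
  have h2 := mm_mono P hT
  simp only [MM, mem_filter, mem_univ, true_and, not_and, not_forall] at hJ
  obtain ⟨i, hi, hi2⟩ := hJ (by omega) (by omega)
  have h3 : ∃ w, J i = {w} := by
    rcases subset_pair hi with h | h | h | h
    · exact absurd (Or.inl h) hi2
    · exact ⟨u, h⟩
    · exact ⟨v, h⟩
    · exact absurd (Or.inr h) hi2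
  obtain ⟨w, hw⟩ := h3
  unfold term
  rw [Finset.sum_eq_zero, zero_div]
  intro x _
  rw [Finset.prod_eq_zero (mem_univ i), mul_zero]
  rw [hw]
  exact hsing i w _

end Main

end Good

open Good in
/-- The good part of the form is small. -/
theorem good_bound {ι W : Type} [Fintype ι] [DecidableEq ι] [Fintype W] [DecidableEq W]
    (P : ι → ℕ) [∀ i, Fact (P i).Prime] (hP : Function.Injective P)
    (Tg : ∀ i, (W → ZMod (P i)) → ℝ) (u v : W) (huv : u ≠ v)
    (kt : ∀ i, ZMod (P i) → ℝ) (ok : ∀ i, ZMod (P i) → Prop)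
    (hpos : ∀ i x, 0 ≤ Tg i x) (hsum : ∀ i, ∑ x, Tg i x = 1)
    (hsing : ∀ i w a, kap (Tg i) {w} a = 0)
    (hpair : ∀ i a, kap (Tg i) {u, v} a = kt i (a u - a v) - 1)
    (hkt : ∀ i d, 0 ≤ kt i d ∧ kt i d ≤ P i)
    (hok1 : ∀ i x, Tg i x ≠ 0 → ok i (x u - x v)) (hok2 : ∀ i d, kt i d ≠ 0 → ok i d)
    (Q L Y Y1 : ℕ) (κ C ε : ℝ) (hκ : 0 ≤ κ) (hε : 0 ≤ ε) (hY1 : 1 ≤ Y1) (hYY : Y1 ≤ Y)
    (hQ : Y * Y1 ≤ Q) (hL : 1 ≤ L) (hG : GM P Tg Q L κ C)
    (f : W → ℕ → ℝ) (hf : ∀ w x, |f w x| ≤ 1)
    (htr : ∀ S : Finset ι, mm P S ≤ Y1 → ∀ (h : ℕ → ℕ → ℝ) (H : ℝ), (∀ x y, |h x y| ≤ H) →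
      (∀ x x' y y', x ≡ x' [MOD mm P S] → y ≡ y' [MOD mm P S] → h x y = h x' y') →
      (∀ x y, h x y ≠ 0 → ∀ i ∈ S, ok i ((x : ZMod (P i)) - y)) →
      |∑ x ∈ range L, ∑ y ∈ range L,
        f u x * f v y * h x y * wsum P S Y kt ((x : ℤ) - y)| ≤ ε * H * (L : ℝ) ^ 2) :
    |form Tg (fun w => lift P (fam P Q) L (f w))| ≤
      C * (Y1 : ℝ) ^ (-κ) + ε * (Y1 : ℝ) ^ (Fintype.card W + 2) := by
  rw [form_lift P Tg (fun _ => fam P Q) L f]
  have hsub : MM P u v Y Y1 ⊆
      univ.filter (fun J : ι → Finset W => ∀ w, cols J w ∈ fam P Q) := by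
    intro J hJ
    simp only [mem_filter, mem_univ, true_and]
    exact MM_valid P u v Q Y Y1 hQ J hJ
  rw [← Finset.sum_sdiff hsub]
  refine (abs_add_le _ _).trans (add_le_add ?_ ?_)
  · rw [← Finset.sum_filter_add_sum_filter_not _ (fun J => Y1 ≤ mm P (supp J)),
      Finset.sum_eq_zero (s := Finset.filter (fun J => ¬ Y1 ≤ mm P (supp J)) _), add_zero]
    · refine (Finset.abs_sum_le_sum_abs _ _).trans ?_
      refine gm_tail P Tg Q L κ C hκ hG f hf Y1 hY1 _ fun J hJ => ?_
      simp only [mem_filter, mem_sdiff, mem_univ, true_and, fam] at hJ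
      exact ⟨hJ.1.1, hJ.2⟩
    · intro J hJ
      rw [mem_filter, mem_sdiff] at hJ
      exact not_MM P Tg u v hsing L Y Y1 hYY f J hJ.1.2 hJ.2
  · have hLpos : (0 : ℝ) < (L : ℝ) ^ Fintype.card W := by
      have : (0 : ℝ) < L := by exact_mod_cast hL
      positivity
    have hE : ∑ J ∈ MM P u v Y Y1, term P Tg L f J =
        (∑ S ∈ fam P Y1, ∑ x ∈ Fintype.piFinset (fun _ : W => range L),
          (∏ w, f w (x w)) * ((∏ i ∈ S, rr (Tg i) u v (fun w => (x w : ZMod (P i)))) *
            wsum P S Y kt ((x u : ℤ) - x v))) / (L : ℝ) ^ Fintype.card W := by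
      unfold term
      rw [← Finset.sum_div, Finset.sum_comm, Finset.sum_comm (s := fam P Y1)]
      congr 1
      refine Finset.sum_congr rfl fun x _ => ?_
      rw [← Finset.mul_sum, ← Finset.mul_sum,
        sum_MM P u v Y Y1 (fun i K => kap (Tg i) K (fun w => (x w : ZMod (P i))))
          (fun i => kap_empty (Tg i) (hsum i) _)]
      congr 1
      refine Finset.sum_congr rfl fun S _ => ?_
      unfold rr wsum
      congr 1
      refine Finset.sum_congr rfl fun T _ => Finset.prod_congr rfl fun i _ => ?_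
      rw [hpair]
      push_cast
      rfl
    rw [hE, abs_div, abs_of_pos hLpos, div_le_iff₀ hLpos]
    refine (Finset.abs_sum_le_sum_abs _ _).trans ?_
    have hS : ∀ S ∈ fam P Y1, |∑ x ∈ Fintype.piFinset (fun _ : W => range L),
          (∏ w, f w (x w)) * ((∏ i ∈ S, rr (Tg i) u v (fun w => (x w : ZMod (P i)))) *
            wsum P S Y kt ((x u : ℤ) - x v))| ≤
          ε * (Y1 : ℝ) ^ (Fintype.card W + 1) * (L : ℝ) ^ Fintype.card W := by
      intro S hS
      simp only [fam, mem_filter, mem_univ, true_and] at hS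
      refine frozen_bound L hL u v _ _ fun x => ?_
      have key := htr S hS (fun s t => (∏ w ∈ (univ.erase u).erase v, f w (x w)) *
        ∏ i ∈ S, rr (Tg i) u v
          (fun w => ((Function.update (Function.update x u s) v t w : ℕ) : ZMod (P i))))
        ((Y1 : ℝ) ^ (Fintype.card W + 1)) ?_ ?_ ?_
      · refine le_of_eq_of_le ?_ key
        congr 1
        refine Finset.sum_congr rfl fun s _ => Finset.sum_congr rfl fun t _ => ?_
        rw [prod_update u v huv f x s t, Function.update_of_ne huv, Function.update_self,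
          Function.update_self]
        ring
      · intro s t
        rw [abs_mul, Finset.abs_prod, Finset.abs_prod]
        have h1 : ∏ w ∈ (univ.erase u).erase v, |f w (x w)| ≤ 1 :=
          Finset.prod_le_one (fun w _ => abs_nonneg _) (fun w _ => hf w _)
        have h2 : ∏ i ∈ S, |rr (Tg i) u v
            (fun w => ((Function.update (Function.update x u s) v t w : ℕ) : ZMod (P i)))| ≤
            ∏ i ∈ S, (P i : ℝ) ^ (Fintype.card W + 1) :=
          Finset.prod_le_prod (fun i _ => abs_nonneg _) (fun i _ =>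
            rr_abs (Tg i) u v huv (kt i) (hpos i) (hsum i) (hsing i) (hpair i) (hkt i) _)
        have h3 : ∏ i ∈ S, (P i : ℝ) ^ (Fintype.card W + 1) ≤
            (Y1 : ℝ) ^ (Fintype.card W + 1) := by
          rw [Finset.prod_pow]
          refine pow_le_pow_left₀ (Finset.prod_nonneg fun i _ => Nat.cast_nonneg _) ?_ _
          have : ((mm P S : ℕ) : ℝ) ≤ Y1 := by exact_mod_cast hS
          simpa [mm] using this
        refine (mul_le_mul h1 (h2.trans h3) (Finset.prod_nonneg fun i _ => abs_nonneg _)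
          zero_le_one).trans ?_
        rw [one_mul]
      · intro s s' t t' hs ht
        have hs' := (cast_eq_iff_modEq P hP S s s').mpr hs
        have ht' := (cast_eq_iff_modEq P hP S t t').mpr ht
        congr 1
        refine Finset.prod_congr rfl fun i hi => ?_
        congr 1
        funext w
        by_cases hwv : w = v
        · rw [hwv, Function.update_self, Function.update_self]
          exact ht' i hi
        · rw [Function.update_of_ne hwv, Function.update_of_ne hwv]
          by_cases hwu : w = u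
          · rw [hwu, Function.update_self, Function.update_self]
            exact hs' i hi
          · rw [Function.update_of_ne hwu, Function.update_of_ne hwu]
      · intro s t hne i hi
        have h1 := (Finset.prod_ne_zero_iff.mp (right_ne_zero_of_mul hne)) i hi
        have h2 := rr_ok (Tg i) u v huv (kt i) (ok i) (hsum i) (hsing i) (hpair i) (hok1 i)
          (hok2 i) _ h1
        simpa [Function.update_of_ne huv] using h2
    refine (Finset.sum_le_sum hS).trans ?_
    rw [Finset.sum_const, nsmul_eq_mul]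
    have hc : ((fam P Y1).card : ℝ) ≤ Y1 := by exact_mod_cast card_fam P hP Y1
    have hn : 0 ≤ ε * (Y1 : ℝ) ^ (Fintype.card W + 1) * (L : ℝ) ^ Fintype.card W := by
      positivity
    refine (mul_le_mul_of_nonneg_right hc hn).trans (le_of_eq ?_)
    ring

end Vale.Agent.P042
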