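import Vale.Agent.P042.PairB

open Finset Polynomial

namespace Vale.Agent.P042

namespace LocTame

theorem sum_dl_left {p : ℕ} [NeZero p] (γ : ZMod p) (h : ZMod p → ℝ) :
    ∑ t, dl t γ * h t = p * h γ - ∑ t, h t := by
  simp [dl, sub_mul, sum_sub_distrib]

theorem sum_dl_right {p : ℕ} [NeZero p] (β : ZMod p) (h : ZMod p → ℝ) :
    ∑ t, dl β t * h t = p * h β - ∑ t, h t := by
  simp [dl, sub_mul, sum_sub_distrib]

theorem sum_coord {W : Type} [Fintype W] [DecidableEq W] {p : ℕ} [NeZero p] (w : W)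
    (f : ZMod p → ℝ) :
    (p : ℝ) * ∑ y : W → ZMod p, f (y w) = (p : ℝ) ^ Fintype.card W * ∑ t, f t := by
  rw [PairB.avgZ w (fun y => f (y w))]
  simp

theorem var_sum {W : Type} [Fintype W] [DecidableEq W] {p : ℕ} [NeZero p] (w : W)
    (h : ZMod p → ℝ) : ∑ y : W → ZMod p, (p * h (y w) - ∑ t, h t) ^ 2 =
      (p : ℝ) ^ Fintype.card W * (p * ∑ t, h t ^ 2 - (∑ t, h t) ^ 2) := by
  have hp : (0 : ℝ) < p := Nat.cast_pos.2 (Nat.pos_of_ne_zero (NeZero.ne p))
  refine mul_left_cancel₀ hp.ne' ?_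
  rw [sum_coord w (fun s => (p * h s - ∑ t, h t) ^ 2)]
  have : ∀ s, (p * h s - ∑ t, h t) ^ 2 =
      p ^ 2 * h s ^ 2 - (2 * p * ∑ t, h t) * h s + (∑ t, h t) ^ 2 := fun s => by ring
  simp only [this, sum_add_distrib, sum_sub_distrib, ← mul_sum, sum_const, card_univ, ZMod.card,
    nsmul_eq_mul]
  ring

theorem var_nonneg {p : ℕ} [NeZero p] (h : ZMod p → ℝ) :
    0 ≤ p * ∑ t, h t ^ 2 - (∑ t, h t) ^ 2 := by
  have := sq_sum_le_card_mul_sum_sq (s := (univ : Finset (ZMod p))) (f := h)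
  rw [card_univ, ZMod.card] at this
  linarith

theorem B_bound {W : Type} [Fintype W] [DecidableEq W] {p : ℕ} [NeZero p] (k : ZMod p → ℝ)
    (ρ km : ℝ) (hρ : 0 ≤ ρ) (hkm : 1 ≤ km) (hk0 : ∀ d, 0 ≤ k d ∧ k d ≤ km) (hk : OpB k ρ)
    (E : Finset (W × W)) (hE : ∀ e ∈ E, e.1 ≠ e.2 ∧ (e.2, e.1) ∉ E) (u : W) (h0 : ZMod p → ℝ)
    (hh : ∑ t, h0 t = 0) :
    p * ∑ y : W → ZMod p, (∑ t, (∏ e ∈ E, k (Function.update y u t e.1 -
        Function.update y u t e.2)) * h0 t) ^ 2 ≤
      (p * (E.card * ρ * km ^ E.card)) ^ 2 * ((p : ℝ) ^ Fintype.card W * ∑ t, h0 t ^ 2) := by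
  have hp : (0 : ℝ) < p := Nat.cast_pos.2 (Nat.pos_of_ne_zero (NeZero.ne p))
  have hkm0 : 0 ≤ km := zero_le_one.trans hkm
  obtain ⟨B, hB⟩ : ∃ B : (W → ZMod p) → ℝ, ∀ y, B y = ∑ t, (∏ e ∈ E,
      k (Function.update y u t e.1 - Function.update y u t e.2)) * h0 t := ⟨_, fun _ => rfl⟩
  simp only [← hB]
  have iB : Indep B u := fun y t => by simp only [hB, Function.update_idem]
  let E0 := E.filter fun e => e.1 ≠ u ∧ e.2 ≠ u
  let E1 := E.filter fun e => ¬ (e.1 ≠ u ∧ e.2 ≠ u)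
  have i0 := PairB.indep_mul iB (PairB.indep_prod k E0 u fun e he => (mem_filter.1 he).2)
  have iA : ∀ w, w ≠ u → Indep (fun y : W → ZMod p => h0 (y u)) w := fun w hw y t => by
    simp only [Function.update_of_ne hw.symm]
  have h1 := prod_bound k ρ km hρ hkm hk0 hk E1
    (fun e he => ⟨(hE e (mem_filter.1 he).1).1, fun h => (hE e (mem_filter.1 he).1).2
      (mem_filter.1 h).1⟩) (fun y => h0 (y u)) _ (fun e he => by
      obtain ⟨he1, he2⟩ := mem_filter.1 he
      by_cases e1 : e.1 = u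
      · exact Or.inl ⟨iA _ fun h => (hE e he1).1 (e1.trans h.symm), e1 ▸ i0⟩
      · have e2 : e.2 = u := by_contra fun h => he2 ⟨e1, h⟩
        exact Or.inr ⟨iA _ e1, e2 ▸ i0⟩)
  have h2 : ∑ y, h0 (y u) * (B y * ∏ e ∈ E0, k (y e.1 - y e.2)) = 0 := by
    refine mul_left_cancel₀ hp.ne' ?_
    rw [PairB.avgZ u (fun y => h0 (y u) * (B y * ∏ e ∈ E0, k (y e.1 - y e.2))), mul_zero]
    refine sum_eq_zero fun y _ => ?_
    have : ∀ t, h0 (Function.update y u t u) * (B (Function.update y u t) *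
        ∏ e ∈ E0, k (Function.update y u t e.1 - Function.update y u t e.2)) =
        h0 t * (B y * ∏ e ∈ E0, k (y e.1 - y e.2)) := fun t => by
      rw [Function.update_self]
      exact congrArg _ (i0 y t)
    rw [sum_congr rfl fun t _ => this t, ← sum_mul, hh, zero_mul]
  have h3 : ∑ y, B y ^ 2 = p * ∑ y, h0 (y u) * (B y * ∏ e ∈ E0, k (y e.1 - y e.2)) *
      (∏ e ∈ E1, k (y e.1 - y e.2) - 1) := by
    simp only [mul_sub, mul_one, sum_sub_distrib, h2, sub_zero]
    rw [PairB.avgZ u (fun y => h0 (y u) * (B y * ∏ e ∈ E0, k (y e.1 - y e.2)) *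
      ∏ e ∈ E1, k (y e.1 - y e.2))]
    refine sum_congr rfl fun y _ => ?_
    rw [sq]
    nth_rewrite 2 [hB y]
    rw [mul_sum]
    refine sum_congr rfl fun t _ => ?_
    rw [Function.update_self, iB y t, ← prod_filter_mul_prod_filter_not E
      (fun e => e.1 ≠ u ∧ e.2 ≠ u)]
    ring
  have h4 := PairB.sqrt_mul_le B _ _ (pow_nonneg hkm0 _) (PairB.prod_le k km hk0 E0)
  have h5 : E0.card + E1.card = E.card := card_filter_add_card_filter_not _
  have h6 : (E1.card : ℝ) ≤ E.card := Nat.cast_le.2 (card_filter_le _ _)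
  have hS : 0 ≤ ∑ y, B y ^ 2 := sum_nonneg fun _ _ => sq_nonneg _
  have hA : 0 ≤ ∑ y : W → ZMod p, h0 (y u) ^ 2 := sum_nonneg fun _ _ => sq_nonneg _
  have h7 : √(∑ y, B y ^ 2) * √(∑ y, B y ^ 2) ≤
      (p * (E.card * ρ * km ^ E.card) * √(∑ y : W → ZMod p, h0 (y u) ^ 2)) * √(∑ y, B y ^ 2) := by
    rw [Real.mul_self_sqrt hS]
    calc ∑ y, B y ^ 2 ≤ p * (E1.card * ρ * km ^ E1.card *
          (√(∑ y : W → ZMod p, h0 (y u) ^ 2) * (km ^ E0.card * √(∑ y, B y ^ 2)))) := by
          nth_rewrite 1 [h3]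
          refine mul_le_mul_of_nonneg_left ((le_abs_self _).trans (h1.trans ?_)) hp.le
          gcongr
      _ = p * (E1.card * ρ * km ^ E.card) * √(∑ y : W → ZMod p, h0 (y u) ^ 2) *
          √(∑ y, B y ^ 2) := by rw [← h5, pow_add]; ring
      _ ≤ _ := by gcongr
  have h8 : √(∑ y, B y ^ 2) ≤
      p * (E.card * ρ * km ^ E.card) * √(∑ y : W → ZMod p, h0 (y u) ^ 2) := by
    rcases (Real.sqrt_nonneg (∑ y, B y ^ 2)).eq_or_lt with h | h
    · rw [← h]; positivity
    · exact le_of_mul_le_mul_right h7 h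
  have h9 := pow_le_pow_left₀ (Real.sqrt_nonneg _) h8 2
  rw [Real.sq_sqrt hS, mul_pow, Real.sq_sqrt hA] at h9
  rw [← sum_coord u (fun t => h0 t ^ 2), mul_left_comm]
  exact mul_le_mul_of_nonneg_left h9 hp.le

theorem mix_sum {j p : ℕ} [NeZero p] (a : Phi j → ℝ) (k : ZMod p → ℝ)
    (F : (Site j → ZMod p) → ℝ) : ∑ x, mix a k x * F x =
      ∑ φ, a φ * ((∑ y, wgt φ k y * F (y ∘ app φ)) / (p : ℝ) ^ (6 ^ j)) := by
  simp only [mix, sum_mul, mul_assoc]
  rw [sum_comm]
  simp only [← mul_sum, sum_strat]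

theorem mix_nonneg {j p : ℕ} [NeZero p] (a : Phi j → ℝ) (k : ZMod p → ℝ) (km : ℝ) (hkm : 1 ≤ km)
    (hk0 : ∀ d, 0 ≤ k d ∧ k d ≤ km) (ha0 : ∀ φ, 0 ≤ a φ) (x : Site j → ZMod p) :
    0 ≤ mix a k x := by
  refine sum_nonneg fun φ _ => mul_nonneg (ha0 φ) (div_nonneg (sum_nonneg fun y _ => ?_)
    (by positivity))
  split_ifs
  · exact (wgt_bound φ k km hkm hk0 y).1
  · exact le_rfl

theorem mix_single {j p : ℕ} [Fact p.Prime] (a : Phi j → ℝ) (k : ZMod p → ℝ) (w : Site j)
    (b : Site j → ZMod p) : kap (mix a k) {w} b = 0 := by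
  have hp : (0 : ℝ) < p := Nat.cast_pos.2 (Nat.pos_of_ne_zero (NeZero.ne p))
  have h1 : ∀ (c : ZMod p) (x : Site j → ZMod p), mix a k (fun w => c + x w) = mix a k x :=
    fun c x => sum_congr rfl fun φ _ => by
      have := strat_affine φ k c 1 one_ne_zero x
      simp only [one_mul] at this
      rw [← this]
  have h2 : ∀ c : ZMod p, kap (mix a k) {w} b = ∑ x, mix a k x * dl (b w) (c + x w) := fun c => by
    let σ : (Site j → ZMod p) → (Site j → ZMod p) := fun y w => c + y w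
    have hσ : Function.Bijective σ := Finite.injective_iff_bijective.1 fun y y' h =>
      funext fun w => add_left_cancel (congrFun h w)
    simp only [kap, prod_singleton]
    rw [← hσ.sum_comp (fun x => mix a k x * dl (b w) (x w))]
    exact sum_congr rfl fun x _ => by simp only [σ, h1]
  have h3 : (p : ℝ) * kap (mix a k) {w} b = ∑ c : ZMod p, kap (mix a k) {w} b := by simp
  refine mul_left_cancel₀ hp.ne' ?_
  rw [h3, sum_congr rfl fun c _ => h2 c, sum_comm, mul_zero]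
  refine sum_eq_zero fun x _ => ?_
  have h4 : ∑ c, dl (b w) (c + x w) = ∑ t, dl (b w) t :=
    Equiv.sum_comp (Equiv.addRight (x w)) (fun t => dl (b w) t)
  have h5 : ∑ t, dl (b w) t = 0 := by simpa using sum_dl_right (b w) (fun _ => 1)
  rw [← mul_sum, h4, h5, mul_zero]

end LocTame

/-- Every mixture of strata with small coefficients off the identity stratum is tame. -/
theorem tame_mix (j km : ℕ) (hkm : 1 ≤ km) {p : ℕ} [Fact p.Prime] (ρ c : ℝ) (hρ : 0 < ρ)
    (hc : 0 ≤ c) (k : ZMod p → ℝ) (hk0 : ∀ d, 0 ≤ k d ∧ k d ≤ km) (hk : OpB k ρ)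
    (a : Phi j → ℝ) (ha0 : ∀ φ, 0 ≤ a φ) (ha1 : a (fun _ => id) ≤ 4)
    (ha2 : ∀ φ, φ ≠ (fun _ => id) → a φ ≤ c * ρ) (hsum : ∑ x, mix a k x ≤ 1) :
    Tame (Phi j × (Site j → ZMod p)) (mix a k)
      ((4 * cE j * (km : ℝ) ^ (2 * cE j) + cM j * c * (km : ℝ) ^ cE j) * ρ) := by
  have hp : (0 : ℝ) < p := Nat.cast_pos.2 (Nat.pos_of_ne_zero (NeZero.ne p))
  have hkm1 : (1 : ℝ) ≤ km := Nat.one_le_cast.2 hkm
  have hN : (0 : ℝ) < (p : ℝ) ^ (6 ^ j) := pow_pos hp _
  have hcard : Fintype.card (Site j) = 6 ^ j := by simp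
  refine ⟨?_, LocTame.mix_single a k, fun J u v hu hv huv => ?_⟩
  · rwa [abs_of_nonneg (sum_nonneg fun x _ => LocTame.mix_nonneg a k km hkm1 hk0 ha0 x)]
  obtain ⟨s, hs⟩ : ∃ s : ℝ, s = cE j * ρ * (km : ℝ) ^ (2 * cE j) := ⟨_, rfl⟩
  have hs0 : 0 < s := by
    have : 0 < cE j := by unfold cE; positivity
    rw [hs]; positivity
  obtain ⟨I, hI⟩ : ∃ I : Phi j, I = fun _ => id := ⟨_, rfl⟩
  rw [← hI] at ha1 ha2
  have happ : ∀ w, app I w = w := fun w => by rw [hI]; rfl
  let ν : Phi j × (Site j → ZMod p) → ℝ := fun θ =>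
    if θ.1 = I then a I * s / (p : ℝ) ^ (6 ^ j) else a θ.1 * wgt θ.1 k θ.2 / (p : ℝ) ^ (6 ^ j)
  let ψ : Phi j × (Site j → ZMod p) → Site j → ZMod p → ℝ := fun θ w t =>
    if θ.1 = I ∧ w = u then (wgt I k (Function.update θ.2 u t) -
      (∑ r, wgt I k (Function.update θ.2 u r)) / p) / s else dl t (θ.2 (app θ.1 w))
  refine ⟨ν, ψ, fun θ => ?_, fun b => ?_, fun w _ h => ?_, fun θ w hw _ => ?_⟩
  · simp only [ν]
    split_ifs
    · exact div_nonneg (mul_nonneg (ha0 _) hs0.le) hN.le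
    · exact div_nonneg (mul_nonneg (ha0 _) (wgt_bound _ k km hkm1 hk0 _).1) hN.le
  · rw [kap, LocTame.mix_sum, Fintype.sum_prod_type]
    refine sum_congr rfl fun φ _ => ?_
    by_cases hφ : φ = I
    · subst hφ
      simp only [ν, ψ, if_true, true_and, Function.comp_apply, happ, ← mul_prod_erase J _ hu]
      have e1 : ∀ y : Site j → ZMod p, ∏ w ∈ J.erase u, (if w = u then
          (wgt φ k (Function.update y u (b w)) - (∑ r, wgt φ k (Function.update y u r)) / p) / s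
          else dl (b w) (y w)) = ∏ w ∈ J.erase u, dl (b w) (y w) := fun y =>
        prod_congr rfl fun w hw => if_neg (ne_of_mem_erase hw)
      have e2 : (p : ℝ) * ∑ y : Site j → ZMod p, wgt φ k y * (dl (b u) (y u) *
          ∏ w ∈ J.erase u, dl (b w) (y w)) = ∑ y : Site j → ZMod p,
          (p * wgt φ k (Function.update y u (b u)) - ∑ r, wgt φ k (Function.update y u r)) *
          ∏ w ∈ J.erase u, dl (b w) (y w) := by
        rw [PairB.avgZ u (fun y => wgt φ k y * (dl (b u) (y u) * ∏ w ∈ J.erase u, dl (b w) (y w)))]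
        refine sum_congr rfl fun y _ => ?_
        rw [← LocTame.sum_dl_right (b u) (fun r => wgt φ k (Function.update y u r)), sum_mul]
        refine sum_congr rfl fun t _ => ?_
        rw [Function.update_self, prod_congr rfl fun w hw => by
          rw [Function.update_of_ne (ne_of_mem_erase hw)]]
        ring
      rw [(eq_div_iff hp.ne').2 ((mul_comm _ _).trans e2), sum_div, sum_div, mul_sum]
      refine sum_congr rfl fun y _ => ?_
      rw [e1]
      field_simp
    · simp only [ν, ψ, hφ, if_false, false_and, Function.comp_apply]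
      rw [sum_div, mul_sum]
      exact sum_congr rfl fun y _ => by ring
  · have hV := LocTame.var_nonneg h
    obtain ⟨V, hVe⟩ : ∃ V : ℝ, V = p * ∑ t, h t ^ 2 - (∑ t, h t) ^ 2 := ⟨_, rfl⟩
    rw [← hVe] at hV ⊢
    have hvar : ∀ w' : Site j, ∑ y : Site j → ZMod p, (∑ t, dl t (y w') * h t) ^ 2 =
        (p : ℝ) ^ (6 ^ j) * V := fun w' => by
      simp only [LocTame.sum_dl_left]
      rw [LocTame.var_sum, hcard, hVe]
    have f1 : ∀ φ, φ ≠ I → ∑ y, ν (φ, y) * (∑ t, ψ (φ, y) w t * h t) ^ 2 ≤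
        c * ρ * (km : ℝ) ^ cE j * V := fun φ hφ => by
      simp only [ν, ψ, hφ, if_false, false_and]
      calc _ ≤ ∑ y : Site j → ZMod p, (c * ρ * (km : ℝ) ^ cE j / (p : ℝ) ^ (6 ^ j)) *
            (∑ t, dl t (y (app φ w)) * h t) ^ 2 := by
            refine sum_le_sum fun y _ => mul_le_mul_of_nonneg_right
              (div_le_div_of_nonneg_right ?_ hN.le) (sq_nonneg _)
            have hw := wgt_bound φ k km hkm1 hk0 y
            exact mul_le_mul (ha2 φ hφ) hw.2 hw.1 (by positivity)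
        _ = _ := by
            rw [← mul_sum, hvar]
            field_simp
    have f2 : ∑ y, ν (I, y) * (∑ t, ψ (I, y) w t * h t) ^ 2 ≤ 4 * s * V := by
      simp only [ν, ψ, if_true, true_and, happ, ← mul_sum]
      by_cases hw : w = u
      · simp only [hw, if_true]
        have hh : ∑ t, (h t - (∑ r, h r) / p) = 0 := by
          simp only [sum_sub_distrib, sum_const, card_univ, ZMod.card, nsmul_eq_mul]
          field_simp
          ring
        have hB := LocTame.B_bound k ρ km hρ.le hkm1 hk0 hk (edges I) (edges_asymm I) u _ hh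
        have hV2 : p * ∑ t, (h t - (∑ r, h r) / p) ^ 2 = V := by
          have : ∀ t, (h t - (∑ r, h r) / p) ^ 2 =
              h t ^ 2 - (2 * (∑ r, h r) / p) * h t + ((∑ r, h r) / p) ^ 2 := fun t => by ring
          simp only [this, sum_add_distrib, sum_sub_distrib, ← mul_sum, sum_const, card_univ,
            ZMod.card, nsmul_eq_mul, hVe]
          field_simp
          ring
        have e3 : ∀ y : Site j → ZMod p, ∑ t, (wgt I k (Function.update y u t) -
            (∑ r, wgt I k (Function.update y u r)) / p) / s * h t =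
            (∑ t, wgt I k (Function.update y u t) * (h t - (∑ r, h r) / p)) / s := fun y => by
          simp only [div_mul_eq_mul_div, ← sum_div, sub_mul, mul_sub, sum_sub_distrib, ← sum_mul,
            ← mul_sum]
          ring
        have hs1 : ((edges I).card : ℝ) * ρ * (km : ℝ) ^ (edges I).card ≤ s := by
          rw [hs]
          have h1 := card_edges_le I
          have h2 : ((edges I).card : ℝ) ≤ cE j := Nat.cast_le.2 h1
          have h3 : (km : ℝ) ^ (edges I).card ≤ (km : ℝ) ^ (2 * cE j) :=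
            pow_le_pow_right₀ hkm1 (by omega)
          gcongr
        have hB2 : ∑ y : Site j → ZMod p, (∑ t, wgt I k (Function.update y u t) *
            (h t - (∑ r, h r) / p)) ^ 2 ≤ s ^ 2 * ((p : ℝ) ^ (6 ^ j) * V) := by
          refine le_of_mul_le_mul_left (hB.trans ?_) hp
          rw [hcard, ← hV2]
          calc _ ≤ (p * s) ^ 2 * ((p : ℝ) ^ (6 ^ j) * ∑ t, (h t - (∑ r, h r) / p) ^ 2) := by
                gcongr
            _ = _ := by ring
        simp only [e3, div_pow, ← sum_div]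
        calc _ ≤ 4 * s / (p : ℝ) ^ (6 ^ j) * (s ^ 2 * ((p : ℝ) ^ (6 ^ j) * V) / s ^ 2) := by
              gcongr
          _ = _ := by field_simp
      · simp only [hw, if_false, hvar]
        calc _ ≤ 4 * s / (p : ℝ) ^ (6 ^ j) * ((p : ℝ) ^ (6 ^ j) * V) := by gcongr
          _ = _ := by field_simp
    have f3 : ∑ φ ∈ univ.erase I, ∑ y, ν (φ, y) * (∑ t, ψ (φ, y) w t * h t) ^ 2 ≤
        cM j * (c * ρ * (km : ℝ) ^ cE j * V) := by
      refine (sum_le_card_nsmul _ _ _ fun φ hφ => f1 φ (ne_of_mem_erase hφ)).trans ?_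
      rw [nsmul_eq_mul]
      refine mul_le_mul_of_nonneg_right ?_ (by positivity)
      refine (Nat.cast_le.2 (card_le_univ _)).trans (le_of_eq ?_)
      simp only [cM, Fintype.card_pi, Fintype.card_fin, prod_const, card_univ]
      rw [Nat.cast_pow, Nat.cast_pow, Nat.cast_ofNat]
    rw [Fintype.sum_prod_type, ← add_sum_erase _ _ (mem_univ I)]
    refine (add_le_add f2 f3).trans (le_of_eq ?_)
    rw [hs]
    ring
  · refine ⟨θ.2 (app θ.1 w), fun t => ?_⟩
    simp only [ψ, hw, and_false, if_false]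
    have : -1 ≤ dl t (θ.2 (app θ.1 w)) := by
      unfold dl
      split_ifs <;> linarith
    exact abs_le.2 ⟨by linarith, by linarith⟩

end Vale.Agent.P042
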