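import Vale.Agent.P042.LocRP
import Vale.Agent.P042.LocTame

open Finset Polynomial

namespace Vale.Agent.P042

theorem Tame.mono {W : Type} [Fintype W] [DecidableEq W] {Θ : Type} [Fintype Θ] {p : ℕ}
    [NeZero p] {T : (W → ZMod p) → ℝ} {η η' : ℝ} (h : Tame Θ T η) (hη : η ≤ η') :
    Tame Θ T η' := by
  refine ⟨h.mass, h.single, fun J u v hu hv huv => ?_⟩
  obtain ⟨ν, ψ, h1, h2, h3, h4⟩ := h.atoms J u v hu hv huv
  refine ⟨ν, ψ, h1, h2, fun w hw f => (h3 w hw f).trans ?_, h4⟩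
  have h5 := sq_sum_le_card_mul_sum_sq (s := (univ : Finset (ZMod p))) (f := f)
  rw [card_univ, ZMod.card] at h5
  exact mul_le_mul_of_nonneg_right hη (sub_nonneg.2 h5)

namespace Loc

theorem eqb_le (φ : Fin 6 → Fin 6) : eqb φ ≤ 6 := by
  unfold eqb
  simpa using card_le_univ (univ.filter fun x : Fin 6 => φ (x + 1) = φ x)

theorem mu_nonneg {lam K : ℝ} (hl : 0 ≤ lam) (hK : 1 ≤ K) (φ : Fin 6 → Fin 6) :
    0 ≤ mu lam K φ := by
  unfold mu
  split_ifs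
  · exact zero_le_one
  · positivity
  · exact le_rfl

theorem mu_le_of_ne {lam K : ℝ} (hl : 0 ≤ lam) (hK : 1 ≤ K) {φ : Fin 6 → Fin 6} (h : φ ≠ id) :
    mu lam K φ ≤ lam * K ^ 6 := by
  unfold mu
  rw [if_neg h]
  split_ifs
  · exact mul_le_mul_of_nonneg_left (pow_le_pow_right₀ hK (eqb_le φ)) hl
  · positivity

theorem mu_le {lam K : ℝ} (hl : 0 ≤ lam) (hl1 : lam ≤ 1) (hK : 1 ≤ K) (φ : Fin 6 → Fin 6) :
    mu lam K φ ≤ K ^ 6 := by
  by_cases h : φ = id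
  · unfold mu
    rw [if_pos h]
    exact one_le_pow₀ hK
  · exact (mu_le_of_ne hl hK h).trans (mul_le_of_le_one_left (by positivity) hl1)

theorem prod_mu_le {j : ℕ} {lam K : ℝ} (hl : 0 ≤ lam) (hl1 : lam ≤ 1) (hK : 1 ≤ K) (φ : Phi j)
    (h : φ ≠ fun _ => id) : ∏ i, mu lam K (φ i) ≤ lam * (K ^ 6) ^ j := by
  obtain ⟨i0, hi0⟩ := Function.ne_iff.1 h
  have h1 : ∏ i, mu lam K (φ i) ≤ ∏ i : Fin j, (if i = i0 then lam else 1) * K ^ 6 := by
    refine prod_le_prod (fun i _ => mu_nonneg hl hK _) fun i _ => ?_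
    split_ifs with hi
    · rw [hi]
      exact mu_le_of_ne hl hK hi0
    · rw [one_mul]
      exact mu_le hl hl1 hK _
  rw [prod_mul_distrib, prod_ite_eq' univ i0 (fun _ => lam)] at h1
  simpa using h1

theorem prod_mu_le' {j : ℕ} {lam K : ℝ} (hl : 0 ≤ lam) (hK : 1 ≤ K) (φ : Phi j)
    (h : ∀ i, φ i ≠ id) : ∏ i, mu lam K (φ i) ≤ lam ^ j * (K ^ 6) ^ j := by
  have h1 : ∏ i, mu lam K (φ i) ≤ ∏ _i : Fin j, lam * K ^ 6 :=
    prod_le_prod (fun i _ => mu_nonneg hl hK _) fun i _ => mu_le_of_ne hl hK (h i)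
  rw [prod_const, card_univ, Fintype.card_fin, mul_pow] at h1
  exact h1

theorem strat_nonneg {j p : ℕ} [NeZero p] (φ : Phi j) (k : ZMod p → ℝ) (km : ℝ) (hkm : 1 ≤ km)
    (hk0 : ∀ d, 0 ≤ k d ∧ k d ≤ km) (x : Site j → ZMod p) : 0 ≤ strat φ k x := by
  unfold strat
  refine div_nonneg (sum_nonneg fun y _ => ?_) (by positivity)
  split_ifs
  · exact (wgt_bound φ k km hkm hk0 y).1
  · exact le_rfl

theorem card_conf (j p : ℕ) [NeZero p] :
    (Fintype.card (Site j → ZMod p) : ℝ) = (p : ℝ) ^ (6 ^ j) := by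
  simp [Fintype.card_pi, ZMod.card]

theorem tot_eq {j p : ℕ} [NeZero p] (φ : Phi j) (k : ZMod p → ℝ) :
    ∑ x, strat φ k x = (∑ y, wgt φ k y) / (p : ℝ) ^ (6 ^ j) := by
  simpa using sum_strat φ k fun _ => 1

theorem tot_le {j p : ℕ} [NeZero p] (φ : Phi j) (k : ZMod p → ℝ) (km : ℝ) (hkm : 1 ≤ km)
    (hk0 : ∀ d, 0 ≤ k d ∧ k d ≤ km) : ∑ x, strat φ k x ≤ km ^ cE j := by
  have hp : (0 : ℝ) < (p : ℝ) ^ (6 ^ j) := pow_pos (Nat.cast_pos.2 (NeZero.pos p)) _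
  rw [tot_eq, div_le_iff₀ hp, ← card_conf]
  have := sum_le_card_nsmul univ (fun y => wgt φ k y) (km ^ cE j)
    fun y _ => (wgt_bound φ k km hkm hk0 y).2
  rw [card_univ, nsmul_eq_mul, mul_comm] at this
  exact this

theorem le_tot {j p : ℕ} [NeZero p] (φ : Phi j) (k : ZMod p → ℝ) (ρ km : ℝ) (hρ : 0 ≤ ρ)
    (hkm : 1 ≤ km) (hk0 : ∀ d, 0 ≤ k d ∧ k d ≤ km) (hk : OpB k ρ) :
    1 - cE j * ρ * km ^ cE j ≤ ∑ x, strat φ k x := by
  have hp : (0 : ℝ) < (p : ℝ) ^ (6 ^ j) := pow_pos (Nat.cast_pos.2 (NeZero.pos p)) _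
  have h1 := prod_bound k ρ km hρ hkm hk0 hk (edges φ) (edges_asymm φ) (fun _ => 1) (fun _ => 1)
    fun e _ => Or.inl ⟨fun _ _ => rfl, fun _ _ => rfl⟩
  simp only [one_mul, one_pow, sum_const, card_univ, nsmul_eq_mul, mul_one, sum_sub_distrib,
    card_conf] at h1
  rw [Real.mul_self_sqrt hp.le] at h1
  have h2 : ((edges φ).card : ℝ) * ρ * km ^ (edges φ).card ≤ cE j * ρ * km ^ cE j :=
    mul_le_mul (mul_le_mul_of_nonneg_right (Nat.cast_le.2 (card_edges_le φ)) hρ)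
      (pow_le_pow_right₀ hkm (card_edges_le φ)) (by positivity) (by positivity)
  have h3 := (abs_le.1 (h1.trans (mul_le_mul_of_nonneg_right h2 hp.le))).1
  rw [tot_eq, le_div_iff₀ hp]
  unfold wgt
  linarith

theorem sum_mix {j p : ℕ} [NeZero p] (a : Phi j → ℝ) (k : ZMod p → ℝ) :
    ∑ x, mix a k x = ∑ φ, a φ * ∑ x, strat φ k x := by
  unfold mix
  rw [sum_comm]
  exact sum_congr rfl fun φ _ => (mul_sum _ _ _).symm

theorem mix_nonneg {j p : ℕ} [NeZero p] (a : Phi j → ℝ) (ha : ∀ φ, 0 ≤ a φ) (k : ZMod p → ℝ)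
    (km : ℝ) (hkm : 1 ≤ km) (hk0 : ∀ d, 0 ≤ k d ∧ k d ≤ km) (x : Site j → ZMod p) :
    0 ≤ mix a k x :=
  sum_nonneg fun φ _ => mul_nonneg (ha φ) (strat_nonneg φ k km hkm hk0 x)

theorem mix_affine {j p : ℕ} [Fact p.Prime] (a : Phi j → ℝ) (k : ZMod p → ℝ) (c l : ZMod p)
    (hl : l ≠ 0) (x : Site j → ZMod p) :
    mix a (fun d => k (l * d)) x = mix a k (fun w => c + l * x w) :=
  sum_congr rfl fun φ _ => by rw [strat_affine φ k c l hl]

theorem mix_shift {j p : ℕ} [Fact p.Prime] (a : Phi j → ℝ) (k : ZMod p → ℝ)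
    (x : Site j → ZMod p) (c : ZMod p) : mix a k (fun w => x w + c) = mix a k x := by
  have h := mix_affine a k c 1 one_ne_zero x
  simp only [one_mul] at h
  rw [h]
  simp only [add_comm]

theorem RP.div {j : ℕ} {X : Type} [Fintype X] {T : (Site j → X) → ℝ} (h : RP T) {z : ℝ}
    (hz : 0 ≤ z) : RP fun x => T x / z := by
  intro i c
  refine ⟨fun x => by simp only [(h i c).1 x], fun U => ?_⟩
  simp only [div_mul_eq_mul_div, ← sum_div]
  exact div_nonneg ((h i c).2 U) hz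

theorem supp_mix {j p : ℕ} [NeZero p] (lam K : ℝ) (φ : Phi j) (k : ZMod p → ℝ)
    (x : Site j → ZMod p) (h1 : ∃ i, φ i = id) (h2 : ∏ i, mu lam K (φ i) ≠ 0)
    (h3 : strat φ k x ≠ 0) : k (x (fun _ => 0) - x (fun _ => 2)) ≠ 0 := by
  unfold strat at h3
  obtain ⟨y, -, hy⟩ := exists_ne_zero_of_sum_ne_zero (div_ne_zero_iff.1 h3).1
  have hyx : y ∘ app φ = x := by
    by_contra hc
    exact hy (if_neg hc)
  rw [if_pos hyx] at hy
  have he : (app φ (fun _ => 0), app φ (fun _ => 2)) ∈ edges φ := by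
    refine mem_filter.2 ⟨mem_univ _, ⟨fun i => ?_, ?_⟩, ⟨_, rfl⟩, ⟨_, rfl⟩⟩
    · have h4 := prod_ne_zero_iff.1 h2 i (mem_univ i)
      change ¬ str (φ i 2) (φ i 0)
      by_cases h5 : φ i = id
      · rw [h5]
        decide
      · unfold mu at h4
        rw [if_neg h5] at h4
        have h6 : good (φ i) := by
          by_contra hc
          exact h4 (if_neg hc)
        exact h6.1 0 2 (by decide)
    · obtain ⟨i, hi⟩ := h1
      refine ⟨i, hi, ?_⟩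
      change str (φ i 0) (φ i 2)
      rw [hi]
      decide
  have h7 := prod_ne_zero_iff.1 hy _ he
  rw [← hyx]
  exact h7

theorem card_phi (j : ℕ) : (Fintype.card (Phi j) : ℝ) = cM j := by
  simp [Fintype.card_pi, cM]
  norm_num

end Loc

/-- All the properties of the local weight. -/
theorem local_ok (j km : ℕ) (hj : 1 ≤ j) (hkm : 1 ≤ km) : ∃ C : ℝ, 1 ≤ C ∧
    ∀ (p : ℕ) [Fact p.Prime] (ρ : ℝ), 0 < ρ → C * ρ ≤ 1 → ∀ k : ZMod p → ℝ,
    (∀ d, 0 ≤ k d ∧ k d ≤ km) → OpB k ρ →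
    ∃ (Tg Th : (Site j → ZMod p) → ℝ) (ζ β : ℝ),
      LocOK k (Tloc j km ρ k) Tg Th ζ β (C * ρ) := by
  have hkm' : (1 : ℝ) ≤ km := by exact_mod_cast hkm
  have hM : 1 ≤ cM j := one_le_pow₀ (by norm_num)
  have hE : (1 : ℝ) ≤ cE j := by
    have : 1 ≤ cE j := Nat.one_le_pow _ _ (by positivity)
    exact_mod_cast this
  have hA : (1 : ℝ) ≤ (km : ℝ) ^ cE j := one_le_pow₀ hkm'
  have hK : 1 ≤ cK j km := one_le_pow₀ (by nlinarith)
  have hL : 1 ≤ cL j km := by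
    have h1 : (1 : ℝ) ≤ (km : ℝ) ^ (3 * cE j) := one_le_pow₀ hkm'
    have h2 : (1 : ℝ) ≤ cE j * (km : ℝ) ^ (3 * cE j) := by nlinarith
    unfold cL
    nlinarith
  obtain ⟨c, hc⟩ : ∃ c, c = 2 * cL j km * (cK j km ^ 6) ^ j := ⟨_, rfl⟩
  have hc0 : 0 ≤ c := by rw [hc]; positivity
  obtain ⟨t, ht⟩ : ∃ t : ℝ, t = 4 * cE j * (km : ℝ) ^ (2 * cE j) + cM j * c * (km : ℝ) ^ cE j :=
    ⟨_, rfl⟩
  have ht1 : cM j * c * (km : ℝ) ^ cE j ≤ t := by
    rw [ht]
    exact le_add_of_nonneg_left (by positivity)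
  have ht0 : 0 ≤ t := le_trans (by positivity) ht1
  have hEA : 0 ≤ 2 * cE j * (km : ℝ) ^ cE j := by positivity
  refine ⟨cL j km + 2 * cE j * (km : ℝ) ^ cE j + t, by linarith, ?_⟩
  intro p _ ρ hρ hC k hk0 hk
  have hC1 : cL j km * ρ ≤ (cL j km + 2 * cE j * (km : ℝ) ^ cE j + t) * ρ :=
    mul_le_mul_of_nonneg_right (by linarith) hρ.le
  have hC2 : 2 * cE j * (km : ℝ) ^ cE j * ρ ≤ (cL j km + 2 * cE j * (km : ℝ) ^ cE j + t) * ρ :=
    mul_le_mul_of_nonneg_right (by linarith) hρ.le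
  have hC3 : t * ρ ≤ (cL j km + 2 * cE j * (km : ℝ) ^ cE j + t) * ρ :=
    mul_le_mul_of_nonneg_right (by linarith) hρ.le
  generalize (cL j km + 2 * cE j * (km : ℝ) ^ cE j + t) * ρ = η at hC hC1 hC2 hC3 ⊢
  have hl0 : 0 < cL j km * ρ := by positivity
  have hm0 : ∀ φ, 0 ≤ mass j km ρ φ := fun φ =>
    prod_nonneg fun i _ => Loc.mu_nonneg hl0.le hK _
  have hm1 : mass j km ρ (fun _ => id) = 1 := by simp [mass, mu]
  have hm2 : ∀ φ, φ ≠ (fun _ => id) → 2 * mass j km ρ φ ≤ c * ρ := by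
    intro φ hφ
    have := Loc.prod_mu_le hl0.le (hC1.trans hC) hK φ hφ
    unfold mass
    rw [hc]
    linarith
  have hm3 : ∀ φ : Phi j, (∀ i, φ i ≠ id) →
      2 * mass j km ρ φ ≤ c * ρ * (cL j km * ρ) ^ (j - 1) := by
    intro φ hφ
    have h1 := Loc.prod_mu_le' hl0.le hK φ hφ
    have h2 : (cL j km * ρ) ^ j = (cL j km * ρ) * (cL j km * ρ) ^ (j - 1) := by
      rw [← pow_succ']
      congr 1
      omega
    rw [h2] at h1
    unfold mass
    rw [hc]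
    linarith
  have htot0 : ∀ φ : Phi j, 0 ≤ ∑ x, strat φ k x := fun φ =>
    sum_nonneg fun x _ => Loc.strat_nonneg φ k km hkm' hk0 x
  have hid : ∃ i : Fin j, (fun _ => id : Phi j) i = id := ⟨⟨0, hj⟩, rfl⟩
  obtain ⟨zg, hzg⟩ : ∃ zg : ℝ,
      zg = ∑ φ : Phi j, (if ∃ i, φ i = id then mass j km ρ φ else 0) * ∑ x, strat φ k x :=
    ⟨_, rfl⟩
  obtain ⟨z, hz⟩ : ∃ z : ℝ, z = ∑ x, mix (mass j km ρ) k x := ⟨_, rfl⟩
  have hind0 : ∀ φ : Phi j, 0 ≤ (if ∃ i, φ i = id then mass j km ρ φ else 0) := by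
    intro φ
    split_ifs
    · exact hm0 φ
    · exact le_rfl
  have hind1 : ∀ φ : Phi j, (if ∃ i, φ i = id then mass j km ρ φ else 0) ≤ mass j km ρ φ := by
    intro φ
    split_ifs
    · exact le_rfl
    · exact hm0 φ
  have hzg1 : 1 / 2 ≤ zg := by
    have h1 := single_le_sum (f := fun φ : Phi j =>
      (if ∃ i, φ i = id then mass j km ρ φ else 0) * ∑ x, strat φ k x)
      (fun φ _ => mul_nonneg (hind0 φ) (htot0 φ)) (mem_univ (fun _ => id))
    rw [if_pos hid, hm1, one_mul, ← hzg] at h1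
    have h2 := Loc.le_tot (fun _ => id : Phi j) k ρ km hρ.le hkm' hk0 hk
    linarith
  have hzg2 : zg ≤ z := by
    rw [hzg, hz, Loc.sum_mix]
    exact sum_le_sum fun φ _ => mul_le_mul_of_nonneg_right (hind1 φ) (htot0 φ)
  have hzg0 : 0 < zg := by linarith
  have hz0 : 0 < z := by linarith
  have hβ0 : 0 < (cL j km * ρ) ^ (j - 1) := pow_pos hl0 _
  have hT : Tloc j km ρ k = mix (fun φ => mass j km ρ φ / z) k := by
    funext x
    unfold Tloc
    rw [← hz]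
    unfold mix
    rw [sum_div]
    exact sum_congr rfl fun φ _ => by ring
  have hsT : ∑ x, Tloc j km ρ k x = 1 := by
    unfold Tloc
    rw [← sum_div, ← hz, div_self hz0.ne']
  have hsG : ∑ x, mix (fun φ => (if ∃ i, φ i = id then mass j km ρ φ else 0) / zg) k x = 1 := by
    rw [Loc.sum_mix]
    simp only [div_mul_eq_mul_div]
    rw [← sum_div, ← hzg, div_self hzg0.ne']
  have hH0 : ∀ φ : Phi j, 0 ≤ (if ∃ i, φ i = id then 0 else mass j km ρ φ) /
      (z * (cL j km * ρ) ^ (j - 1)) := by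
    intro φ
    refine div_nonneg ?_ (by positivity)
    split_ifs
    · exact le_rfl
    · exact hm0 φ
  have hH1 : ∀ φ : Phi j, (if ∃ i, φ i = id then 0 else mass j km ρ φ) /
      (z * (cL j km * ρ) ^ (j - 1)) ≤ c * ρ := by
    intro φ
    rw [div_le_iff₀ (by positivity)]
    split_ifs with h
    · positivity
    · have h1 := hm3 φ fun i hi => h ⟨i, hi⟩
      have h2 : 0 ≤ c * ρ * (cL j km * ρ) ^ (j - 1) := by positivity
      nlinarith
  have htame : ∀ a : Phi j → ℝ, (∀ φ, 0 ≤ a φ) → a (fun _ => id) ≤ 4 →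
      (∀ φ, φ ≠ (fun _ => id) → a φ ≤ c * ρ) → ∑ x, mix a k x ≤ 1 →
      Tame (Phi j × (Site j → ZMod p)) (mix a k) η := by
    intro a h1 h2 h3 h4
    refine (tame_mix j km hkm ρ c hρ hc0 k hk0 hk a h1 h2 h3 h4).mono ?_
    rw [← ht]
    exact hC3
  refine ⟨mix (fun φ => (if ∃ i, φ i = id then mass j km ρ φ else 0) / zg) k,
    mix (fun φ => (if ∃ i, φ i = id then 0 else mass j km ρ φ) /
      (z * (cL j km * ρ) ^ (j - 1))) k, zg / z, (cL j km * ρ) ^ (j - 1),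
    ?_, hsT, ?_, ?_, ?_, ?_, by positivity, (div_le_one hz0).2 hzg2, hβ0.le,
    pow_le_pow_left₀ hl0.le hC1 _, Loc.mix_nonneg _ hH0 k km hkm' hk0,
    Loc.mix_nonneg _ (fun φ => div_nonneg (hind0 φ) hzg0.le) k km hkm' hk0, hsG,
    Loc.mix_shift _ k, ?_⟩
  · have h1 := Loc.RP.div (rp_mix j km hkm ρ hρ k hk0 hk) hz0.le
    rw [hz] at h1
    exact h1
  · rw [hT] at hsT ⊢
    refine htame _ (fun φ => div_nonneg (hm0 φ) hz0.le) ?_ (fun φ hφ => ?_) hsT.le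
    · rw [hm1, div_le_iff₀ hz0]
      linarith
    · have h1 := hm2 φ hφ
      have h2 : 0 ≤ c * ρ := by positivity
      rw [div_le_iff₀ hz0]
      nlinarith
  · refine htame _ (fun φ => div_nonneg (hind0 φ) hzg0.le) ?_ (fun φ hφ => ?_) hsG.le
    · rw [if_pos hid, hm1, div_le_iff₀ hzg0]
      linarith
    · have h1 := hm2 φ hφ
      have h2 : 0 ≤ c * ρ := by positivity
      have h3 := hind1 φ
      rw [div_le_iff₀ hzg0]
      nlinarith
  · refine htame _ hH0 ?_ (fun φ _ => hH1 φ) ?_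
    · rw [if_pos hid, zero_div]
      norm_num
    · rw [Loc.sum_mix]
      have h1 := sum_le_card_nsmul univ (fun φ : Phi j =>
        (if ∃ i, φ i = id then 0 else mass j km ρ φ) / (z * (cL j km * ρ) ^ (j - 1)) *
          ∑ x, strat φ k x) (c * ρ * (km : ℝ) ^ cE j) fun φ _ =>
        mul_le_mul (hH1 φ) (Loc.tot_le φ k km hkm' hk0) (htot0 φ) (by positivity)
      rw [card_univ, nsmul_eq_mul, Loc.card_phi] at h1
      have h2 := mul_le_mul_of_nonneg_right ht1 hρ.le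
      linarith
  · intro x
    rw [hT]
    unfold mix
    rw [mul_sum, mul_sum, ← sum_add_distrib]
    refine sum_congr rfl fun φ _ => ?_
    beta_reduce
    split_ifs
    · field_simp
      ring
    · field_simp
      ring
  · intro x hx
    obtain ⟨φ, -, hφ⟩ := exists_ne_zero_of_sum_ne_zero hx
    have h1 := (div_ne_zero_iff.1 (left_ne_zero_of_mul hφ)).1
    have h2 : ∃ i, φ i = id := by
      by_contra hn
      exact h1 (if_neg hn)
    rw [if_pos h2] at h1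
    exact Loc.supp_mix _ _ φ k x h2 h1 (right_ne_zero_of_mul hφ)

theorem tloc_affine (j km : ℕ) {p : ℕ} [Fact p.Prime] (ρ : ℝ) (k : ZMod p → ℝ) (c l : ZMod p)
    (hl : l ≠ 0) (x : Site j → ZMod p) :
    Tloc j km ρ (fun d => k (l * d)) x = Tloc j km ρ k (fun w => c + l * x w) := by
  unfold Tloc
  simp only [Loc.mix_affine _ k c l hl]
  have hb : Function.Bijective fun (y : Site j → ZMod p) (w : Site j) => c + l * y w :=
    Finite.injective_iff_bijective.1 fun y y' h => funext fun w =>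
      mul_left_cancel₀ hl (add_left_cancel (congrFun h w))
  rw [hb.sum_comp (mix (mass j km ρ) k)]

end Vale.Agent.P042
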