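import Vale.Agent.P042.Defs

open Finset Polynomial

namespace Vale.Agent.P042

namespace Poly

theorem ht_eq (g : ℤ[X]) (n : ℕ) (hn : g.natDegree < n) : ht g = ∑ i ∈ range n, |g.coeff i| := by
  unfold ht
  refine Finset.sum_subset (Finset.range_subset_range.2 hn) ?_
  intro i _ hi
  rw [Finset.mem_range, not_lt] at hi
  rw [coeff_eq_zero_of_natDegree_lt (by omega), abs_zero]

theorem sum_le_ht (g : ℤ[X]) (n : ℕ) : ∑ i ∈ range n, |g.coeff i| ≤ ht g := by
  rw [ht_eq g (max n (g.natDegree + 1)) (by omega)]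
  exact Finset.sum_le_sum_of_subset_of_nonneg (Finset.range_subset_range.2 (le_max_left _ _))
    fun _ _ _ => abs_nonneg _

theorem ht_add (f g : ℤ[X]) : ht (f + g) ≤ ht f + ht g := by
  unfold ht
  calc ∑ i ∈ range ((f + g).natDegree + 1), |(f + g).coeff i|
      ≤ ∑ i ∈ range ((f + g).natDegree + 1), (|f.coeff i| + |g.coeff i|) :=
        Finset.sum_le_sum fun i _ => by rw [coeff_add]; exact abs_add_le _ _
    _ ≤ ht f + ht g := by
        rw [Finset.sum_add_distrib]; exact add_le_add (sum_le_ht f _) (sum_le_ht g _)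

theorem ht_zero : ht 0 = 0 := by simp [ht]

theorem ht_C (c : ℤ) : ht (C c) = |c| := by simp [ht]

theorem ht_sum {ι : Type} (s : Finset ι) (f : ι → ℤ[X]) : ht (∑ i ∈ s, f i) ≤ ∑ i ∈ s, ht (f i) := by
  classical
  induction s using Finset.induction_on with
  | empty => simp [ht_zero]
  | insert a s ha ih =>
    rw [Finset.sum_insert ha, Finset.sum_insert ha]
    exact (ht_add _ _).trans (by linarith)

theorem ht_X_mul (g : ℤ[X]) : ht (X * g) ≤ ht g := by
  unfold ht
  rw [Finset.sum_range_succ']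
  simp only [coeff_X_mul, mul_coeff_zero, coeff_X_zero, zero_mul, abs_zero, add_zero]
  exact sum_le_ht g _

theorem dvd_comp_sub (g : ℤ[X]) (s m : ℤ) :
    C m ∣ g.comp (C s + C m * X) - C (g.eval s) := by
  induction g using Polynomial.induction_on' with
  | add p q hp hq =>
    have : (p + q).comp (C s + C m * X) - C ((p + q).eval s) =
        (p.comp (C s + C m * X) - C (p.eval s)) + (q.comp (C s + C m * X) - C (q.eval s)) := by
      rw [add_comp, eval_add, C_add]; ring
    rw [this]; exact dvd_add hp hq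
  | monomial n a =>
    have : (monomial n a).comp (C s + C m * X) - C ((monomial n a).eval s) =
        C a * ((C s + C m * X) ^ n - (C s) ^ n) := by
      rw [monomial_comp, eval_monomial, C_mul, C_pow]; ring
    rw [this]
    refine Dvd.dvd.mul_left ?_ _
    refine Dvd.dvd.trans ?_ (sub_dvd_pow_sub_pow (C s + C m * X) (C s) n)
    exact ⟨X, by ring⟩

/-- `(n+1)^i - n^i` -/
def Df (i n : ℕ) : ℤ := ((n : ℤ) + 1) ^ i - (n : ℤ) ^ i

theorem DD_succ (i n : ℕ) : Df (i + 1) n = ((n : ℤ) + 1) * Df i n + (n : ℤ) ^ i := by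
  unfold Df; ring

theorem DD_nonneg (i n : ℕ) : 0 ≤ Df i n := by
  unfold Df
  have : (n : ℤ) ^ i ≤ ((n : ℤ) + 1) ^ i := pow_le_pow_left₀ (by positivity) (by linarith) i
  linarith

theorem DD_mono (i n : ℕ) : Df i n ≤ Df i (n + 1) := by
  induction i with
  | zero => simp [Df]
  | succ i ih =>
    rw [DD_succ, DD_succ]
    have h1 : (n : ℤ) ^ i ≤ ((n + 1 : ℕ) : ℤ) ^ i :=
      pow_le_pow_left₀ (by positivity) (by push_cast; linarith) i
    have h2 : ((n : ℤ) + 1) * Df i n ≤ (((n + 1 : ℕ) : ℤ) + 1) * Df i (n + 1) :=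
      mul_le_mul (by push_cast; linarith) ih (DD_nonneg _ _) (by positivity)
    linarith

theorem DD_le (i n : ℕ) : Df i n ≤ i * ((n : ℤ) + 1) ^ (i - 1) := by
  induction i with
  | zero => simp [Df]
  | succ i ih =>
    rw [DD_succ]
    have h1 : (n : ℤ) ^ i ≤ ((n : ℤ) + 1) ^ i := pow_le_pow_left₀ (by positivity) (by linarith) i
    have h2 : ((n : ℤ) + 1) * Df i n ≤ i * ((n : ℤ) + 1) ^ i := by
      rcases i with _ | j
      · simp [Df]
      · have := mul_le_mul_of_nonneg_left ih (show (0 : ℤ) ≤ (n : ℤ) + 1 by positivity)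
        simp only [Nat.add_sub_cancel] at this
        calc ((n : ℤ) + 1) * Df (j + 1) n
            ≤ ((n : ℤ) + 1) * (((j + 1 : ℕ) : ℤ) * ((n : ℤ) + 1) ^ j) := this
          _ = ((j + 1 : ℕ) : ℤ) * ((n : ℤ) + 1) ^ (j + 1) := by ring
    simp only [Nat.add_sub_cancel]
    push_cast
    linarith

theorem DD_le' (i k n : ℕ) (hi : i ≤ k) (Z : ℤ) (hZ : (n : ℤ) + 1 ≤ Z) :
    Df i n ≤ k * Z ^ (k - 1) := by
  refine (DD_le i n).trans ?_
  have hZ1 : (1 : ℤ) ≤ Z := le_trans (by linarith [(Nat.cast_nonneg n : (0 : ℤ) ≤ n)]) hZ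
  have h1 : ((n : ℤ) + 1) ^ (i - 1) ≤ Z ^ (i - 1) := pow_le_pow_left₀ (by positivity) hZ _
  have h2 : Z ^ (i - 1) ≤ Z ^ (k - 1) := pow_le_pow_right₀ hZ1 (by omega)
  exact mul_le_mul (by exact_mod_cast hi) (h1.trans h2) (by positivity) (by positivity)

theorem dlt_eq (G : ℤ[X]) (n : ℕ) :
    dlt G n = ∑ i ∈ range (G.natDegree + 1), G.coeff i * Df i n := by
  unfold dlt Df
  rw [eval_eq_sum_range, eval_eq_sum_range, ← Finset.sum_sub_distrib]
  exact Finset.sum_congr rfl fun i _ => by ring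

end Poly

open _root_.Vale.Agent.P042.Poly

theorem ht_nonneg (g : ℤ[X]) : 0 ≤ ht g :=
  Finset.sum_nonneg fun _ _ => abs_nonneg _

theorem abs_coeff_le_ht (g : ℤ[X]) (i : ℕ) : |g.coeff i| ≤ ht g := by
  refine le_trans ?_ (sum_le_ht g (i + 1))
  exact Finset.single_le_sum (f := fun j => |g.coeff j|) (fun _ _ => abs_nonneg _)
    (Finset.mem_range.2 (Nat.lt_succ_self i))

theorem abs_eval_le (g : ℤ[X]) (k : ℕ) (hk : g.natDegree ≤ k) (x : ℤ) (Z : ℤ) (hZ : 1 ≤ Z)
    (hx : |x| ≤ Z) : |g.eval x| ≤ ht g * Z ^ k := by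
  rw [eval_eq_sum_range]
  refine (Finset.abs_sum_le_sum_abs _ _).trans ?_
  unfold ht
  rw [Finset.sum_mul]
  refine Finset.sum_le_sum fun i hi => ?_
  rw [Finset.mem_range] at hi
  rw [abs_mul, abs_pow]
  refine mul_le_mul_of_nonneg_left ?_ (abs_nonneg _)
  exact (pow_le_pow_left₀ (abs_nonneg _) hx i).trans (pow_le_pow_right₀ hZ (by omega))

theorem ht_add_C (g : ℤ[X]) (c : ℤ) : ht (g + C c) ≤ ht g + |c| := by
  rw [← ht_C c]; exact ht_add _ _

theorem ht_C_mul (c : ℤ) (g : ℤ[X]) : ht (C c * g) = |c| * ht g := by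
  rw [ht_eq (C c * g) (g.natDegree + 1) (Nat.lt_succ_of_le (natDegree_C_mul_le c g))]
  unfold ht
  rw [Finset.mul_sum]
  exact Finset.sum_congr rfl fun i _ => by rw [coeff_C_mul, abs_mul]

theorem Poly.ht_lin_pow (s m : ℤ) (i : ℕ) : ht ((C s + C m * X) ^ i) ≤ (|s| + |m|) ^ i := by
  induction i with
  | zero => rw [pow_zero, pow_zero, ← C_1, ht_C, abs_one]
  | succ i ih =>
    have e : (C s + C m * X) ^ (i + 1) =
        C s * (C s + C m * X) ^ i + C m * (X * (C s + C m * X) ^ i) := by ring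
    rw [e]
    refine (ht_add _ _).trans ?_
    rw [ht_C_mul, ht_C_mul, pow_succ]
    have h1 := mul_le_mul_of_nonneg_left ih (abs_nonneg s)
    have h2 := mul_le_mul_of_nonneg_left ((ht_X_mul _).trans ih) (abs_nonneg m)
    linarith

theorem ht_comp (g : ℤ[X]) (k : ℕ) (hk : g.natDegree ≤ k) (s m : ℤ) (hm : 1 ≤ |s| + |m|) :
    ht (g.comp (C s + C m * X)) ≤ ht g * (|s| + |m|) ^ k := by
  have e : g.comp (C s + C m * X) =
      ∑ i ∈ range (g.natDegree + 1), C (g.coeff i) * (C s + C m * X) ^ i := by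
    rw [comp, eval₂_eq_sum_range]
  rw [e]
  refine (ht_sum _ _).trans ?_
  conv_rhs => unfold ht
  rw [Finset.sum_mul]
  refine Finset.sum_le_sum fun i hi => ?_
  rw [Finset.mem_range] at hi
  rw [ht_C_mul]
  refine mul_le_mul_of_nonneg_left ?_ (abs_nonneg _)
  exact (ht_lin_pow s m i).trans (pow_le_pow_right₀ hm (by omega))

/-- first differences are bounded -/
theorem abs_dlt_le (G : ℤ[X]) (k : ℕ) (hk : G.natDegree ≤ k) (n Z : ℕ) (hn : n + 1 ≤ Z) :
    |dlt G n| ≤ k * ht G * (Z : ℤ) ^ (k - 1) := by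
  rw [dlt_eq]
  refine (Finset.abs_sum_le_sum_abs _ _).trans ?_
  have e : (k : ℤ) * ht G * (Z : ℤ) ^ (k - 1) = ht G * (k * (Z : ℤ) ^ (k - 1)) := by ring
  rw [e]
  unfold ht
  rw [Finset.sum_mul]
  refine Finset.sum_le_sum fun i hi => ?_
  rw [Finset.mem_range] at hi
  rw [abs_mul, abs_of_nonneg (DD_nonneg i n)]
  refine mul_le_mul_of_nonneg_left ?_ (abs_nonneg _)
  exact DD_le' i k n (by omega) _ (by exact_mod_cast hn)

/-- the total variation of the first differences is bounded -/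
theorem tv_dlt_le (G : ℤ[X]) (k : ℕ) (hk : G.natDegree ≤ k) (Z : ℕ) :
    ∑ n ∈ range Z, |dlt G (n + 1) - dlt G n| ≤ k * ht G * ((Z : ℤ) + 1) ^ (k - 1) := by
  have h1 : ∀ n, |dlt G (n + 1) - dlt G n| ≤
      ∑ i ∈ range (G.natDegree + 1), |G.coeff i| * (Df i (n + 1) - Df i n) := by
    intro n
    rw [dlt_eq, dlt_eq, ← Finset.sum_sub_distrib]
    refine (Finset.abs_sum_le_sum_abs _ _).trans (le_of_eq ?_)
    refine Finset.sum_congr rfl fun i _ => ?_
    rw [← mul_sub, abs_mul, abs_of_nonneg (sub_nonneg.2 (DD_mono i n))]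
  refine (Finset.sum_le_sum fun n _ => h1 n).trans ?_
  rw [Finset.sum_comm]
  have e : (k : ℤ) * ht G * ((Z : ℤ) + 1) ^ (k - 1) = ht G * (k * ((Z : ℤ) + 1) ^ (k - 1)) := by
    ring
  rw [e]
  unfold ht
  rw [Finset.sum_mul]
  refine Finset.sum_le_sum fun i hi => ?_
  rw [Finset.mem_range] at hi
  rw [← Finset.mul_sum, Finset.sum_range_sub (fun n => Df i n)]
  refine mul_le_mul_of_nonneg_left ?_ (abs_nonneg _)
  have := DD_le' i k Z (by omega) ((Z : ℤ) + 1) le_rfl
  have := DD_nonneg i 0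
  linarith

/-- lower bound for the values of a polynomial with positive leading coefficient -/
theorem eval_lower (G : ℤ[X]) (k : ℕ) (hk : G.natDegree = k) (hl : 0 < G.leadingCoeff)
    (n : ℕ) (hn : 2 * ht G ≤ n) : (n : ℤ) ^ k ≤ 2 * G.eval (n : ℤ) := by
  have hlk : 1 ≤ G.coeff k := by rw [← hk]; exact hl
  have hht : 1 ≤ ht G := le_trans (hlk.trans (le_abs_self _)) (abs_coeff_le_ht G k)
  have hn1 : (1 : ℤ) ≤ n := by linarith
  rw [eval_eq_sum_range, hk, Finset.sum_range_succ]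
  have hpos : (0 : ℤ) ≤ (n : ℤ) ^ k := by positivity
  have h1 : (n : ℤ) ^ k ≤ G.coeff k * (n : ℤ) ^ k := by nlinarith
  have h2 : 2 * |∑ i ∈ range k, G.coeff i * (n : ℤ) ^ i| ≤ (n : ℤ) ^ k := by
    rcases k with _ | j
    · simp
    · have h3 : |∑ i ∈ range (j + 1), G.coeff i * (n : ℤ) ^ i| ≤ ht G * (n : ℤ) ^ j := by
        refine (Finset.abs_sum_le_sum_abs _ _).trans ?_
        refine le_trans ?_ (mul_le_mul_of_nonneg_right (sum_le_ht G (j + 1)) (by positivity))
        rw [Finset.sum_mul]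
        refine Finset.sum_le_sum fun i hi => ?_
        rw [Finset.mem_range] at hi
        rw [abs_mul, abs_of_nonneg (show (0 : ℤ) ≤ (n : ℤ) ^ i by positivity)]
        exact mul_le_mul_of_nonneg_left (pow_le_pow_right₀ hn1 (by omega)) (abs_nonneg _)
      have h4 : 2 * ht G * (n : ℤ) ^ j ≤ n * (n : ℤ) ^ j :=
        mul_le_mul_of_nonneg_right hn (by positivity)
      rw [pow_succ]
      linarith
  have h5 := neg_abs_le (∑ i ∈ range k, G.coeff i * (n : ℤ) ^ i)
  linarith

theorem evm_cast (p : ℕ) (g : ℤ[X]) (n : ℤ) :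
    evm p g (n : ZMod p) = ((g.eval n : ℤ) : ZMod p) := by
  unfold evm
  have := eval_intCast_map (Int.castRingHom (ZMod p)) g n
  simpa using this

/-- a primitive intersective polynomial is nonconstant modulo every prime -/
theorem nc_of_prim (g : ℤ[X]) (hprim : g.IsPrimitive) (hint : Inters g) (p : ℕ) (hp : p.Prime) :
    NC g p := by
  by_contra hnc
  unfold NC at hnc
  push Not at hnc
  obtain ⟨t, ht⟩ := hint p hp.one_le
  have h0 : (p : ℤ) ∣ g.coeff 0 := by
    rw [eval_eq_sum_range, Finset.sum_range_succ'] at ht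
    have h1 : (p : ℤ) ∣ ∑ i ∈ range g.natDegree, g.coeff (i + 1) * t ^ (i + 1) :=
      Finset.dvd_sum fun i _ => (hnc (i + 1) (by omega)).mul_right _
    simpa using (dvd_add_right h1).1 ht
  have h2 : C (p : ℤ) ∣ g := by
    rw [C_dvd_iff_dvd_coeff]
    intro i
    rcases i with _ | i
    · exact h0
    · exact hnc (i + 1) (by omega)
  have h3 := hprim _ h2
  rw [Int.isUnit_iff_natAbs_eq] at h3
  simp only [Int.natAbs_natCast] at h3
  exact hp.one_lt.ne' h3

theorem Poly.content_split (h : ℤ[X]) (hl : 0 < h.leadingCoeff) :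
    ∃ c : ℕ, 1 ≤ c ∧ h.content = c ∧ h = C (c : ℤ) * h.primPart ∧
      0 < h.primPart.leadingCoeff := by
  have h0 : h ≠ 0 := by rintro rfl; simp at hl
  have hc0 : h.content ≠ 0 := fun e => h0 (content_eq_zero_iff.1 e)
  have hcn : 0 ≤ h.content := by
    rw [← normalize_content, ← Int.abs_eq_normalize]; exact abs_nonneg _
  have hc : ((h.content.natAbs : ℕ) : ℤ) = h.content := Int.natAbs_of_nonneg hcn
  refine ⟨h.content.natAbs, Int.natAbs_pos.2 hc0, hc.symm, ?_, ?_⟩
  · rw [hc]; exact h.eq_C_content_mul_primPart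
  · have e : h.leadingCoeff = h.content * h.primPart.leadingCoeff := by
      conv_lhs => rw [h.eq_C_content_mul_primPart]
      rw [leadingCoeff_mul, leadingCoeff_C]
    rw [e] at hl
    exact (mul_pos_iff_of_pos_left (lt_of_le_of_ne hcn hc0.symm)).1 hl

/-- removing the content -/
theorem prim_part (h : ℤ[X]) (hl : 0 < h.leadingCoeff) (hint : Inters h) :
    ∃ (c : ℕ) (g : ℤ[X]), 1 ≤ c ∧ h = C (c : ℤ) * g ∧ g.natDegree = h.natDegree ∧
      0 < g.leadingCoeff ∧ g.IsPrimitive ∧ Inters g := by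
  obtain ⟨c, hc1, _, hc, hl'⟩ := content_split h hl
  refine ⟨c, h.primPart, hc1, hc, natDegree_primPart h, hl', isPrimitive_primPart h, ?_⟩
  intro q hq
  obtain ⟨t, ht⟩ := hint (c * q) (Nat.mul_pos hc1 hq)
  refine ⟨t, ?_⟩
  rw [hc, eval_mul, eval_C] at ht
  push_cast at ht
  exact (mul_dvd_mul_iff_left (by exact_mod_cast (show c ≠ 0 by omega))).1 ht

theorem Poly.back (k : ℕ) (g : ℤ[X]) (s m : ℤ) (hm : m ≠ 0)
    (hk : (g.comp (C s + C m * X)).natDegree ≤ k) :
    C (m ^ k) * g = ∑ j ∈ range (k + 1),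
      C ((g.comp (C s + C m * X)).coeff j) * (C (m ^ (k - j)) * (X - C s) ^ j) := by
  set G := g.comp (C s + C m * X) with hG
  have hz : (C (m ^ k) * g - ∑ j ∈ range (k + 1),
      C (G.coeff j) * (C (m ^ (k - j)) * (X - C s) ^ j)).comp (C s + C m * X) = 0 := by
    rw [sub_comp, mul_comp, C_comp, ← hG, Polynomial.sum_comp, sub_eq_zero]
    conv_lhs => rw [G.as_sum_range' (k + 1) (Nat.lt_succ_of_le hk)]
    rw [Finset.mul_sum]
    refine Finset.sum_congr rfl fun j hj => ?_
    rw [Finset.mem_range] at hj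
    have e : m ^ k = m ^ (k - j) * m ^ j := by rw [← pow_add]; congr 1; omega
    simp only [mul_comp, C_comp, pow_comp, sub_comp, X_comp]
    rw [← C_mul_X_pow_eq_monomial, e, C_mul, C_pow (a := m) (n := j)]
    ring
  rcases comp_eq_zero_iff.1 hz with h | ⟨_, h⟩
  · exact sub_eq_zero.1 h
  · exfalso
    have := congrArg (fun P : ℤ[X] => P.coeff 1) h
    simp [coeff_X] at this
    exact hm this

/-- passing to a progression -/
theorem step (k : ℕ) (hk : 1 ≤ k) (g : ℤ[X]) (hdeg : g.natDegree = k) (hl : 0 < g.leadingCoeff)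
    (hprim : g.IsPrimitive) (hint : Inters g) (m : ℕ) (hm : 1 ≤ m) :
    ∃ (s lam : ℕ) (g' : ℤ[X]), s < m ∧ m ∣ lam ∧ lam ∣ m ^ k ∧
      C (lam : ℤ) * g' = g.comp (C (s : ℤ) + C (m : ℤ) * X) ∧ g'.natDegree = k ∧
      0 < g'.leadingCoeff ∧ g'.IsPrimitive ∧ Inters g' ∧ ht g' ≤ ht g * (2 * m) ^ k := by
  have hm0 : (0 : ℤ) < m := by exact_mod_cast hm
  choose t ht using fun n : ℕ => hint n.factorial (Nat.factorial_pos n)
  have hlt : ∀ n, (t n % m).toNat < m := by
    intro n
    have h1 := Int.emod_lt_of_pos (t n) hm0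
    have h2 := Int.emod_nonneg (t n) hm0.ne'
    omega
  obtain ⟨y, hy⟩ := Finite.exists_infinite_fiber (fun n : ℕ => (⟨(t n % m).toNat, hlt n⟩ : Fin m))
  have hfib : ∀ N : ℕ, ∃ n, N ≤ n ∧ (m : ℤ) ∣ t n - (y.val : ℤ) := by
    intro N
    obtain ⟨n, hn, hNn⟩ := (Set.infinite_coe_iff.1 hy).exists_gt N
    refine ⟨n, hNn.le, ?_⟩
    have h1 : (t n % m).toNat = y.val := congrArg Fin.val hn
    have h2 := Int.emod_nonneg (t n) hm0.ne'
    have h3 : (y.val : ℤ) = t n % m := by omega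
    rw [h3]
    exact Int.dvd_self_sub_of_emod_eq rfl
  set s : ℕ := y.val with hs
  set G := g.comp (C (s : ℤ) + C (m : ℤ) * X) with hG
  have hq1 : (C (s : ℤ) + C (m : ℤ) * X).natDegree = 1 := by
    rw [add_comm]; exact natDegree_linear hm0.ne'
  have hq2 : (C (s : ℤ) + C (m : ℤ) * X).leadingCoeff = (m : ℤ) := by
    rw [add_comm]; exact leadingCoeff_linear hm0.ne'
  have hGd : G.natDegree = k := by rw [hG, natDegree_comp, hq1, hdeg, mul_one]
  have hGl : 0 < G.leadingCoeff := by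
    rw [hG, leadingCoeff_comp (by rw [hq1]; exact one_ne_zero), hq2]
    positivity
  obtain ⟨lam, hlam1, hcont, hsplit, hl'⟩ := content_split G hGl
  have hlam0 : (lam : ℤ) ≠ 0 := by exact_mod_cast (show lam ≠ 0 by omega)
  refine ⟨s, lam, G.primPart, y.isLt, ?_, ?_, hsplit.symm, (natDegree_primPart G).trans hGd, hl',
    isPrimitive_primPart G, ?_, ?_⟩
  · have h1 : (m : ℤ) ∣ g.eval (s : ℤ) := by
      obtain ⟨n, hn, hd⟩ := hfib m
      have h2 : (m : ℤ) ∣ g.eval (t n) :=
        (Int.natCast_dvd_natCast.2 (Nat.dvd_factorial hm hn)).trans (ht n)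
      have h3 : (m : ℤ) ∣ g.eval (t n) - g.eval (s : ℤ) := hd.trans (sub_dvd_eval_sub _ _ g)
      have := dvd_sub h2 h3
      simpa using this
    have h4 : C (m : ℤ) ∣ G := by
      have := dvd_add (dvd_comp_sub g s m) (_root_.map_dvd C h1)
      rwa [sub_add_cancel] at this
    have h5 := dvd_content_iff_C_dvd.2 h4
    rw [hcont] at h5
    exact Int.natCast_dvd_natCast.1 h5
  · have h1 : C (lam : ℤ) ∣ C ((m : ℤ) ^ k) * g := by
      rw [back k g s m hm0.ne' hGd.le]
      refine Finset.dvd_sum fun j _ => Dvd.dvd.mul_right (_root_.map_dvd C ?_) _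
      rw [← hcont]
      exact content_dvd_coeff j
    have h2 := dvd_content_iff_C_dvd.2 h1
    rw [content_C_mul, hprim.content_eq_one, mul_one, dvd_normalize_iff] at h2
    exact_mod_cast h2
  · intro q hq
    obtain ⟨n, hn, u, hu⟩ := hfib (lam * q)
    refine ⟨u, ?_⟩
    have h1 : ((lam * q : ℕ) : ℤ) ∣ g.eval (t n) :=
      (Int.natCast_dvd_natCast.2 (Nat.dvd_factorial (Nat.mul_pos hlam1 hq) hn)).trans (ht n)
    have h2 : g.eval (t n) = lam * G.primPart.eval u := by
      have e : t n = s + m * u := by linarith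
      have h3 : G.eval u = g.eval (t n) := by
        rw [hG, eval_comp, e]; simp
      rw [← h3]
      conv_lhs => rw [hsplit]
      rw [eval_mul, eval_C]
    rw [h2] at h1
    push_cast at h1
    exact (mul_dvd_mul_iff_left hlam0).1 h1
  · have hs0 : (0 : ℤ) ≤ s := Nat.cast_nonneg _
    have hsm : (s : ℤ) ≤ m := by exact_mod_cast y.isLt.le
    have h1 := ht_comp g k hdeg.le s m (by rw [abs_of_nonneg hs0, abs_of_pos hm0]; linarith)
    rw [abs_of_nonneg hs0, abs_of_pos hm0, ← hG] at h1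
    have h2 : P042.ht G = lam * P042.ht G.primPart := by
      conv_lhs => rw [hsplit]
      rw [ht_C_mul, Nat.abs_cast]
    have h3 : ((s : ℤ) + m) ^ k ≤ (2 * m) ^ k := pow_le_pow_left₀ (by linarith) (by linarith) k
    have h4 := mul_le_mul_of_nonneg_left h3 (ht_nonneg g)
    have h5 : P042.ht G.primPart ≤ lam * P042.ht G.primPart :=
      le_mul_of_one_le_left (ht_nonneg _) (by exact_mod_cast hlam1)
    linarith

/-- the local kernel after an affine change of variables -/
theorem kern_affine (p : ℕ) [Fact p.Prime] (g g' : ℤ[X]) (lam s m : ℤ)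
    (h : C lam * g' = g.comp (C s + C m * X)) (hl : ¬ (p : ℤ) ∣ lam) (hm : ¬ (p : ℤ) ∣ m)
    (d : ZMod p) : kern p g' d = kern p g ((lam : ZMod p) * d) := by
  have hl' : (lam : ZMod p) ≠ 0 := fun e => hl ((ZMod.intCast_zmod_eq_zero_iff_dvd _ _).1 e)
  have hm' : (m : ZMod p) ≠ 0 := fun e => hm ((ZMod.intCast_zmod_eq_zero_iff_dvd _ _).1 e)
  have h1 : ∀ n : ZMod p, (lam : ZMod p) * evm p g' n = evm p g (s + m * n) := by
    intro n
    have := congrArg (fun P => evm p P n) h
    simpa [evm, map_comp, eval_comp] using this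
  have h2 : ∀ n : ZMod p, (lam : ZMod p) * evm p (derivative g') n =
      m * evm p (derivative g) (s + m * n) := by
    intro n
    have h3 := congrArg derivative h
    rw [derivative_C_mul, derivative_comp] at h3
    have := congrArg (fun P => evm p P n) h3
    simpa [evm, map_comp, eval_comp] using this
  unfold kern
  congr 1
  refine Finset.card_bij (fun n _ => (s : ZMod p) + m * n) ?_ ?_ ?_
  · intro n hn
    simp only [Finset.mem_filter, Finset.mem_univ, true_and] at hn ⊢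
    refine ⟨by rw [← h1, hn.1], fun e => hn.2 ?_⟩
    have := h2 n
    rw [e, mul_zero] at this
    exact (mul_eq_zero.1 this).resolve_left hl'
  · intro a _ b _ e
    exact mul_left_cancel₀ hm' (add_left_cancel e)
  · intro b hb
    simp only [Finset.mem_filter, Finset.mem_univ, true_and] at hb
    have e : (s : ZMod p) + m * ((b - s) / m) = b := by field_simp; ring
    refine ⟨(b - s) / m, ?_, e⟩
    simp only [Finset.mem_filter, Finset.mem_univ, true_and]
    constructor
    · apply mul_left_cancel₀ hl'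
      rw [h1, e, hb.1]
    · intro e2
      have := h2 ((b - s) / m)
      rw [e2, mul_zero, e] at this
      exact hb.2 ((mul_eq_zero.1 this.symm).resolve_left hm')

end Vale.Agent.P042
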