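import Vale.Agent.P042.Eqd
import Vale.Agent.P042.Poly

open Finset Polynomial

namespace Vale.Agent.P042

/-- If `G = e + u X + M H` with `u` prime to `l` and `l ∣ M`, then `G` is injective
modulo the powers of `l`. -/
theorem inj_of_lin (G H : ℤ[X]) (e u M : ℤ) (l : ℕ) (hl : l.Prime)
    (hG : G = C e + C u * X + C M * H) (hu : ¬ (l : ℤ) ∣ u) (hM : (l : ℤ) ∣ M) : Inj G l := by
  intro E a b h
  obtain ⟨t, ht⟩ := sub_dvd_eval_sub a b H
  have e1 : G.eval a - G.eval b = (a - b) * (u + M * t) := by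
    simp only [hG, eval_add, eval_mul, eval_C, eval_X]
    linear_combination M * ht
  have hp := Nat.prime_iff_prime_int.1 hl
  have hc : IsCoprime (l : ℤ) (u + M * t) := (hp.irreducible.coprime_iff_not_dvd).2 fun h' =>
    hu ((dvd_add_left (hM.mul_right t)).1 h')
  rw [e1] at h
  exact hc.pow_left.dvd_of_dvd_mul_right h

namespace LocFac

/-- the additive character modulo `m` -/
noncomputable def ch (m : ℕ) (t : ℤ) : ℂ := ee (t / m)

lemma ee_add (x y : ℝ) : ee (x + y) = ee x * ee y := by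
  simp only [ee, ← Complex.exp_add]; push_cast; ring_nf

lemma norm_ch (m : ℕ) (t : ℤ) : ‖ch m t‖ = 1 := by
  rw [ch, ee, show (2 * Real.pi * Complex.I * ((t / m : ℝ) : ℂ)) =
    ((2 * Real.pi * (t / m) : ℝ) : ℂ) * Complex.I by push_cast; ring, Complex.norm_exp_ofReal_mul_I]

lemma ch_add (m : ℕ) (s t : ℤ) : ch m (s + t) = ch m s * ch m t := by
  rw [ch, ch, ch, ← ee_add, Int.cast_add, add_div]

lemma ch_eq (m : ℕ) [NeZero m] (t : ℤ) : ch m t = ZMod.stdAddChar (t : ZMod m) := by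
  rw [ZMod.stdAddChar_coe, ch, ee]; push_cast; ring_nf

lemma ch_congr {m : ℕ} (hm : m ≠ 0) {s t : ℤ} (h : (m : ℤ) ∣ s - t) : ch m s = ch m t := by
  have : NeZero m := ⟨hm⟩
  rw [ch_eq, ch_eq, (ZMod.intCast_eq_intCast_iff_dvd_sub t s m).2 h]

lemma ch_one (t : ℤ) : ch 1 t = 1 := by
  rw [ch_congr one_ne_zero (t := 0) (by simp), ch, ee]; simp

lemma ch_mul {p : ℕ} (hp : p ≠ 0) (m : ℕ) (t : ℤ) : ch (m * p) (t * p) = ch m t := by
  rw [ch, ch]; push_cast; rw [mul_div_mul_right _ _ (by exact_mod_cast hp)]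

lemma ch_per {m : ℕ} (hm : m ≠ 0) (b : ℤ) (G : ℤ[X]) {r : ℕ} (h : m ∣ r) (n : ℕ) :
    ch m (b * G.eval ((n + r : ℕ) : ℤ)) = ch m (b * G.eval (n : ℤ)) := by
  refine ch_congr hm ?_
  rw [← mul_sub]
  refine ((Dvd.dvd.trans ?_ (sub_dvd_eval_sub _ _ G))).mul_left b
  simpa using Int.natCast_dvd_natCast.2 h

lemma frac (s : Finset ℕ) (r : ℕ → ℕ) (hr : ∀ l ∈ s, r l ≠ 0)
    (hc : ∀ l ∈ s, ∀ l' ∈ s, l ≠ l' → (r l).Coprime (r l')) (a : ℤ)
    (ha : IsCoprime a ((∏ l ∈ s, r l : ℕ) : ℤ)) :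
    ∃ b : ℕ → ℤ, (∀ l ∈ s, IsCoprime (b l) (r l)) ∧
      ∀ t, ch (∏ l ∈ s, r l) (a * t) = ∏ l ∈ s, ch (r l) (b l * t) := by
  induction s using Finset.induction_on generalizing a with
  | empty => exact ⟨0, by simp, by simp [ch_one]⟩
  | insert x s hx ih =>
    rw [prod_insert hx] at ha ⊢
    have h1 : (r x).Coprime (∏ l ∈ s, r l) := Nat.Coprime.prod_right fun l hl =>
      hc x (mem_insert_self _ _) l (mem_insert_of_mem hl) fun e => hx (e ▸ hl)
    obtain ⟨u, w, huw⟩ := Nat.isCoprime_iff_coprime.2 h1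
    rw [Nat.cast_mul] at ha
    obtain ⟨b, hb, H⟩ := ih (fun l hl => hr l (mem_insert_of_mem hl))
      (fun l hl l' hl' => hc l (mem_insert_of_mem hl) l' (mem_insert_of_mem hl')) (a * u)
      (ha.of_mul_right_right.mul_left ⟨r x, w, by rw [← huw]; ring⟩)
    refine ⟨Function.update b x (a * w), fun l hl => ?_, fun t => ?_⟩
    · rcases mem_insert.1 hl with rfl | hl
      · rw [Function.update_self]
        exact ha.of_mul_right_left.mul_left ⟨(∏ l ∈ s, r l : ℕ), u, by rw [← huw]; ring⟩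
      · rw [Function.update_of_ne (ne_of_mem_of_not_mem hl hx)]
        exact hb l hl
    · have e : ∏ l ∈ s, ch (r l) (Function.update b x (a * w) l * t) =
          ∏ l ∈ s, ch (r l) (b l * t) := prod_congr rfl fun l hl => by
        rw [Function.update_of_ne (ne_of_mem_of_not_mem hl hx)]
      rw [prod_insert hx, Function.update_self, e, ← H,
        ← ch_mul (prod_ne_zero_iff.2 fun l hl => hr l (mem_insert_of_mem hl)) (r x),
        ← ch_mul (hr x (mem_insert_self _ _)) (∏ l ∈ s, r l), mul_comm _ (r x), ← ch_add]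
      congr 1
      linear_combination (-(a * t)) * huw

lemma sum_ch_inj (G : ℤ[X]) {m : ℕ} (hm : m ≠ 0)
    (hG : ∀ a b : ℤ, (m : ℤ) ∣ G.eval a - G.eval b → (m : ℤ) ∣ a - b) {b : ℤ}
    (hb : ¬ (m : ℤ) ∣ b) : ∑ n ∈ range m, ch m (b * G.eval (n : ℤ)) = 0 := by
  have : NeZero m := ⟨hm⟩
  have hi : Function.Injective (evm m G) := by
    intro x y h
    obtain ⟨x, rfl⟩ := ZMod.intCast_surjective x
    obtain ⟨y, rfl⟩ := ZMod.intCast_surjective y
    rw [evm_cast, evm_cast, ZMod.intCast_eq_intCast_iff_dvd_sub] at h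
    exact (ZMod.intCast_eq_intCast_iff_dvd_sub _ _ _).2 (hG _ _ h)
  have e : ∀ n : ℕ, ch m (b * G.eval (n : ℤ)) =
      ZMod.stdAddChar (evm m G (n : ZMod m) * (b : ZMod m)) := fun n => by
    rw [ch_eq, ← Int.cast_natCast (R := ZMod m), evm_cast, Int.cast_mul, mul_comm]
  simp only [e]
  rw [sum_range_zmod m fun x => ZMod.stdAddChar (evm m G x * (b : ZMod m)),
    (Finite.injective_iff_bijective.1 hi).sum_comp fun x => ZMod.stdAddChar (x * (b : ZMod m)),
    AddChar.sum_mulShift _ (ZMod.isPrimitive_stdAddChar m),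
    if_neg fun h => hb ((ZMod.intCast_zmod_eq_zero_iff_dvd b m).1 h), Nat.cast_zero]

lemma fac_ne {q l : ℕ} (h : l ∈ q.primeFactors) : q.factorization l ≠ 0 :=
  Finsupp.mem_support_iff.1 h

lemma inj_X (l : ℕ) : Inj X l := fun _ _ _ h => by simpa using h

lemma sum_ch_pow {G : ℤ[X]} {l : ℕ} (hl : l.Prime) (hG : Inj G l) {E : ℕ} (hE : E ≠ 0) {b : ℤ}
    (hb : ¬ (l : ℤ) ∣ b) : ∑ n ∈ range (l ^ E), ch (l ^ E) (b * G.eval (n : ℤ)) = 0 :=
  sum_ch_inj G (pow_ne_zero _ hl.ne_zero) (fun x y h => by exact_mod_cast hG E x y (by exact_mod_cast h))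
    fun h => hb ((dvd_pow_self _ hE).trans (by exact_mod_cast h))

lemma sum_blocks (f : ℕ → ℂ) (p m : ℕ) :
    ∑ n ∈ range (m * p), f n = ∑ r ∈ range p, ∑ z ∈ range m, f (z * p + r) := by
  induction m with
  | zero => simp
  | succ m ih => simp only [add_one_mul, sum_range_add, ih, sum_range_succ, sum_add_distrib]

lemma high (p : ℕ) [hp : Fact p.Prime] (G : ℤ[X]) (f : ZMod p → ℂ) {E : ℕ} (hE : E ≠ 0) {b : ℤ}
    (hb : ¬ (p : ℤ) ∣ b) :
    ‖∑ n ∈ range (p ^ (E + 1)), f n * ch (p ^ (E + 1)) (b * G.eval (n : ℤ))‖ ≤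
      p ^ E * ∑ x ∈ univ.filter fun x => evm p (derivative G) x = 0, ‖f x‖ := by
  rw [pow_succ, sum_blocks, sum_filter, ← sum_range_zmod p fun x =>
    if evm p (derivative G) x = 0 then ‖f x‖ else 0, mul_sum]
  refine norm_sum_le_of_le _ fun r _ => ?_
  have e : ∀ z : ℕ, ((z * p + r : ℕ) : ZMod p) = r := fun z => by simp
  simp only [e, ← mul_sum]
  split_ifs with h
  · rw [norm_mul, mul_comm]
    gcongr
    refine (norm_sum_le _ _).trans ?_
    simp [norm_ch]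
  · let K := divX (divX (taylor (r : ℤ) G))
    let G₁ : ℤ[X] := C 0 + C ((derivative G).eval (r : ℤ)) * X +
      C (p : ℤ) * (X ^ 2 * K.comp (X * C (p : ℤ)))
    have e1 : ∀ z : ℕ, G.eval ((z * p + r : ℕ) : ℤ) = G.eval (r : ℤ) + G₁.eval (z : ℤ) * p := by
      intro z
      have h1 := X_mul_divX_add (taylor (r : ℤ) G)
      rw [← X_mul_divX_add (divX (taylor (r : ℤ) G)), coeff_divX, taylor_coeff_zero, zero_add,
        taylor_coeff_one] at h1
      push_cast
      rw [← taylor_eval, ← h1]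
      simp [G₁, K]
      ring
    have hI : Inj G₁ p := inj_of_lin G₁ _ _ _ _ p hp.out rfl (fun h' => h (by
      rw [← Int.cast_natCast (R := ZMod p), evm_cast]
      exact (ZMod.intCast_zmod_eq_zero_iff_dvd _ p).2 h')) dvd_rfl
    simp only [e1, mul_add, ch_add, ← mul_assoc, ch_mul hp.out.ne_zero, ← mul_sum,
      sum_ch_pow hp.out hI hE hb]
    simp

/-- the mean over one period -/
noncomputable def av (M : ℕ) (Φ : ℕ → ℂ) : ℂ := (∑ n ∈ range M, Φ n) / M

/-- local mean with weight `f` -/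
noncomputable def loc (p : ℕ) (f : ZMod p → ℝ) (G : ℤ[X]) (E : ℕ) (b : ℤ) : ℂ :=
  av (p ^ E) fun n => (f n : ℂ) * ch (p ^ E) (b * G.eval (n : ℤ))

lemma loc_one (p : ℕ) [Fact p.Prime] (f : ZMod p → ℝ) (G : ℤ[X]) (b : ℤ) :
    loc p f G 1 b = (∑ x, (f x : ℂ) * ZMod.stdAddChar ((b : ZMod p) * evm p G x)) / p := by
  rw [loc, av, pow_one, ← sum_range_zmod]
  congr 1
  refine sum_congr rfl fun n _ => ?_
  rw [ch_eq, ← Int.cast_natCast (R := ZMod p) n, evm_cast, Int.cast_mul]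

lemma loc_high (p : ℕ) [hp : Fact p.Prime] (f : ZMod p → ℝ) (G : ℤ[X]) {E : ℕ} (hE : E ≠ 0)
    {b : ℤ} (hb : ¬ (p : ℤ) ∣ b) : ‖loc p f G (E + 1) b‖ ≤
      (∑ x ∈ univ.filter fun x => evm p (derivative G) x = 0, |f x|) / p := by
  have h := high p G (fun x => (f x : ℂ)) hE hb
  have h0 : (0 : ℝ) < p := by exact_mod_cast hp.out.pos
  simp only [Complex.norm_real, Real.norm_eq_abs] at h
  rw [loc, av, norm_div, Complex.norm_natCast, div_le_div_iff₀ (by push_cast; positivity) h0]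
  refine (mul_le_mul_of_nonneg_right h h0.le).trans_eq ?_
  push_cast
  ring

lemma loc_est {p : ℕ} [hp : Fact p.Prime] {G : ℤ[X]} {κ : ℝ} {v : ZMod p → ℝ} (hv : Wt p G κ v)
    {E : ℕ} (hE : E ≠ 0) {b : ℤ} (hb : ¬ (p : ℤ) ∣ b) :
    ‖loc p (fun _ => 1) G E b‖ ≤ (p : ℝ) ^ (-κ) / 3 ∧ ‖loc p v G E b‖ ≤ (p : ℝ) ^ (-κ) / 3 ∧
      loc p (push p G v) X E b = loc p v G E b := by
  have h0 : (0 : ℝ) < p := by exact_mod_cast hp.out.pos
  have hb' : (b : ZMod p) ≠ 0 := fun h => hb ((ZMod.intCast_zmod_eq_zero_iff_dvd b p).1 h)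
  have key : ∀ x : ℝ, x ≤ p * (p : ℝ) ^ (-κ) / 3 → x / p ≤ (p : ℝ) ^ (-κ) / 3 := fun x hx => by
    rw [div_le_iff₀ h0]; linarith
  obtain ⟨E, rfl⟩ := Nat.exists_eq_succ_of_ne_zero hE
  rcases eq_or_ne E 0 with rfl | hE
  · simp only [Nat.succ_eq_add_one, zero_add, loc_one, norm_div, Complex.norm_natCast]
    refine ⟨key _ (by simpa using hv.comp _ hb'), key _ (hv.four _ hb'), ?_⟩
    congr 1
    rw [← sum_fiberwise univ (evm p G) fun x => (v x : ℂ) * _]
    refine sum_congr rfl fun d _ => ?_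
    rw [push, Complex.ofReal_sum, sum_mul]
    refine sum_congr rfl fun n hn => ?_
    rw [(mem_filter.1 hn).2]
    simp [evm]
  · have h1 : loc p v G (E + 1) b = 0 := norm_le_zero_iff.1 ((loc_high p v G hE hb).trans_eq (by
      rw [sum_eq_zero, zero_div]
      intro x hx
      by_contra h
      exact hv.reg x (fun h' => h (by rw [h', abs_zero])) (mem_filter.1 hx).2))
    have h2 : loc p (push p G v) X (E + 1) b = 0 :=
      norm_le_zero_iff.1 ((loc_high p _ X hE hb).trans_eq (by simp [evm]))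
    refine ⟨(loc_high p _ G hE hb).trans (key _ (by simpa using hv.sing)), ?_, h2.trans h1.symm⟩
    rw [Nat.succ_eq_add_one, h1, norm_zero]
    positivity

lemma av_mul {M c : ℕ} (hc : c ≠ 0) {Φ : ℕ → ℂ} (hΦ : ∀ n, Φ (n + M) = Φ n) :
    av (M * c) Φ = av M Φ := by
  rw [av, av, mul_comm M, per_mul M c Φ hΦ, Nat.cast_mul,
    mul_div_mul_left _ _ (by exact_mod_cast hc)]

lemma cast_per {p r : ℕ} (h : p ∣ r) (n : ℕ) : ((n + r : ℕ) : ZMod p) = n := by
  rw [Nat.cast_add, (ZMod.natCast_eq_zero_iff r p).2 h, add_zero]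

variable {ι : Type} [Fintype ι] [DecidableEq ι] {P : ι → ℕ} [hPp : ∀ i, Fact (P i).Prime]

/-- the summand attached to `T` -/
noncomputable def Ph (w : ∀ i, ZMod (P i) → ℝ) (G : ℤ[X]) (q : ℕ) (a : ℤ) (T : Finset ι)
    (n : ℕ) : ℂ := (∏ i ∈ T, ((w i n : ℂ) - 1)) * ch q (a * G.eval (n : ℤ))

omit [Fintype ι] in
lemma av_Ph (w : ∀ i, ZMod (P i) → ℝ) (G : ℤ[X]) {q : ℕ} (hq : q ≠ 0) {a : ℤ} {b : ℕ → ℤ}
    (hb : ∀ t, ch q (a * t) = ∏ l ∈ q.primeFactors, ch (l ^ q.factorization l) (b l * t))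
    (T : Finset ι) : av (q * mm P T) (Ph w G q a T) =
      ∏ l ∈ q.primeFactors ∪ T.image P,
        av (l ^ q.factorization l * l ^ (T.filter (P · = l)).card) fun n =>
          (∏ i ∈ T.filter (P · = l), ((w i n : ℂ) - 1)) *
            ch (l ^ q.factorization l) (b l * G.eval (n : ℤ)) := by
  set s := q.primeFactors ∪ T.image P
  have hs : ∀ l ∈ s, l.Prime := fun l hl => by
    rcases mem_union.1 hl with h | h
    · exact Nat.prime_of_mem_primeFactors h
    · obtain ⟨i, -, rfl⟩ := mem_image.1 h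
      exact (hPp i).out
  have hm : ∀ i ∈ T, P i ∈ s := fun i hi => mem_union_right _ (mem_image_of_mem _ hi)
  have h0 : ∀ l ∈ s, l ∉ q.primeFactors → q.factorization l = 0 := fun l _ hl =>
    Finsupp.notMem_support_iff.1 hl
  have e : q * mm P T = ∏ l ∈ s, l ^ q.factorization l * l ^ (T.filter (P · = l)).card := by
    rw [prod_mul_distrib, ← prod_subset subset_union_left fun l h1 h2 => by rw [h0 l h1 h2, pow_zero],
      ← Nat.prod_primeFactors_pow_factorization hq, mm, ← prod_fiberwise_of_maps_to hm]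
    congr 1
    exact prod_congr rfl fun l _ => by
      rw [prod_congr rfl fun i hi => (mem_filter.1 hi).2, prod_const]
  simp only [av]
  rw [prod_div_distrib, ← crt_sum s _ (fun l hl => Nat.mul_pos (pow_pos (hs l hl).pos _) (pow_pos (hs l hl).pos _))
    (fun l hl l' hl' h => by
      rw [← pow_add, ← pow_add]
      exact Nat.coprime_pow_primes _ _ (hs l hl) (hs l' hl') h), ← Nat.cast_prod, ← e]
  · congr 1
    refine sum_congr rfl fun n _ => ?_
    rw [prod_mul_distrib, prod_fiberwise_of_maps_to hm, Ph, hb]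
    congr 1
    exact prod_subset subset_union_left fun l h1 h2 => by rw [h0 l h1 h2, pow_zero, ch_one]
  · intro l hl n
    rw [ch_per (pow_ne_zero _ (hs l hl).ne_zero) _ _ (dvd_mul_right _ _)]
    congr 1
    refine prod_congr rfl fun i hi => ?_
    rw [cast_per (((mem_filter.1 hi).2.dvd.trans
      (dvd_pow_self l (card_ne_zero_of_mem hi))).mul_left _)]

omit [Fintype ι] in
lemma av_Ph_zero (w : ∀ i, ZMod (P i) → ℝ) {G : ℤ[X]} {q : ℕ} (hq : q ≠ 0) {a : ℤ} {b : ℕ → ℤ}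
    (hb : ∀ t, ch q (a * t) = ∏ l ∈ q.primeFactors, ch (l ^ q.factorization l) (b l * t))
    {T : Finset ι} {l : ℕ} (hl : l ∈ q.primeFactors) (hbl : ¬ (l : ℤ) ∣ b l) (hG : Inj G l)
    (hT : ∀ i ∈ T, P i ≠ l) : av (q * mm P T) (Ph w G q a T) = 0 := by
  rw [av_Ph w G hq hb]
  refine prod_eq_zero (mem_union_left _ hl) ?_
  simp [filter_false_of_mem hT, av, sum_ch_pow (Nat.prime_of_mem_primeFactors hl) hG
    (fac_ne hl) hbl]

omit [Fintype ι] in
lemma av_Ph_eq (hP : Function.Injective P) (w : ∀ i, ZMod (P i) → ℝ) (G : ℤ[X]) {q : ℕ}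
    (hq : q ≠ 0) {a : ℤ} {b : ℕ → ℤ}
    (hb : ∀ t, ch q (a * t) = ∏ l ∈ q.primeFactors, ch (l ^ q.factorization l) (b l * t))
    {D T : Finset ι} (hD : q.primeFactors = D.image P) (hw : ∀ i ∈ T, ∑ x, w i x = P i) :
    av (q * mm P T) (Ph w G q a T) = if T ⊆ D then
      (∏ i ∈ T, (loc (P i) (w i) G (q.factorization (P i)) (b (P i)) -
        loc (P i) (fun _ => 1) G (q.factorization (P i)) (b (P i)))) *
      ∏ i ∈ D \ T, loc (P i) (fun _ => 1) G (q.factorization (P i)) (b (P i)) else 0 := by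
  have hf : ∀ i ∈ T, T.filter (P · = P i) = {i} := fun i hi => by
    ext j
    simp only [mem_filter, hP.eq_iff, mem_singleton, and_iff_right_iff_imp]
    rintro rfl
    exact hi
  rw [av_Ph w G hq hb]
  split_ifs with h
  · rw [hD, union_eq_left.2 (image_subset_image h), prod_image hP.injOn, ← prod_sdiff h, mul_comm]
    congr 1
    · refine prod_congr rfl fun i hi => ?_
      have hE : q.factorization (P i) ≠ 0 :=
        Finsupp.mem_support_iff.1 (show P i ∈ q.primeFactors from hD ▸ mem_image_of_mem _ (h hi))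
      rw [hf i hi, av_mul (pow_ne_zero _ (hPp i).out.ne_zero)]
      · simp [loc, av, sub_mul, sub_div]
      · intro n
        rw [ch_per (pow_ne_zero _ (hPp i).out.ne_zero) _ _ dvd_rfl, prod_singleton, prod_singleton,
          cast_per (dvd_pow_self _ hE)]
    · refine prod_congr rfl fun i hi => ?_
      rw [filter_false_of_mem fun j hj (e : P j = P i) => (mem_sdiff.1 hi).2 (hP e ▸ hj)]
      simp [loc]
  · obtain ⟨i, hi, hiD⟩ := not_subset.1 h
    refine prod_eq_zero (mem_union_right _ (mem_image_of_mem _ hi)) ?_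
    have hE : q.factorization (P i) = 0 := Finsupp.notMem_support_iff.1 fun h' => hiD (by
      obtain ⟨j, hj, e⟩ := mem_image.1 (hD ▸ h' : P i ∈ D.image P)
      exact hP e ▸ hj)
    have h1 := congrArg (fun x : ℝ => (x : ℂ)) (hw i hi)
    simp only [hf i hi, hE, av, pow_zero, ch_one, card_singleton, pow_one, one_mul, mul_one,
      prod_singleton]
    push_cast at h1
    rw [sum_range_zmod (P i) fun x => (w i x : ℂ) - 1]
    simp [h1]

lemma bounds (hP : Function.Injective P) (S : Finset ι) (G : ℤ[X]) (w : ∀ i, ZMod (P i) → ℝ)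
    (h0 : ∀ i ∉ S, ∀ x, 0 ≤ w i x) (hw : ∀ i ∉ S, ∑ x, w i x = P i) (Y : ℕ) {q : ℕ} (hq : q ≠ 0)
    (a : ℤ) : ‖∑ T ∈ famB P S Y, av (q * mm P T) (Ph w G q a T)‖ ≤ (Y : ℝ) ^ 2 ∧
      ∀ N : ℕ, ‖∑ n ∈ range N, ((wsum P S Y w (n : ℤ) : ℂ) * ee (a * (G.eval (n : ℤ) : ℤ) / q) -
        ∑ T ∈ famB P S Y, av (q * mm P T) (Ph w G q a T))‖ ≤ 2 * q * Y ^ 3 := by
  have hc : ((famB P S Y).card : ℝ) ≤ Y := by exact_mod_cast card_famB P hP S Y
  have hT : ∀ T ∈ famB P S Y, (mm P T : ℝ) ≤ Y := fun T hT => by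
    exact_mod_cast (mem_filter.1 hT).2.2
  have hM : ∀ T, 1 ≤ q * mm P T := fun T => Nat.mul_pos (Nat.pos_of_ne_zero hq) (mm_pos P T)
  have hB : ∀ T ∈ famB P S Y, ∀ n, ‖Ph w G q a T n‖ ≤ Y := by
    intro T hT' n
    refine le_trans ?_ (hT T hT')
    rw [Ph, norm_mul, norm_ch, mul_one, norm_prod, mm, Nat.cast_prod]
    refine prod_le_prod (fun _ _ => norm_nonneg _) fun i hi => ?_
    have hi' := disjoint_left.1 (mem_filter.1 hT').2.1 hi
    have h1 : (1 : ℝ) ≤ P i := by exact_mod_cast (hPp i).out.pos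
    have h2 := single_le_sum (fun x _ => h0 i hi' x) (mem_univ ((n : ℕ) : ZMod (P i)))
    have h3 := h0 i hi' n
    rw [← Complex.ofReal_one, ← Complex.ofReal_sub, Complex.norm_real, Real.norm_eq_abs, abs_le]
    rw [hw i hi'] at h2
    constructor <;> linarith
  have key : ∀ (f : Finset ι → ℂ) (c : ℝ), 0 ≤ c → (∀ T ∈ famB P S Y, ‖f T‖ ≤ c) →
      ‖∑ T ∈ famB P S Y, f T‖ ≤ Y * c := fun f c hc0 hf => by
    refine (norm_sum_le_of_le _ hf).trans ?_
    rw [sum_const, nsmul_eq_mul]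
    gcongr
  refine ⟨(key _ Y (by positivity) fun T hT' => ?_).trans_eq (sq _).symm, fun N => ?_⟩
  · have : (0 : ℝ) < (q * mm P T : ℕ) := by exact_mod_cast hM T
    rw [av, norm_div, Complex.norm_natCast, div_le_iff₀' this]
    refine (norm_sum_le_of_le _ fun n _ => hB T hT' n).trans ?_
    simp
  · have e : ∀ n : ℕ, (wsum P S Y w (n : ℤ) : ℂ) * ee (a * (G.eval (n : ℤ) : ℤ) / q) =
        ∑ T ∈ famB P S Y, Ph w G q a T n := fun n => by
      simp [wsum, Ph, ch, sum_mul]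
    simp only [e, ← sum_sub_distrib]
    rw [sum_comm]
    refine (key _ (2 * (q * Y) * Y) (by positivity) fun T hT' => ?_).trans_eq (by ring)
    refine (per_sum _ (hM T) _ (fun n => ?_) Y (hB T hT') N).trans ?_
    · rw [Ph, Ph, ch_per hq _ _ (dvd_mul_right _ _)]
      congr 1
      exact prod_congr rfl fun i hi => by
        rw [cast_per (((dvd_mm_iff P hP T i).2 hi).mul_left _)]
    · have := hT T hT'
      push_cast
      gcongr

end LocFac

open LocFac in
/-- The local factors on a major arc. -/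
theorem locfac {ι : Type} [Fintype ι] [DecidableEq ι] (P : ι → ℕ) [∀ i, Fact (P i).Prime]
    (hP : Function.Injective P) (S : Finset ι) (G : ℤ[X]) (κ : ℝ) (hκ : 0 ≤ κ)
    (v : ∀ i, ZMod (P i) → ℝ) (hv : ∀ i ∉ S, Wt (P i) G κ (v i)) (Y : ℕ) (hY : 1 ≤ Y)
    (q : ℕ) (hq : 1 ≤ q) (a : ℤ) (ha : IsCoprime a (q : ℤ))
    (hcov : ∀ l : ℕ, l.Prime → l ∣ q → (∃ i ∉ S, P i = l) ∨ Inj G l) :
    ∃ c c' : ℂ, ‖c - c'‖ ≤ (Y : ℝ) ^ (-κ) ∧ ‖c‖ ≤ (Y : ℝ) ^ 2 ∧ ‖c'‖ ≤ (Y : ℝ) ^ 2 ∧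
      (∀ N : ℕ, ‖∑ n ∈ range N,
        ((wsum P S Y v (n : ℤ) : ℂ) * ee (a * (G.eval (n : ℤ) : ℤ) / q) - c)‖ ≤ 2 * q * Y ^ 3) ∧
      (∀ N : ℕ, ‖∑ d ∈ range N,
        ((wsum P S Y (fun i => push (P i) G (v i)) (d : ℤ) : ℂ) * ee (a * d / q) - c')‖ ≤
          2 * q * Y ^ 3) := by
  have hq0 : q ≠ 0 := by omega
  have hw : ∀ i ∉ S, ∑ x, push (P i) G (v i) x = P i := fun i hi => by
    rw [← (hv i hi).mean]
    exact sum_fiberwise univ (evm (P i) G) (v i)
  obtain ⟨b1, b2⟩ := bounds hP S G v (fun i hi => (hv i hi).nonneg) (fun i hi => (hv i hi).mean)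
    Y hq0 a
  obtain ⟨b3, b4⟩ := bounds hP S X (fun i => push (P i) G (v i))
    (fun i hi x => sum_nonneg fun n _ => (hv i hi).nonneg n) hw Y hq0 a
  refine ⟨_, _, ?_, b1, b3, b2, fun N => by simpa using b4 N⟩
  obtain ⟨b, hb1, hb⟩ := frac q.primeFactors (fun l => l ^ q.factorization l)
    (fun l hl => pow_ne_zero _ (Nat.prime_of_mem_primeFactors hl).ne_zero)
    (fun l hl l' hl' h => Nat.coprime_pow_primes _ _ (Nat.prime_of_mem_primeFactors hl)
      (Nat.prime_of_mem_primeFactors hl') h) a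
    (by rwa [← Nat.prod_primeFactors_pow_factorization hq0])
  rw [← Nat.prod_primeFactors_pow_factorization hq0] at hb
  have hb2 : ∀ l ∈ q.primeFactors, ¬ (l : ℤ) ∣ b l := fun l hl h =>
    (Nat.prime_iff_prime_int.1 (Nat.prime_of_mem_primeFactors hl)).not_isUnit
      ((hb1 l hl).isUnit_of_dvd' h (by
        exact_mod_cast dvd_pow_self l (fac_ne hl)))
  have hS : ∀ T ∈ famB P S Y, ∀ i ∈ T, i ∉ S := fun T hT i hi =>
    disjoint_left.1 (mem_filter.1 hT).2.1 hi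
  by_cases hc : ∃ l ∈ q.primeFactors, ∀ i ∉ S, P i ≠ l
  · obtain ⟨l, hl, hc⟩ := hc
    have hI := (hcov l (Nat.prime_of_mem_primeFactors hl)
      (Nat.dvd_of_mem_primeFactors hl)).resolve_left fun ⟨i, hi, e⟩ => hc i hi e
    rw [sum_eq_zero fun T hT => av_Ph_zero _ hq0 hb hl (hb2 l hl) hI fun i hi => hc i (hS T hT i hi),
      sum_eq_zero fun T hT => av_Ph_zero _ hq0 hb hl (hb2 l hl) (inj_X l)
        fun i hi => hc i (hS T hT i hi), sub_zero, norm_zero]
    positivity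
  push Not at hc
  set D := univ.filter fun i => i ∉ S ∧ P i ∈ q.primeFactors with hDd
  have hD : q.primeFactors = D.image P := by
    ext l
    simp only [hDd, mem_image, mem_filter, mem_univ, true_and]
    exact ⟨fun hl => by obtain ⟨i, hi, rfl⟩ := hc l hl; exact ⟨i, ⟨hi, hl⟩, rfl⟩,
      fun ⟨i, hi, e⟩ => e ▸ hi.2⟩
  have hL := fun i (hi : i ∈ D) => loc_est (hv i (mem_filter.1 hi).2.1)
    (fac_ne (mem_filter.1 hi).2.2) (hb2 _ (mem_filter.1 hi).2.2)
  have hF : (famB P S Y).filter (· ⊆ D) = D.powerset.filter (mm P · ≤ Y) := by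
    ext T
    simp only [famB, mem_filter, mem_univ, true_and, mem_powerset]
    exact ⟨fun h => ⟨h.2, h.1.2⟩, fun h =>
      ⟨⟨disjoint_left.2 fun i hi => (mem_filter.1 (h.1 hi)).2.1, h.2⟩, h.1⟩⟩
  rw [sum_congr rfl fun T hT => av_Ph_eq hP v G hq0 hb hD fun i hi => (hv i (hS T hT i hi)).mean,
    sum_congr rfl fun T hT => av_Ph_eq hP _ X hq0 hb hD fun i hi => hw i (hS T hT i hi),
    ← sum_filter, ← sum_filter, hF]
  by_cases hm : mm P D ≤ Y
  · rw [filter_true_of_mem fun T hT => (mm_mono P (mem_powerset.1 hT)).trans hm, ← prod_add,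
      ← prod_add]
    simp only [sub_add_cancel]
    rw [prod_congr rfl fun i hi => (hL i hi).2.2, sub_self, norm_zero]
    positivity
  rw [sum_eq_zero (f := fun T => _ * ∏ i ∈ D \ T, loc (P i) (fun _ => 1) X _ _), sub_zero]
  · calc _ ≤ ∑ T ∈ D.powerset, (∏ i ∈ T, 2 * ((P i : ℝ) ^ (-κ) / 3)) *
          ∏ i ∈ D \ T, (P i : ℝ) ^ (-κ) / 3 := by
          refine (norm_sum_le _ _).trans ((sum_le_sum_of_subset_of_nonneg (filter_subset _ _)
            fun _ _ _ => norm_nonneg _).trans (sum_le_sum fun T hT => ?_))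
          rw [norm_mul, norm_prod, norm_prod]
          gcongr with i hi i hi
          · have := hL i (mem_powerset.1 hT hi)
            linarith [norm_sub_le (loc (P i) (v i) G (q.factorization (P i)) (b (P i)))
              (loc (P i) (fun _ => 1) G (q.factorization (P i)) (b (P i))), this.1, this.2.1]
          · exact (hL i (mem_sdiff.1 hi).1).1
      _ = (mm P D : ℝ) ^ (-κ) := by
          rw [← prod_add, mm, Nat.cast_prod, ← Real.finsetProd_rpow _ _ fun _ _ => Nat.cast_nonneg _]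
          exact prod_congr rfl fun i _ => by ring
      _ ≤ _ := Real.rpow_le_rpow_of_nonpos (by exact_mod_cast hY)
          (by exact_mod_cast (not_le.1 hm).le) (by linarith)
  · intro T hT
    obtain ⟨h1, h2⟩ := mem_filter.1 hT
    obtain ⟨i, hi⟩ := sdiff_nonempty.2 fun h => hm ((mm_mono P h).trans h2)
    have hi' := (mem_filter.1 (mem_sdiff.1 hi).1).2.2
    rw [prod_eq_zero hi, mul_zero]
    simpa [loc, av] using Or.inl (sum_ch_pow (Nat.prime_of_mem_primeFactors hi')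
      (inj_X _) (fac_ne hi') (hb2 _ hi'))

end Vale.Agent.P042
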