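import Vale.Agent.P042.PairB

open Finset Polynomial

namespace Vale.Agent.P042

namespace LocRP

theorem str_tt : ∀ (c : Fin 3) (x y : Fin 6), str (tt c x) (tt c y) ↔ str x y := by decide
theorem tt_tt : ∀ (c : Fin 3) (x : Fin 6), tt c (tt c x) = x := by decide
theorem inL_tt : ∀ (c : Fin 3) (x : Fin 6), inL c (tt c x) ↔ ¬ inL c x := by decide
theorem inL_fo : ∀ (c : Fin 3) (x : Fin 6), inL c (fo c x) := by decide
theorem fo_fo : ∀ (c : Fin 3) (x : Fin 6), fo c (fo c x) = fo c x := by decide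
theorem fo_tt : ∀ (c : Fin 3) (x : Fin 6), fo c (tt c x) = fo c x := by decide
theorem good_fo : ∀ c : Fin 3, good (fo c) := by decide
theorem not_good_id : ¬ good id := by decide
theorem not_good_tt : ∀ c : Fin 3, ¬ good (tt c) := by decide
theorem tt_ne_id : ∀ c : Fin 3, tt c ≠ id := by decide
theorem near_tt : ∀ (c : Fin 3) (x y : Fin 6), near x y → near (tt c x) (tt c y) := by decide
theorem near_fo : ∀ (c : Fin 3) (x y : Fin 6), near x y → near (fo c x) (fo c y) := by decide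
theorem tt_conj : ∀ c c0 : Fin 3, ∃ c', ∀ x, tt c (tt c' x) = tt c0 (tt c x) := by decide
theorem tt_succ : ∀ (c : Fin 3) (x : Fin 6), tt c (x + 1) + 1 = tt c x := by decide

theorem ne_id {φ : Fin 6 → Fin 6} (h : good φ) : φ ≠ id := fun e => not_good_id (e ▸ h)

theorem good_tt {φ : Fin 6 → Fin 6} (h : good φ) (c : Fin 3) : good (φ ∘ tt c) := by
  obtain ⟨h1, c0, h2⟩ := h
  obtain ⟨c', h3⟩ := tt_conj c c0
  exact ⟨fun x y hn => h1 _ _ (near_tt c x y hn), c', fun x => by
    simp only [Function.comp, h3, h2]⟩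

theorem good_fo' {φ : Fin 6 → Fin 6} (h : good φ) (c : Fin 3) : good (φ ∘ fo c) :=
  ⟨fun x y hn => h.1 _ _ (near_fo c x y hn), c, fun x => by simp only [Function.comp, fo_tt]⟩

theorem comp_tt_tt (φ : Fin 6 → Fin 6) (c : Fin 3) : (φ ∘ tt c) ∘ tt c = φ := by
  funext x; simp only [Function.comp, tt_tt]

theorem eqb_tt (φ : Fin 6 → Fin 6) (c : Fin 3) : eqb (φ ∘ tt c) = eqb φ := by
  unfold eqb
  refine Finset.card_nbij' (fun x => tt c (x + 1)) (fun x => tt c (x + 1)) (fun x hx => ?_)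
    (fun x hx => ?_) (fun x _ => ?_) (fun x _ => ?_)
  · simp only [coe_filter, mem_univ, true_and, Set.mem_ofPred_eq, Function.comp] at hx ⊢
    rw [tt_succ, hx]
  · simp only [coe_filter, mem_univ, true_and, Set.mem_ofPred_eq, Function.comp] at hx ⊢
    rw [tt_succ, tt_tt, tt_tt, hx]
  · simp only [tt_succ, tt_tt]
  · simp only [tt_succ, tt_tt]

def cls (c : Fin 3) (x : Fin 6) : Fin 3 :=
  ![![0, 0, 1, 2, 2, 1], ![0, 1, 1, 0, 2, 2], ![0, 1, 2, 2, 1, 0]] c x

def rep (c : Fin 3) (x : Fin 3) : Fin 6 := ![![0, 2, 3], ![0, 1, 4], ![0, 1, 2]] c x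

theorem rep_cls : ∀ (c : Fin 3) (x : Fin 6), rep c (cls c x) = x ∨ rep c (cls c x) = tt c x := by
  decide

theorem key0 : ∀ (c c' : Fin 3) (a b d : Fin 6),
    ¬ (∀ x, (![a, b, d] ∘ cls c') (tt c x) = (![a, b, d] ∘ cls c') x) →
    2 * eqb (![a, b, d] ∘ cls c') + 1 ≤
      eqb ((![a, b, d] ∘ cls c') ∘ fo c) + eqb (((![a, b, d] ∘ cls c') ∘ tt c) ∘ fo c) := by
  decide +kernel

theorem key {φ : Fin 6 → Fin 6} (h : good φ) (c : Fin 3) (hn : ¬ ∀ x, φ (tt c x) = φ x) :
    2 * eqb φ + 1 ≤ eqb (φ ∘ fo c) + eqb ((φ ∘ tt c) ∘ fo c) := by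
  obtain ⟨-, c', h⟩ := h
  have e : ![φ (rep c' 0), φ (rep c' 1), φ (rep c' 2)] ∘ cls c' = φ := by
    funext x
    have e1 : ∀ z, ![φ (rep c' 0), φ (rep c' 1), φ (rep c' 2)] z = φ (rep c' z) := by
      intro z; fin_cases z <;> rfl
    rw [Function.comp_apply, e1]
    rcases rep_cls c' x with h1 | h1
    · rw [h1]
    · rw [h1, h]
  have := key0 c c' (φ (rep c' 0)) (φ (rep c' 1)) (φ (rep c' 2))
  rw [e] at this
  exact this hn

theorem mu_tt (lam K : ℝ) {φ : Fin 6 → Fin 6} {c : Fin 3} (h1 : φ ≠ id) (h2 : φ ≠ tt c) :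
    mu lam K (φ ∘ tt c) = mu lam K φ := by
  have h3 : φ ∘ tt c ≠ id := fun e => h2 (by rw [← comp_tt_tt φ c, e]; rfl)
  unfold mu
  rw [if_neg h1, if_neg h3, eqb_tt]
  by_cases hg : good φ
  · rw [if_pos hg, if_pos (good_tt hg c)]
  · rw [if_neg hg, if_neg (fun h => hg (comp_tt_tt φ c ▸ good_tt h c))]

theorem mu_nonneg {lam K : ℝ} (h : 0 ≤ lam) (hK : 0 ≤ K) (φ : Fin 6 → Fin 6) :
    0 ≤ mu lam K φ := by
  unfold mu
  split_ifs <;> positivity

theorem mu_good (lam K : ℝ) {φ : Fin 6 → Fin 6} (h : good φ) :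
    mu lam K φ = lam * K ^ eqb φ := by
  rw [mu, if_neg (ne_id h), if_pos h]

variable {j : ℕ}

/-- precompose one coordinate -/
def up (φ : Phi j) (i : Fin j) (g : Fin 6 → Fin 6) : Phi j := Function.update φ i (φ i ∘ g)

def sG (i : Fin j) (g : Fin 6 → Fin 6) (a : Site j) : Site j := Function.update a i (g (a i))

theorem app_up (φ : Phi j) (i : Fin j) (g : Fin 6 → Fin 6) :
    app (up φ i g) = app φ ∘ sG i g := by
  funext a l
  by_cases h : l = i
  · subst h; simp [app, up, sG]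
  · simp [app, up, sG, h]

theorem up_up (φ : Phi j) (i : Fin j) (g g' : Fin 6 → Fin 6) :
    up (up φ i g) i g' = Function.update φ i ((φ i ∘ g) ∘ g') := by
  simp [up]

theorem sT_sT (i : Fin j) (c : Fin 3) (a : Site j) : sT i c (sT i c a) = a := by
  simp [sT, tt_tt]

theorem edges_up {φ : Phi j} {i : Fin j} {g : Fin 6 → Fin 6} (h : φ i ∘ g ≠ id) :
    edges (up φ i g) ⊆ edges φ := by
  intro e he
  simp only [edges, mem_filter, mem_univ, true_and, app_up] at he ⊢
  obtain ⟨⟨h1, l, h2, h3⟩, ⟨a, ha⟩, b, hb⟩ := he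
  refine ⟨⟨h1, l, ?_, h3⟩, ⟨_, ha⟩, _, hb⟩
  by_cases hl : l = i
  · subst hl; exact absurd (by simpa [up] using h2) h
  · simpa [up, hl] using h2

theorem edges_up_tt {φ : Phi j} {i : Fin j} {c : Fin 3} (h1 : φ i ≠ id) (h2 : φ i ≠ tt c) :
    edges (up φ i (tt c)) = edges φ := by
  refine subset_antisymm (edges_up fun e => h2 (by rw [← comp_tt_tt (φ i) c, e]; rfl)) ?_
  have := edges_up (φ := up φ i (tt c)) (i := i) (g := tt c) (by simpa [up, comp_tt_tt] using h1)
  rwa [up_up, comp_tt_tt, Function.update_eq_self] at this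

theorem app_sT {φ : Phi j} {i : Fin j} (h : φ i = id) (c : Fin 3) (a : Site j) :
    app φ (sT i c a) = sT i c (app φ a) := by
  funext l
  by_cases hl : l = i
  · subst hl; simp [app, sT, h]
  · simp [app, sT, hl]

theorem str_sT (i : Fin j) (c : Fin 3) (a b : Site j) (l : Fin j) :
    str (sT i c a l) (sT i c b l) ↔ str (a l) (b l) := by
  by_cases hl : l = i
  · subst hl; simp [sT, str_tt]
  · simp [sT, hl]

theorem edges_sT {φ : Phi j} {i : Fin j} (h : φ i = id) (c : Fin 3) {e : Site j × Site j}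
    (he : e ∈ edges φ) : (sT i c e.1, sT i c e.2) ∈ edges φ := by
  simp only [edges, mem_filter, mem_univ, true_and] at he ⊢
  obtain ⟨h1, ⟨a, ha⟩, b, hb⟩ := he
  exact ⟨by simpa only [edge, str_sT] using h1, ⟨sT i c a, by rw [app_sT h, ha]⟩, sT i c b, by rw [app_sT h, hb]⟩

theorem prod_sT {φ : Phi j} {i : Fin j} (h : φ i = id) (c : Fin 3)
    (P P' : Site j × Site j → Prop) [DecidablePred P] [DecidablePred P']
    (hP : ∀ e, P' (sT i c e.1, sT i c e.2) ↔ P e) (F : Site j × Site j → ℝ) :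
    ∏ e ∈ (edges φ).filter P, F (sT i c e.1, sT i c e.2) = ∏ e ∈ (edges φ).filter P', F e := by
  refine Finset.prod_nbij' (fun e => (sT i c e.1, sT i c e.2)) (fun e => (sT i c e.1, sT i c e.2))
    (fun e he => ?_) (fun e he => ?_) (fun e _ => by simp [sT_sT]) (fun e _ => by simp [sT_sT])
    (fun e _ => rfl)
  · rw [mem_filter] at he ⊢
    exact ⟨edges_sT h c he.1, (hP e).2 he.2⟩
  · rw [mem_filter] at he ⊢
    exact ⟨edges_sT h c he.1, (hP _).1 (by simpa [sT_sT] using he.2)⟩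

theorem sum_sT {X : Type} [Fintype X] (i : Fin j) (c : Fin 3) (F : (Site j → X) → ℝ) :
    ∑ y, F (y ∘ sT i c) = ∑ y, F y :=
  Function.Bijective.sum_comp (Function.Involutive.bijective
    (f := fun y : Site j → X => y ∘ sT i c) (fun y => by funext a; simp [sT_sT])) F

theorem comp_eq_iff {X : Type} (i : Fin j) (c : Fin 3) (x z : Site j → X) :
    z = x ∘ sT i c ↔ z ∘ sT i c = x := by
  constructor
  · rintro rfl; funext a; simp [sT_sT]
  · rintro rfl; funext a; simp [sT_sT]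

variable {p : ℕ} [NeZero p]

theorem strat_id {φ : Phi j} {i : Fin j} (h : φ i = id) (c : Fin 3) (k : ZMod p → ℝ)
    (x : Site j → ZMod p) : strat φ k (x ∘ sT i c) = strat φ k x := by
  unfold strat
  congr 1
  rw [← sum_sT i c]
  refine sum_congr rfl fun y _ => ?_
  have e1 : wgt φ k (y ∘ sT i c) = wgt φ k y := by
    have := prod_sT h c (fun _ => True) (fun _ => True) (fun _ => Iff.rfl)
      (fun e => k (y e.1 - y e.2))
    rw [filter_true] at this
    exact this
  have e2 : ((y ∘ sT i c) ∘ app φ) ∘ sT i c = y ∘ app φ := by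
    funext a; simp [app_sT h, sT_sT]
  rw [e1]
  exact if_congr (by rw [comp_eq_iff, e2]) rfl rfl

theorem strat_up {φ : Phi j} {i : Fin j} {c : Fin 3} (h1 : φ i ≠ id) (h2 : φ i ≠ tt c)
    (k : ZMod p → ℝ) (x : Site j → ZMod p) :
    strat φ k (x ∘ sT i c) = strat (up φ i (tt c)) k x := by
  unfold strat wgt
  rw [edges_up_tt h1 h2, app_up]
  congr 1
  exact sum_congr rfl fun y _ => if_congr (comp_eq_iff i c x _) rfl rfl

theorem mass_update (km : ℕ) (ρ : ℝ) (φ : Phi j) (i : Fin j) (g : Fin 6 → Fin 6) :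
    mass j km ρ (Function.update φ i g) =
      mu (cL j km * ρ) (cK j km) g * ∏ l ∈ univ.erase i, mu (cL j km * ρ) (cK j km) (φ l) := by
  rw [mass, ← Finset.mul_prod_erase _ _ (mem_univ i), Function.update_self]
  congr 1
  exact prod_congr rfl fun l hl => by rw [Function.update_of_ne (mem_erase.1 hl).1]

theorem mass_eq (km : ℕ) (ρ : ℝ) (φ : Phi j) (i : Fin j) :
    mass j km ρ φ =
      mu (cL j km * ρ) (cK j km) (φ i) * ∏ l ∈ univ.erase i, mu (cL j km * ρ) (cK j km) (φ l) := by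
  rw [← mass_update, Function.update_eq_self]

theorem inv_mix (km : ℕ) (ρ : ℝ) (k : ZMod p → ℝ) (i : Fin j) (c : Fin 3) (x : Site j → ZMod p) :
    mix (mass j km ρ) k (x ∘ sT i c) = mix (mass j km ρ) k x := by
  unfold mix
  have hinv : Function.Involutive
      (fun φ : Phi j => if φ i = id ∨ φ i = tt c then φ else up φ i (tt c)) := by
    intro φ
    by_cases h : φ i = id ∨ φ i = tt c
    · simp only [if_pos h]
    · simp only [if_neg h]
      rw [if_neg, up_up, comp_tt_tt, Function.update_eq_self]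
      simp only [up, Function.update_self]
      rintro (e | e)
      · exact h (Or.inr (by rw [← comp_tt_tt (φ i) c, e]; rfl))
      · exact h (Or.inl (by rw [← comp_tt_tt (φ i) c, e]; exact comp_tt_tt id c))
  rw [← hinv.bijective.sum_comp (fun φ => mass j km ρ φ * strat φ k x)]
  refine sum_congr rfl fun φ _ => ?_
  by_cases h : φ i = id ∨ φ i = tt c
  · rw [if_pos h]
    rcases h with h | h
    · rw [strat_id h]
    · rw [mass_eq km ρ φ i, h, mu, if_neg (tt_ne_id c), if_neg (not_good_tt c)]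
      simp
  · rw [if_neg h]
    rw [not_or] at h
    rw [strat_up h.1 h.2, mass_eq km ρ φ i, up, mass_update, mu_tt _ _ h.1 h.2]

theorem prod_le_of_subset {α : Type} [DecidableEq α] {E E' : Finset α} (h : E' ⊆ E) {n : ℕ}
    (hn : E.card ≤ n) {f : α → ℝ} {km : ℝ} (hkm : 1 ≤ km) (hf : ∀ a, 0 ≤ f a ∧ f a ≤ km) :
    ∏ e ∈ E, f e ≤ km ^ n * ∏ e ∈ E', f e := by
  rw [← Finset.prod_sdiff h]
  refine mul_le_mul_of_nonneg_right ?_ (prod_nonneg fun a _ => (hf a).1)
  refine (prod_le_prod (fun a _ => (hf a).1) (fun a _ => (hf a).2)).trans ?_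
  rw [prod_const]
  exact pow_le_pow_right₀ hkm ((card_le_card sdiff_subset).trans hn)

/-- the quadratic form of a stratum -/
noncomputable def Nn (k : ZMod p → ℝ) (U : (Site j → ZMod p) → ℝ) (ψ : Phi j) : ℝ :=
  ∑ y, wgt ψ k y * U (y ∘ app ψ) ^ 2

theorem case_id {φ : Phi j} {i : Fin j} (h : φ i = id) (c : Fin 3) {km ρ : ℝ} (hkm : 1 ≤ km)
    (hρ : 0 ≤ ρ) {k : ZMod p → ℝ} (hk0 : ∀ d, 0 ≤ k d ∧ k d ≤ km) (hk : OpB k ρ)
    (U : (Site j → ZMod p) → ℝ) :
    -(cE j * km ^ (3 * cE j) * ρ * Nn k U (up φ i (fo c))) ≤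
      ∑ y, wgt φ k y * (U (y ∘ app (up φ i (fo c))) *
        U (y ∘ app (up (up φ i (tt c)) i (fo c)))) := by
  set LL := (edges φ).filter (fun e => inL c (e.1 i) ∧ inL c (e.2 i)) with hLL
  set RR := (edges φ).filter (fun e => ¬ inL c (e.1 i) ∧ ¬ inL c (e.2 i)) with hRR
  set X := (edges φ).filter (fun e => ¬ (inL c (e.1 i) ↔ inL c (e.2 i))) with hX
  set a : (Site j → ZMod p) → ℝ :=
    fun y => U (y ∘ app (up φ i (fo c))) * ∏ e ∈ LL, k (y e.1 - y e.2) with ha
  have hb : ∀ y, a (y ∘ sT i c) =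
      U (y ∘ app (up (up φ i (tt c)) i (fo c))) * ∏ e ∈ RR, k (y e.1 - y e.2) := by
    intro y
    have e1 : (y ∘ sT i c) ∘ app (up φ i (fo c)) = y ∘ app (up (up φ i (tt c)) i (fo c)) := by
      funext w
      simp only [app_up, Function.comp_apply]
      rw [← app_sT h]; rfl
    rw [ha]
    beta_reduce
    rw [e1]
    congr 1
    exact prod_sT h c _ _ (fun e => by simp [sT, inL_tt]) (fun e => k (y e.1 - y e.2))
  have hw : ∀ y, wgt φ k y = (∏ e ∈ LL, k (y e.1 - y e.2)) * (∏ e ∈ RR, k (y e.1 - y e.2)) *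
      ∏ e ∈ X, k (y e.1 - y e.2) := by
    intro y
    rw [wgt, hLL, hRR, hX, prod_filter, prod_filter, prod_filter, ← prod_mul_distrib,
      ← prod_mul_distrib]
    refine prod_congr rfl fun e _ => ?_
    by_cases h1 : inL c (e.1 i) <;> by_cases h2 : inL c (e.2 i) <;> simp [h1, h2]
  have ia : ∀ w : Site j, ¬ inL c (w i) → Indep a w := by
    intro w hw y t
    have hne : ∀ z : Site j, inL c (z i) → Function.update y w t z = y z :=
      fun z hz => Function.update_of_ne (by rintro rfl; exact hw hz) _ _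
    rw [ha]
    beta_reduce
    congr 1
    · congr 1
      funext z
      exact hne _ (by simp [app, up, h, inL_fo])
    · exact prod_congr rfl fun e he => by
        rw [hne _ (mem_filter.1 he).2.1, hne _ (mem_filter.1 he).2.2]
  have ib : ∀ w : Site j, inL c (w i) → Indep (fun y => a (y ∘ sT i c)) w := by
    intro w hw y t
    have e : Function.update y w t ∘ sT i c = Function.update (y ∘ sT i c) (sT i c w) t := by
      funext z
      by_cases hz : z = sT i c w
      · subst hz; simp [sT_sT]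
      · rw [Function.update_of_ne hz, Function.comp_apply, Function.comp_apply,
          Function.update_of_ne (fun e => hz (by rw [← e, sT_sT]))]
    beta_reduce
    rw [e]
    exact ia _ (by simp [sT, inL_tt, hw]) _ _
  have h1 := indep_sum (univ.filter fun w : Site j => inL c (w i)) a (fun y => a (y ∘ sT i c))
    (fun w hw => ia w (by simpa using hw)) (fun w hw => ib w (by simpa using hw))
  rw [sum_sT i c a] at h1
  have h2 : 0 ≤ ∑ y, a y * a (y ∘ sT i c) := by
    have hc : (0 : ℝ) < Fintype.card (Site j → ZMod p) := by exact_mod_cast Fintype.card_pos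
    exact nonneg_of_mul_nonneg_right (h1 ▸ mul_self_nonneg _) hc |> fun h => h
  have h3 := prod_bound k ρ km hρ hkm hk0 hk X (fun e he => ⟨(edges_asymm φ e
      (mem_filter.1 he).1).1, fun h' => (edges_asymm φ e (mem_filter.1 he).1).2
      (mem_filter.1 h').1⟩) a (fun y => a (y ∘ sT i c)) (fun e he => by
    have := (mem_filter.1 he).2
    by_cases h1 : inL c (e.1 i)
    · exact Or.inl ⟨ia _ (fun h2 => this ⟨fun _ => h2, fun _ => h1⟩), ib _ h1⟩
    · refine Or.inr ⟨ia _ h1, ib _ ?_⟩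
      by_contra h2
      exact this ⟨fun h => absurd h h1, fun h => absurd h h2⟩)
  rw [sum_sT i c (fun y => a y ^ 2), Real.mul_self_sqrt (sum_nonneg fun _ _ => sq_nonneg _)] at h3
  have h4 : ∑ y, a y ^ 2 ≤ km ^ (2 * cE j) * Nn k U (up φ i (fo c)) := by
    rw [Nn, mul_sum]
    refine sum_le_sum fun y _ => ?_
    have hc : LL.card ≤ cE j := (card_filter_le _ _).trans (card_edges_le φ)
    have b1 := prod_le_of_subset (E := LL) (E' := edges (up φ i (fo c))) (fun e he => by
      refine mem_filter.2 ⟨edges_up (by rw [h]; exact ne_id (good_fo c)) he, ?_⟩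
      obtain ⟨-, ⟨w, hw⟩, w', hw'⟩ := (mem_filter.1 he).2
      rw [← hw, ← hw']
      simp [app, up, h, inL_fo]) hc hkm (f := fun e => k (y e.1 - y e.2)) (fun _ => hk0 _)
    have b2 := prod_le_of_subset (E := LL) (E' := ∅) (empty_subset _) hc hkm
      (f := fun e => k (y e.1 - y e.2)) (fun _ => hk0 _)
    rw [prod_empty, mul_one] at b2
    have b3 : 0 ≤ ∏ e ∈ LL, k (y e.1 - y e.2) := prod_nonneg fun _ _ => (hk0 _).1
    have b4 := mul_le_mul b2 b1 b3 (by positivity)
    rw [ha]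
    beta_reduce
    rw [mul_pow, two_mul, pow_add, wgt]
    nlinarith [sq_nonneg (U (y ∘ app (up φ i (fo c))))]
  have hc : X.card ≤ cE j := (card_filter_le _ _).trans (card_edges_le φ)
  have h5 : (X.card : ℝ) * ρ * km ^ X.card * ∑ y, a y ^ 2 ≤
      cE j * ρ * km ^ cE j * (km ^ (2 * cE j) * Nn k U (up φ i (fo c))) :=
    mul_le_mul (mul_le_mul (mul_le_mul_of_nonneg_right (by exact_mod_cast hc) hρ)
      (pow_le_pow_right₀ hkm hc) (by positivity) (by positivity)) h4
      (sum_nonneg fun _ _ => sq_nonneg _) (by positivity)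
  have e : ∑ y, wgt φ k y * (U (y ∘ app (up φ i (fo c))) *
      U (y ∘ app (up (up φ i (tt c)) i (fo c)))) = ∑ y, a y * a (y ∘ sT i c) +
      ∑ y, a y * a (y ∘ sT i c) * (∏ e ∈ X, k (y e.1 - y e.2) - 1) := by
    rw [← sum_add_distrib]
    refine sum_congr rfl fun y _ => ?_
    rw [hb, hw, ha]
    ring
  have e2 : km ^ (3 * cE j) = km ^ cE j * km ^ (2 * cE j) := by ring
  rw [e, e2]
  have := (abs_le.1 h3).1
  linarith

theorem case_good {φ : Phi j} {i : Fin j} (h : good (φ i)) (c : Fin 3) {km : ℝ} (hkm : 1 ≤ km)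
    {k : ZMod p → ℝ} (hk0 : ∀ d, 0 ≤ k d ∧ k d ≤ km) (U : (Site j → ZMod p) → ℝ) :
    (∑ y, wgt φ k y * (U (y ∘ app (up φ i (fo c))) *
        U (y ∘ app (up (up φ i (tt c)) i (fo c))))) ^ 2 ≤
      (km ^ cE j * Nn k U (up φ i (fo c))) * (km ^ cE j * Nn k U (up (up φ i (tt c)) i (fo c))) := by
  have b : ∀ ψ, edges ψ ⊆ edges φ →
      ∑ y, wgt φ k y * U (y ∘ app ψ) ^ 2 ≤ km ^ cE j * Nn k U ψ := by
    intro ψ hψ
    rw [Nn, mul_sum]
    refine sum_le_sum fun y _ => ?_
    rw [← mul_assoc]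
    exact mul_le_mul_of_nonneg_right (prod_le_of_subset hψ (card_edges_le φ) hkm
      (f := fun e => k (y e.1 - y e.2)) (fun _ => hk0 _)) (sq_nonneg _)
  have n : ∀ (ψ : Phi j) y, 0 ≤ wgt φ k y * U (y ∘ app ψ) ^ 2 :=
    fun ψ y => mul_nonneg (wgt_bound φ k km hkm hk0 y).1 (sq_nonneg _)
  refine (Finset.sum_sq_le_sum_mul_sum_of_sq_le_mul univ (fun y _ => n (up φ i (fo c)) y)
    (fun y _ => n (up (up φ i (tt c)) i (fo c)) y) (fun y _ => le_of_eq (by ring))).trans ?_
  have b1 := b _ (edges_up (ne_id (good_fo' h c)))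
  refine mul_le_mul b1 (b _ ?_) (sum_nonneg fun y _ => n _ y)
    ((sum_nonneg fun y _ => n _ y).trans b1)
  exact (edges_up (by simpa [up] using ne_id (good_fo' (good_tt h c) c))).trans
    (edges_up (ne_id (good_tt h c)))

end LocRP

open LocRP in
/-- Reflection positivity of the unnormalized local weight. -/
theorem rp_mix (j km : ℕ) (hkm : 1 ≤ km) {p : ℕ} [NeZero p] (ρ : ℝ) (hρ : 0 < ρ)
    (k : ZMod p → ℝ) (hk0 : ∀ d, 0 ≤ k d ∧ k d ≤ km) (hk : OpB k ρ) :
    RP (mix (mass j km ρ) k) := by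
  intro i c
  refine ⟨inv_mix km ρ k i c, fun U => ?_⟩
  have hkm' : (1 : ℝ) ≤ km := by exact_mod_cast hkm
  have hM : (1 : ℝ) ≤ cM j := one_le_pow₀ (by norm_num)
  have hK : (1 : ℝ) ≤ cK j km :=
    one_le_pow₀ (one_le_mul_of_one_le_of_one_le (by linarith) (one_le_pow₀ hkm'))
  have hL : 0 ≤ cL j km * ρ := by unfold cL; positivity
  have hm : ∀ φ, 0 ≤ mass j km ρ φ := fun φ => prod_nonneg fun _ _ => mu_nonneg hL (by linarith) _
  have hN : ∀ ψ : Phi j, 0 ≤ Nn k U ψ := fun ψ => sum_nonneg fun y _ =>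
    mul_nonneg (wgt_bound ψ k km hkm' hk0 y).1 (sq_nonneg _)
  set S : Phi j → ℝ := fun φ => ∑ y, wgt φ k y * (U (y ∘ app (up φ i (fo c))) *
    U (y ∘ app (up (up φ i (tt c)) i (fo c)))) with hS
  have e : ∑ x, mix (mass j km ρ) k x * (U (x ∘ sF i c) * U (x ∘ sT i c ∘ sF i c)) =
      (∑ φ, mass j km ρ φ * S φ) / (p : ℝ) ^ (6 ^ j) := by
    simp only [mix, sum_mul, mul_assoc]
    rw [sum_comm, sum_div]
    refine sum_congr rfl fun φ _ => ?_
    rw [← mul_sum, sum_strat, mul_div_assoc, hS]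
    simp only [app_up]
    rfl
  rw [e]
  refine div_nonneg ?_ (by positivity)
  set G : Phi j → ℝ := fun φ => if up φ i (fo c) = φ then mass j km ρ φ * Nn k U φ else 0 with hG
  have hG0 : ∀ φ, 0 ≤ G φ := fun φ => by
    rw [hG]; beta_reduce; split_ifs
    exacts [mul_nonneg (hm _) (hN _), le_rfl]
  have hSy : 0 ≤ ∑ φ, G φ := sum_nonneg fun φ _ => hG0 φ
  have hle : ∀ φ, mass j km ρ (up φ i (fo c)) * Nn k U (up φ i (fo c)) ≤ ∑ φ, G φ := by
    intro φ
    refine le_trans (le_of_eq ?_) (single_le_sum (fun φ _ => hG0 φ) (mem_univ (up φ i (fo c))))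
    rw [hG]; beta_reduce
    rw [if_pos]
    rw [up_up, up]
    congr 1
    funext x; simp only [Function.comp, fo_fo]
  have main : ∀ φ, G φ - (∑ φ, G φ) / (2 * cM j) ≤ mass j km ρ φ * S φ := by
    intro φ
    have hq : 0 ≤ (∑ φ, G φ) / (2 * cM j) := by positivity
    by_cases hs : ∀ x, φ i (tt c x) = φ i x
    · have e1 : up φ i (tt c) = φ := by
        rw [up, show φ i ∘ tt c = φ i from funext hs, Function.update_eq_self]
      have e2 : up φ i (fo c) = φ := by
        rw [up, show φ i ∘ fo c = φ i from funext fun x => by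
          simp only [Function.comp, fo]; split_ifs <;> simp only [hs], Function.update_eq_self]
      have e3 : G φ = mass j km ρ φ * S φ := by
        rw [hG, hS]; beta_reduce
        rw [if_pos e2, e1, e2, Nn]
        simp only [sq]
      linarith
    have e0 : G φ = 0 := by
      rw [hG]; beta_reduce
      refine if_neg fun h => hs fun x => ?_
      have h' : φ i ∘ fo c = φ i := by simpa [up] using congrFun h i
      rw [← h']; simp only [Function.comp, fo_tt]
    rw [e0, zero_sub, neg_le, le_div_iff₀ (by positivity)]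
    set R := ∏ l ∈ univ.erase i, mu (cL j km * ρ) (cK j km) (φ l) with hR
    have hR0 : 0 ≤ R := prod_nonneg fun _ _ => mu_nonneg hL (by linarith) _
    by_cases hid : φ i = id
    · have h1 := case_id hid c hkm' hρ.le hk0 hk U
      have h2 := hle φ
      have e1 : mass j km ρ φ = R := by rw [mass_eq km ρ φ i, hid, mu, if_pos rfl, one_mul]
      have h3 : cL j km * ρ * R ≤ mass j km ρ (up φ i (fo c)) := by
        rw [up, mass_update, hid, Function.id_comp, mu_good _ _ (good_fo c)]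
        exact mul_le_mul_of_nonneg_right (le_mul_of_one_le_right hL (one_le_pow₀ hK)) hR0
      have h4 := mul_le_mul_of_nonneg_right h3 (hN (up φ i (fo c)))
      have h5 := mul_le_mul_of_nonneg_left h1 (mul_nonneg hR0 (by positivity : 0 ≤ 2 * cM j))
      rw [e1]
      rw [cL] at h4
      simp only [hS]
      linarith
    by_cases hg : good (φ i)
    · have h1 := case_good hg c hkm' hk0 U
      have h2 := mul_le_mul (hle φ) (hle (up φ i (tt c))) (mul_nonneg (hm _) (hN _)) hSy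
      have h3 : mass j km ρ φ ^ 2 * cK j km ≤
          mass j km ρ (up φ i (fo c)) * mass j km ρ (up (up φ i (tt c)) i (fo c)) := by
        rw [up_up, up, mass_update, mass_update, mass_eq km ρ φ i, mu_good _ _ hg,
          mu_good _ _ (good_fo' hg c), mu_good _ _ (good_fo' (good_tt hg c) c), ← hR]
        have := pow_le_pow_right₀ hK (key hg c hs)
        calc _ = (cL j km * ρ * R) ^ 2 * cK j km ^ (2 * eqb (φ i) + 1) := by ring
          _ ≤ (cL j km * ρ * R) ^ 2 *
              cK j km ^ (eqb (φ i ∘ fo c) + eqb ((φ i ∘ tt c) ∘ fo c)) :=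
            mul_le_mul_of_nonneg_left this (sq_nonneg _)
          _ = _ := by ring
      have h4 := mul_le_mul_of_nonneg_right h3
        (mul_nonneg (hN (up φ i (fo c))) (hN (up (up φ i (tt c)) i (fo c))))
      have h5 := mul_le_mul_of_nonneg_left h1 (sq_nonneg (mass j km ρ φ * (2 * cM j)))
      refine le_trans (le_abs_self _) (abs_le_of_sq_le_sq ?_ hSy)
      rw [cK] at h4
      simp only [hS]
      nlinarith
    · rw [mass_eq km ρ φ i, mu, if_neg hid, if_neg hg]
      simpa using hSy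
  refine le_trans ?_ (sum_le_sum fun φ _ => main φ)
  have hc : (Fintype.card (Phi j) : ℝ) = cM j := by simp [cM]; norm_num
  rw [sum_sub_distrib, sum_const, card_univ, nsmul_eq_mul, hc]
  have : cM j * ((∑ φ, G φ) / (2 * cM j)) = (∑ φ, G φ) / 2 := by field_simp
  linarith

end Vale.Agent.P042
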