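import Vale.Agent.P042.Four

open Finset Polynomial

namespace Vale.Agent.P042

namespace Pair

variable {W : Type} [Fintype W] [DecidableEq W] {p : ℕ} [Fact p.Prime]

/-- the law of the difference of two coordinates, times `p` -/
noncomputable def kt (T : (W → ZMod p) → ℝ) (u v : W) (d : ZMod p) : ℝ :=
  p * ∑ x ∈ univ.filter (fun x : W → ZMod p => x u - x v = d), T x

theorem sum_kt (T : (W → ZMod p) → ℝ) (u v : W) (hsum : ∑ x, T x = 1) :
    ∑ d, kt T u v d = p := by
  unfold kt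
  rw [← mul_sum, sum_fiberwise univ (fun x : W → ZMod p => x u - x v) T, hsum, mul_one]

theorem kt_eq (T : (W → ZMod p) → ℝ) (u v : W) (htr : ∀ x c, T (fun w => x w + c) = T x)
    (s t : ZMod p) :
    kt T u v (s - t) = (p : ℝ) ^ 2 * ∑ x, if s = x u ∧ t = x v then T x else 0 := by
  have h1 : ∀ c : ZMod p, (∑ x, if s + c = x u ∧ t + c = x v then T x else 0) =
      ∑ x, if s = x u ∧ t = x v then T x else 0 := by
    intro c
    rw [← Equiv.sum_comp (Equiv.addRight (fun _ : W => c))]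
    refine sum_congr rfl fun x _ => ?_
    have h2 : T (x + fun _ => c) = T x := htr x c
    simp only [Equiv.coe_addRight, Pi.add_apply, add_left_inj, h2]
  have h2 : ∑ x ∈ univ.filter (fun x : W → ZMod p => x u - x v = s - t), T x =
      ∑ c : ZMod p, ∑ x, if s + c = x u ∧ t + c = x v then T x else 0 := by
    rw [sum_comm, sum_filter]
    refine sum_congr rfl fun x _ => ?_
    by_cases h : x u - x v = s - t
    · rw [if_pos h, sum_eq_single (x u - s)]
      · rw [if_pos]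
        exact ⟨by ring, by linear_combination h⟩
      · intro c _ hc
        rw [if_neg]
        intro hh
        exact hc (by linear_combination hh.1)
      · simp
    · rw [if_neg h]
      symm
      refine sum_eq_zero fun c _ => if_neg fun hh => h ?_
      linear_combination hh.2 - hh.1
  unfold kt
  rw [h2, sum_congr rfl fun c _ => h1 c, sum_const, card_univ, ZMod.card, nsmul_eq_mul]
  ring

theorem kap_pair (T : (W → ZMod p) → ℝ) (u v : W) (huv : u ≠ v) (hsum : ∑ x, T x = 1)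
    (htr : ∀ x c, T (fun w => x w + c) = T x) (hs : ∀ w a, kap T {w} a = 0) (a : W → ZMod p) :
    kap T {u, v} a = kt T u v (a u - a v) - 1 := by
  have h1 := hs u a
  have h2 := hs v a
  unfold kap at h1 h2 ⊢
  simp only [prod_singleton] at h1 h2
  have h3 : ∀ x : W → ZMod p, T x * ∏ w ∈ ({u, v} : Finset W), dl (a w) (x w) =
      (p : ℝ) ^ 2 * (if a u = x u ∧ a v = x v then T x else 0) - T x * dl (a u) (x u) -
        T x * dl (a v) (x v) - T x := by
    intro x
    rw [prod_pair huv]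
    unfold dl
    by_cases e1 : a u = x u <;> by_cases e2 : a v = x v <;> simp only [e1, e2, if_true, if_false,
      and_self, and_false, false_and] <;> ring
  rw [sum_congr rfl fun x _ => h3 x, sum_sub_distrib, sum_sub_distrib, sum_sub_distrib, h1, h2,
    hsum, ← mul_sum, kt_eq T u v htr]
  ring

theorem opb_pair {Θ : Type} [Fintype Θ] (T : (W → ZMod p) → ℝ) (η : ℝ) (hη : 0 ≤ η) (u v : W)
    (huv : u ≠ v) (hT : Tame Θ T η) (K : ZMod p → ℝ)
    (hK : ∀ a, kap T {u, v} a = K (a u - a v)) (f h : ZMod p → ℝ) :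
    |∑ x, ∑ y, f x * h y * K (x - y)| ≤ η * p * (√(∑ x, f x ^ 2) * √(∑ y, h y ^ 2)) := by
  obtain ⟨ν, ψ, h1, h2, h3, -⟩ := hT.atoms {u, v} u v (by simp) (by simp) huv
  have h4 : ∀ x y, K (x - y) = ∑ θ, ν θ * (ψ θ u x * ψ θ v y) := by
    intro x y
    have e1 := hK (fun w => if w = u then x else y)
    have e2 := h2 (fun w => if w = u then x else y)
    simp only [prod_pair huv, if_true, if_neg huv.symm] at e1 e2
    rw [← e1, e2]
  have h5 : ∑ x, ∑ y, f x * h y * K (x - y) =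
      ∑ θ, ν θ * ((∑ a, ψ θ u a * f a) * ∑ a, ψ θ v a * h a) := by
    simp only [h4, mul_sum, sum_mul]
    symm
    rw [sum_comm]
    rw [sum_congr rfl fun y _ => sum_comm, sum_comm]
    refine sum_congr rfl fun x _ => sum_congr rfl fun y _ => sum_congr rfl fun θ _ => ?_
    ring
  have h6 : (∑ θ, ν θ * ((∑ a, ψ θ u a * f a) * ∑ a, ψ θ v a * h a)) ^ 2 ≤
      (∑ θ, ν θ * (∑ a, ψ θ u a * f a) ^ 2) * ∑ θ, ν θ * (∑ a, ψ θ v a * h a) ^ 2 :=
    sum_sq_le_sum_mul_sum_of_sq_le_mul univ (fun θ _ => mul_nonneg (h1 θ) (sq_nonneg _))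
      (fun θ _ => mul_nonneg (h1 θ) (sq_nonneg _)) fun θ _ => le_of_eq (by ring)
  have hf : 0 ≤ ∑ x, f x ^ 2 := sum_nonneg fun _ _ => sq_nonneg _
  have hh : 0 ≤ ∑ x, h x ^ 2 := sum_nonneg fun _ _ => sq_nonneg _
  have h7 : ∑ θ, ν θ * (∑ a, ψ θ u a * f a) ^ 2 ≤ η * p * ∑ x, f x ^ 2 := by
    have := h3 u (Or.inl rfl) f
    nlinarith [mul_nonneg hη (sq_nonneg (∑ a, f a))]
  have h8 : ∑ θ, ν θ * (∑ a, ψ θ v a * h a) ^ 2 ≤ η * p * ∑ x, h x ^ 2 := by
    have := h3 v (Or.inr rfl) h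
    nlinarith [mul_nonneg hη (sq_nonneg (∑ a, h a))]
  have hp : 0 ≤ η * p := mul_nonneg hη (Nat.cast_nonneg _)
  rw [h5]
  refine abs_le_of_sq_le_sq' ?_ (by positivity) |> abs_le.2
  refine h6.trans ((mul_le_mul h7 h8 (sum_nonneg fun θ _ => mul_nonneg (h1 θ) (sq_nonneg _))
    (mul_nonneg hp hf)).trans (le_of_eq ?_))
  rw [mul_pow, mul_pow (√_), Real.sq_sqrt hf, Real.sq_sqrt hh]
  ring

end Pair

/-- The pair marginal of the good part is the push-forward of an admissible weight. -/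
theorem pair_data {W : Type} [Fintype W] [DecidableEq W] (p : ℕ) [Fact p.Prime]
    (Θ : Type) [Fintype Θ] (Tg : (W → ZMod p) → ℝ) (η : ℝ) (hη : 0 ≤ η) (u v : W) (huv : u ≠ v)
    (hT : Tame Θ Tg η) (hpos : ∀ x, 0 ≤ Tg x) (hsum : ∑ x, Tg x = 1)
    (htr : ∀ x c, Tg (fun w => x w + c) = Tg x) (g : ℤ[X])
    (hsupp : ∀ x, Tg x ≠ 0 → kern p g (x u - x v) ≠ 0) :
    ∃ z : ZMod p → ℝ, (∀ n, 0 ≤ z n) ∧ ∑ n, z n = p ∧
      (∀ n, z n ≠ 0 → evm p (derivative g) n ≠ 0) ∧
      (∀ ξ : ZMod p, ξ ≠ 0 →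
        ‖∑ n, (z n : ℂ) * ZMod.stdAddChar (ξ * evm p g n)‖ ≤ 4 * η * p) ∧
      (∀ a, kap Tg {u, v} a = push p g z (a u - a v) - 1) ∧
      (∀ d, 0 ≤ push p g z d ∧ push p g z d ≤ p) ∧
      (∀ d, push p g z d ≠ 0 → kern p g d ≠ 0) := by
  set kt := Pair.kt Tg u v with hkt
  have hk0 : ∀ d, 0 ≤ kt d := fun d =>
    mul_nonneg (Nat.cast_nonneg _) (sum_nonneg fun x _ => hpos x)
  have hks : ∑ d, kt d = p := Pair.sum_kt Tg u v hsum
  have hkk : ∀ d, kt d ≠ 0 → kern p g d ≠ 0 := by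
    intro d hd
    obtain ⟨x, hx, hx'⟩ := exists_ne_zero_of_sum_ne_zero (right_ne_zero_of_mul hd)
    rw [← (mem_filter.1 hx).2]
    exact hsupp x hx'
  have hkap := Pair.kap_pair Tg u v huv hsum htr hT.single
  let z : ZMod p → ℝ := fun n =>
    if evm p (derivative g) n ≠ 0 then kt (evm p g n) / kern p g (evm p g n) else 0
  have hpush : ∀ d, push p g z d = kt d := by
    intro d
    have h1 : push p g z d = kern p g d * (kt d / kern p g d) := by
      unfold push
      rw [sum_congr rfl (g := fun n => if evm p (derivative g) n ≠ 0 then kt d / kern p g d else 0)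
        fun n hn => by simp only [z, (mem_filter.1 hn).2], ← sum_filter, filter_filter, sum_const,
        nsmul_eq_mul]
      rfl
    rw [h1]
    by_cases h : kt d = 0
    · simp [h]
    · field_simp [hkk d h]
  have hfib : ∀ F : ZMod p → ℂ, ∑ n, (z n : ℂ) * F (evm p g n) = ∑ d, (kt d : ℂ) * F d := by
    intro F
    rw [← sum_fiberwise univ (fun n => evm p g n)]
    refine sum_congr rfl fun d _ => ?_
    rw [← hpush d]
    unfold push
    push_cast
    rw [sum_mul]
    exact sum_congr rfl fun n hn => by rw [(mem_filter.1 hn).2]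
  refine ⟨z, fun n => ?_, ?_, fun n hn => ?_, fun ξ hξ => ?_, fun a => ?_, fun d => ?_,
    fun d hd => hkk d (hpush d ▸ hd)⟩
  · simp only [z]
    split_ifs
    · exact div_nonneg (hk0 _) (Nat.cast_nonneg _)
    · exact le_rfl
  · rw [← sum_fiberwise univ (fun n => evm p g n), ← hks]
    exact sum_congr rfl fun d _ => hpush d
  · intro h
    exact hn (if_neg (not_not.2 h))
  · have h1 := four_of_opb p (fun d => kt d - 1) (η * p) (mul_nonneg hη (Nat.cast_nonneg _))
      (Pair.opb_pair Tg η hη u v huv hT (fun d => kt d - 1) hkap) ξ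
    have h2 : ∑ d : ZMod p, ZMod.stdAddChar (ξ * d) = 0 := by
      have := AddChar.sum_mulShift ξ (ZMod.isPrimitive_stdAddChar p)
      rw [if_neg hξ] at this
      simpa [mul_comm] using this
    rw [hfib fun d => ZMod.stdAddChar (ξ * d)]
    have h3 : ∑ d, (kt d : ℂ) * ZMod.stdAddChar (ξ * d) =
        ∑ d, ((kt d - 1 : ℝ) : ℂ) * ZMod.stdAddChar (ξ * d) := by
      push_cast
      simp only [sub_mul, one_mul, sum_sub_distrib, h2, sub_zero]
    rw [h3, mul_assoc]
    exact h1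
  · rw [hpush]
    exact hkap a
  · rw [hpush]
    refine ⟨hk0 d, ?_⟩
    rw [← hks]
    exact single_le_sum (fun d _ => hk0 d) (mem_univ d)

end Vale.Agent.P042
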