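import Vale.Agent.P042.CSum
import Vale.Agent.P042.Loc
import Vale.Agent.P042.Pair

open Finset Polynomial

namespace Vale.Agent.P042

noncomputable section

def kp (k : ℕ) : ℝ := 1 / 2 ^ k

def u0 (j : ℕ) : Site j := fun _ => 0

def v0 (j : ℕ) : Site j := fun _ => 2

theorem u0_ne_v0 {j : ℕ} (hj : 1 ≤ j) : u0 j ≠ v0 j := by
  intro h
  have := congrFun h ⟨0, hj⟩
  simp [u0, v0] at this

theorem jj_pos (k : ℕ) : 1 ≤ jj k := by unfold jj; omega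

theorem card_site (j : ℕ) : Fintype.card (Site j) = 6 ^ j := by simp

theorem kp_pos (k : ℕ) : 0 < kp k := by unfold kp; positivity

theorem kp_le_half (k : ℕ) (hk : 1 ≤ k) : kp k ≤ 1 / 2 := by
  unfold kp
  apply one_div_le_one_div_of_le (by norm_num)
  calc (2 : ℝ) = 2 ^ 1 := by norm_num
    _ ≤ 2 ^ k := pow_le_pow_right₀ (by norm_num) hk

theorem kp_two (k : ℕ) (hk : 1 ≤ k) : (1 / 2 ^ (k - 1) : ℝ) = 2 * kp k := by
  obtain ⟨n, rfl⟩ : ∃ n, k = n + 1 := ⟨k - 1, by omega⟩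
  unfold kp
  simp only [Nat.add_sub_cancel, pow_succ]
  field_simp

/-- all the data attached to one large prime -/
structure PD (k p : ℕ) [Fact p.Prime] (g : ℤ[X]) (Cb : ℝ)
    (Tg Th : (Site (jj k) → ZMod p) → ℝ) (ζ β η : ℝ) (z : ZMod p → ℝ) : Prop where
  ok : LocOK (kern p g) (Tloc (jj k) k (rho k p) (kern p g)) Tg Th ζ β η
  eta : (Fintype.card (Site (jj k)) : ℝ) ^ 2 * 4 ^ Fintype.card (Site (jj k)) *
    (p : ℝ) ^ kp k * η ≤ 1
  beta : β * p ≤ Cb * ((p : ℝ) ^ 2)⁻¹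
  wt : Wt p g (kp k) z
  pair : ∀ a, kap Tg {u0 (jj k), v0 (jj k)} a = push p g z (a (u0 (jj k)) - a (v0 (jj k))) - 1
  pb : ∀ d, 0 ≤ push p g z d ∧ push p g z d ≤ p
  ps : ∀ d, push p g z d ≠ 0 → kern p g d ≠ 0

theorem num_facts (Cl E k t p : ℝ) (hCl : 1 ≤ Cl) (hE : 1 ≤ E) (hk : 1 ≤ k) (ht : 0 < t)
    (hp : 0 < p) (h : 36 * Cl * E * k * t ≤ 1) (hpt : 1 ≤ p * t * t) :
    Cl * (3 * t ^ 2) ≤ 1 ∧ 3 * (Cl * E) * t ≤ 1 ∧ 4 * (Cl * (3 * t ^ 2)) * p ≤ p * t / 3 ∧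
      p * (2 * t ^ 2) ≤ p * t / 3 ∧ k ≤ p * t / 3 := by
  have hClE : 1 ≤ Cl * E := one_le_mul_of_one_le_of_one_le hCl hE
  have hA1 : 36 * (Cl * E) * t ≤ 1 := by
    have : 36 * (Cl * E) * t * 1 ≤ 36 * (Cl * E) * t * k :=
      mul_le_mul_of_nonneg_left hk (by positivity)
    linarith
  have hA2 : 36 * Cl * t ≤ 1 := by
    have : 36 * Cl * t * 1 ≤ 36 * Cl * t * E := mul_le_mul_of_nonneg_left hE (by positivity)
    linarith
  have hA3 : 36 * t ≤ 1 := by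
    have : 36 * t * 1 ≤ 36 * t * Cl := mul_le_mul_of_nonneg_left hCl (by positivity)
    linarith
  have hA4 : 36 * k * t ≤ 1 := by
    have : 36 * k * t * 1 ≤ 36 * k * t * (Cl * E) := mul_le_mul_of_nonneg_left hClE (by positivity)
    linarith
  have hpt0 : 0 < p * t := mul_pos hp ht
  refine ⟨?_, by linarith [mul_pos (by positivity : 0 < Cl * E) ht], ?_, ?_, ?_⟩
  · have := mul_le_mul_of_nonneg_right hA2 ht.le
    linarith
  · have := mul_le_mul_of_nonneg_right hA2 hpt0.le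
    linarith
  · have := mul_le_mul_of_nonneg_right hA3 hpt0.le
    linarith
  · have h1 := mul_le_mul_of_nonneg_right hA4 hpt0.le
    have h2 := mul_le_mul_of_nonneg_left hpt (by linarith : 0 ≤ k)
    linarith

theorem rpow_facts (k p : ℕ) (hk : 2 ≤ k) (hp1 : 1 ≤ p) (D : ℝ) (hD0 : 0 < D)
    (hp2' : D ^ (2 ^ k : ℕ) ≤ p) (t : ℝ) (ht : t = (p : ℝ) ^ (-kp k)) :
    0 < t ∧ (p : ℝ) ^ kp k * t = 1 ∧ D * t ≤ 1 ∧ (p : ℝ) ^ (-(1 / 2 ^ (k - 1) : ℝ)) = t ^ 2 ∧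
      1 ≤ (p : ℝ) * t * t ∧ (t ^ 2) ^ (jj k - 1) = ((p : ℝ) ^ 3)⁻¹ := by
  have hp1' : (1 : ℝ) ≤ p := by exact_mod_cast hp1
  have hp0 : (0 : ℝ) < p := by linarith
  have ht0 : 0 < t := ht ▸ Real.rpow_pos_of_pos hp0 _
  have hpt : (p : ℝ) ^ kp k * t = 1 := by
    rw [ht, ← Real.rpow_add hp0]; simp
  have hDp : D ≤ (p : ℝ) ^ kp k := by
    have h1 : (D ^ (2 ^ k : ℕ)) ^ kp k ≤ (p : ℝ) ^ kp k :=
      Real.rpow_le_rpow (by positivity) hp2' (kp_pos k).le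
    rwa [← Real.rpow_natCast, ← Real.rpow_mul hD0.le,
      show ((2 ^ k : ℕ) : ℝ) * kp k = 1 by unfold kp; push_cast; field_simp, Real.rpow_one] at h1
  refine ⟨ht0, hpt, ?_, ?_, ?_, ?_⟩
  · rw [← hpt]; exact mul_le_mul_of_nonneg_right hDp ht0.le
  · rw [kp_two k (by omega), ht, ← Real.rpow_natCast, ← Real.rpow_mul hp0.le]
    congr 1; push_cast; ring
  · have h1 : (p : ℝ) ^ kp k * (p : ℝ) ^ kp k ≤ p := by
      rw [← Real.rpow_add hp0]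
      calc (p : ℝ) ^ (kp k + kp k) ≤ (p : ℝ) ^ (1 : ℝ) :=
            Real.rpow_le_rpow_of_exponent_le hp1' (by linarith [kp_le_half k (by omega)])
        _ = p := Real.rpow_one _
    have h2 := mul_le_mul_of_nonneg_right h1 (mul_pos ht0 ht0).le
    have h3 : (p : ℝ) ^ kp k * (p : ℝ) ^ kp k * (t * t) =
        ((p : ℝ) ^ kp k * t) * ((p : ℝ) ^ kp k * t) := by ring
    rw [h3, hpt] at h2
    linarith
  · rw [← pow_mul, ht, ← Real.rpow_natCast, ← Real.rpow_mul hp0.le, ← Real.rpow_natCast,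
      ← Real.rpow_neg hp0.le]
    congr 1
    obtain ⟨n, rfl⟩ : ∃ n, k = n + 1 := ⟨k - 1, by omega⟩
    unfold kp jj
    simp only [Nat.add_sub_cancel, pow_succ]
    push_cast
    field_simp

theorem prime_data (k : ℕ) (hk : 2 ≤ k) : ∃ (p1 : ℕ) (Cb : ℝ), 0 ≤ Cb ∧
    ∀ (p : ℕ) [Fact p.Prime], p1 < p → ∀ g : ℤ[X], g.natDegree ≤ k → NC g p →
    ∃ Tg Th ζ β η z, PD k p g Cb Tg Th ζ β η z := by
  obtain ⟨Cl, hCl, hloc⟩ := local_ok (jj k) k (jj_pos k) (by omega)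
  set N : ℕ := Fintype.card (Site (jj k)) with hN
  have hN1 : (1 : ℝ) ≤ N := by
    rw [hN, card_site]; exact_mod_cast Nat.one_le_pow _ _ (by norm_num)
  have hk1 : (1 : ℝ) ≤ k := by exact_mod_cast (by omega : 1 ≤ k)
  set E : ℝ := (N : ℝ) ^ 2 * 4 ^ N with hE
  have hE1 : 1 ≤ E := one_le_mul_of_one_le_of_one_le (one_le_pow₀ hN1) (one_le_pow₀ (by norm_num))
  set D : ℝ := 36 * Cl * E * k with hD
  have hD0 : 0 < D := by positivity
  obtain ⟨p2, hp2⟩ := exists_nat_ge (D ^ (2 ^ k : ℕ))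
  refine ⟨max p2 (k ^ 2), (3 * Cl) ^ (jj k - 1), by positivity, ?_⟩
  intro p _ hp g hdeg hnc
  have hpp : p.Prime := Fact.out
  have hp0 : (0 : ℝ) < p := by exact_mod_cast hpp.pos
  have hpk : k ^ 2 < p := lt_of_le_of_lt (le_max_right _ _) hp
  have hp2' : D ^ (2 ^ k : ℕ) ≤ p :=
    hp2.trans (by exact_mod_cast (le_of_lt (lt_of_le_of_lt (le_max_left _ _) hp)))
  obtain ⟨t, ht⟩ : ∃ t, t = (p : ℝ) ^ (-kp k) := ⟨_, rfl⟩
  obtain ⟨ht0, hpt, hDt, ht2, hptk, ht3⟩ := rpow_facts k p hk hpp.one_lt.le D hD0 hp2' t ht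
  have hrho : rho k p = 3 * t ^ 2 := by unfold rho; rw [ht2]
  obtain ⟨n1, n2, n3, n4, n5⟩ := num_facts Cl E k t p hCl hE1 hk1 ht0 hp0 hDt hptk
  obtain ⟨hk0, hop, hsing, hcomp⟩ := kern_facts k p hk hpk g hdeg hnc
  have hrho0 : 0 < rho k p := by rw [hrho]; positivity
  have hCr : Cl * rho k p ≤ 1 := by rw [hrho]; exact n1
  obtain ⟨Tg, Th, ζ, β, hok⟩ := hloc p (rho k p) hrho0 hCr (kern p g) hk0 hop
  obtain ⟨z, hz0, hz1, hz2, hz3, hz4, hz5, hz6⟩ := pair_data p _ Tg (Cl * rho k p)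
    (by positivity) (u0 (jj k)) (v0 (jj k)) (u0_ne_v0 (jj_pos k)) hok.tameG hok.gpos hok.gsum
    hok.gtr g hok.gsupp
  refine ⟨Tg, Th, ζ, β, Cl * rho k p, z, hok, ?_, ?_, ⟨hz0, hz1, hz2, ?_, ?_, ?_⟩, hz4, hz5, hz6⟩
  · rw [← hN, ← hE, hrho]
    calc E * (p : ℝ) ^ kp k * (Cl * (3 * t ^ 2)) = 3 * (Cl * E) * t * ((p : ℝ) ^ kp k * t) := by
          ring
      _ ≤ 1 := by rw [hpt, mul_one]; exact n2
  · have h1 : (Cl * rho k p) ^ (jj k - 1) = (3 * Cl) ^ (jj k - 1) * ((p : ℝ) ^ 3)⁻¹ := by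
      rw [hrho, show Cl * (3 * t ^ 2) = (3 * Cl) * t ^ 2 by ring, mul_pow, ht3]
    have h2 := hok.beta1
    rw [h1] at h2
    calc β * p ≤ (3 * Cl) ^ (jj k - 1) * ((p : ℝ) ^ 3)⁻¹ * p :=
          mul_le_mul_of_nonneg_right h2 hp0.le
      _ = (3 * Cl) ^ (jj k - 1) * ((p : ℝ) ^ 2)⁻¹ := by field_simp
  · intro ξ hξ
    refine (hz3 ξ hξ).trans ?_
    rw [hrho, ← ht]
    exact n3
  · intro ξ hξ
    refine (hcomp ξ hξ).trans ?_
    rw [ht2, ← ht]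
    exact n4
  · have h1 : ((univ.filter fun n : ZMod p => evm p (derivative g) n = 0).card : ℝ) ≤ k := by
      exact_mod_cast hsing
    refine h1.trans ?_
    rw [← ht]
    exact n5

/-- sums over nonempty subsets -/
theorem sum_nonempty_le {ι : Type} [Fintype ι] [DecidableEq ι] (x : ι → ℝ) (hx : ∀ i, 0 ≤ x i)
    (σ : ℝ) (hσ : ∑ i, x i ≤ σ) (h1 : σ ≤ 1) :
    ∑ B ∈ univ.filter (fun B : Finset ι => B.Nonempty), ∏ i ∈ B, x i ≤ 2 * σ := by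
  have h2 : ∏ i, (1 + x i) = ∑ B ∈ (univ : Finset ι).powerset, ∏ i ∈ B, x i :=
    Finset.prod_one_add _
  have h3 : ∑ B ∈ (univ : Finset ι).powerset, ∏ i ∈ B, x i =
      1 + ∑ B ∈ univ.filter (fun B : Finset ι => B.Nonempty), ∏ i ∈ B, x i := by
    rw [powerset_univ, ← Finset.sum_filter_add_sum_filter_not univ
      (fun B : Finset ι => B.Nonempty), add_comm]
    congr 1
    have : univ.filter (fun B : Finset ι => ¬ B.Nonempty) = {∅} := by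
      ext B; simp
    rw [this]; simp
  have h4 : ∏ i, (1 + x i) ≤ Real.exp (∑ i, x i) := by
    rw [Real.exp_sum]
    apply Finset.prod_le_prod
    · intro i _; linarith [hx i]
    · intro i _; linarith [Real.add_one_le_exp (x i)]
  have h5 : 0 ≤ ∑ i, x i := Finset.sum_nonneg fun i _ => hx i
  have h6 := Real.abs_exp_sub_one_le (x := ∑ i, x i) (by rw [abs_of_nonneg h5]; linarith)
  rw [abs_of_nonneg h5] at h6
  have h7 := le_abs_self (Real.exp (∑ i, x i) - 1)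
  linarith

theorem sum_inv_sq_le {ι : Type} [Fintype ι] [DecidableEq ι] (P : ι → ℕ)
    (hP : Function.Injective P) (p0 : ℕ) (h0 : 1 ≤ p0) (hp : ∀ i, p0 < P i) :
    ∑ i, ((P i : ℝ) ^ 2)⁻¹ ≤ (p0 : ℝ)⁻¹ := by
  set n := p0 + ∑ i, P i with hn
  have h1 : ∑ i, ((P i : ℝ) ^ 2)⁻¹ = ∑ q ∈ univ.image P, ((q : ℝ) ^ 2)⁻¹ := by
    rw [Finset.sum_image (fun a _ b _ h => hP h)]
  have h2 : univ.image P ⊆ Ioc p0 n := by
    intro q hq
    obtain ⟨i, -, rfl⟩ := mem_image.1 hq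
    have := Finset.single_le_sum (f := P) (fun i _ => Nat.zero_le _) (mem_univ i)
    exact mem_Ioc.2 ⟨hp i, by omega⟩
  have h3 := sum_Ioc_inv_sq_le_sub (α := ℝ) (k := p0) (n := n) (by omega) (by omega)
  have h4 : (0 : ℝ) ≤ (n : ℝ)⁻¹ := by positivity
  rw [h1]
  refine (Finset.sum_le_sum_of_subset_of_nonneg h2 (fun _ _ _ => by positivity)).trans ?_
  linarith

end

end Vale.Agent.P042
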