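import Vale.Agent.P042.MainA
import Vale.Agent.P042.Poly
import Vale.Agent.P042.Child

open Finset Polynomial

namespace Vale.Agent.P042

noncomputable section

/-- a state of the iteration -/
structure St (k : ℕ) (g : ℤ[X]) (f : ℕ → ℝ) : Prop where
  deg : g.natDegree = k
  lead : 0 < g.leadingCoeff
  prim : g.IsPrimitive
  inters : Inters g
  f0 : ∀ x, 0 ≤ f x
  f1 : ∀ x, f x ≤ 1
  avoid : ∀ x y : ℕ, f x ≠ 0 → f y ≠ 0 → ∀ n : ℕ, 1 ≤ n → (x : ℤ) - y = g.eval (n : ℤ) → x = y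

def TT {ι : Type} (k : ℕ) (P : ι → ℕ) [∀ i, Fact (P i).Prime] (g : ℤ[X]) :
    ∀ i, (Site (jj k) → ZMod (P i)) → ℝ :=
  fun i => Tloc (jj k) k (rho k (P i)) (kern (P i) g)

def ZZ {ι : Type} [Fintype ι] [DecidableEq ι] (k : ℕ) (P : ι → ℕ) [∀ i, Fact (P i).Prime]
    (g : ℤ[X]) (Q L : ℕ) (f : ℕ → ℝ) : ℝ :=
  form (TT k P g) (fun _ => lift P (fam P Q) L f)

def res (R : Finset ℕ) (f : ℕ → ℝ) : ℕ → ℝ := fun x => if x ∈ R then f x else 0

theorem St.abs_le {k : ℕ} {g : ℤ[X]} {f : ℕ → ℝ} (h : St k g f) (x : ℕ) : |f x| ≤ 1 := by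
  rw [abs_of_nonneg (h.f0 x)]; exact h.f1 x

theorem St.res_le {k : ℕ} {g : ℤ[X]} {f : ℕ → ℝ} (h : St k g f) (R : Finset ℕ) (x : ℕ) :
    |res R f x| ≤ 1 := by
  unfold res; split_ifs
  · exact h.abs_le x
  · simp

theorem St.child {k : ℕ} {g g' : ℤ[X]} {f : ℕ → ℝ} (h : St k g f) (s lam m : ℕ) (hm : 1 ≤ m)
    (hc : C (lam : ℤ) * g' = g.comp (C (s : ℤ) + C (m : ℤ) * X)) (hlam : 1 ≤ lam)
    (h1 : g'.natDegree = k) (h2 : 0 < g'.leadingCoeff) (h3 : g'.IsPrimitive) (h4 : Inters g')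
    (x0 : ℕ) : St k g' (fun x => f (x0 + lam * x)) := by
  refine ⟨h1, h2, h3, h4, fun x => h.f0 _, fun x => h.f1 _, ?_⟩
  intro x y hx hy n hn hxy
  have h5 := congrArg (Polynomial.eval (n : ℤ)) hc
  simp only [eval_mul, eval_C, eval_comp, eval_add, eval_X] at h5
  have h6 := h.avoid _ _ hx hy (s + m * n) (by nlinarith) (by
    push_cast
    rw [← h5, ← hxy]; ring)
  have h7 : lam * x = lam * y := by omega
  exact Nat.eq_of_mul_eq_mul_left hlam h7

/-- closed under cells modulo `M` -/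
def Cl (L M : ℕ) (R : Finset ℕ) : Prop :=
  R ⊆ range L ∧ ∀ x y, x < L → y < L → (2 * x < L ↔ 2 * y < L) → x ≡ y [MOD M] → x ∈ R → y ∈ R

theorem Cl.mono {L M M' : ℕ} {R : Finset ℕ} (h : Cl L M R) (hM : M ∣ M') : Cl L M' R :=
  ⟨h.1, fun x y hx hy h1 h2 => h.2 x y hx hy h1 (h2.of_dvd hM)⟩

theorem Cl.compl {L M : ℕ} {R : Finset ℕ} (h : Cl L M R) : Cl L M (range L \ R) := by
  refine ⟨sdiff_subset, fun x y hx hy h1 h2 h3 => ?_⟩
  rw [mem_sdiff] at h3 ⊢
  exact ⟨mem_range.2 hy, fun h4 => h3.2 (h.2 y x hy hx h1.symm h2.symm h4)⟩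

theorem Cl.range (L M : ℕ) : Cl L M (range L) :=
  ⟨Subset.refl _, fun _ _ _ hy _ _ _ => mem_range.2 hy⟩

section
variable {ι : Type} [Fintype ι] [DecidableEq ι] (P : ι → ℕ) [∀ i, Fact (P i).Prime]

theorem child_bound (k : ℕ) (hk : 1 ≤ k) (hP : Function.Injective P)
    (hnice : ∀ g : ℤ[X], g.natDegree = k → g.IsPrimitive → Inters g → ∀ i, Nice (TT k P g i))
    (W2 : ℕ) (hW2 : 1 ≤ W2) (hPW : ∀ i, ¬ P i ∣ W2) (g : ℤ[X]) (f : ℕ → ℝ) (hst : St k g f)
    (B : Finset ι) (Q L : ℕ) (hL : 8 * (W2 * mm P B) ^ k ≤ L) (Zm : ℝ)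
    (hZ : ∀ (g' : ℤ[X]) (f' : ℕ → ℝ) (L' : ℕ), St k g' f' →
      ht g' ≤ ht g * (2 * ((W2 * mm P B : ℕ) : ℤ)) ^ k → L ≤ 4 * (W2 * mm P B) ^ k * L' →
      ZZ k P g' Q L' f' ≤ Zm)
    (R : Site (jj k) → Finset ℕ) (hR : ∀ w, Cl L (W2 * mm P B) (R w)) :
    |form (TT k P g) (fun w => lift P (famB P B Q) L (res (R w) f))| ≤
      Zm * ∏ w, (((R w).card : ℝ) / L) := by
  have hm : 1 ≤ W2 * mm P B := Nat.mul_pos hW2 (mm_pos P B)
  obtain ⟨s, lam, g', -, hml, hlm, hc, h1, h2, h3, h4, h5⟩ :=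
    step k hk g hst.deg hst.lead hst.prim hst.inters (W2 * mm P B) hm
  have hmk : 0 < (W2 * mm P B) ^ k := pow_pos hm k
  have hlam : 1 ≤ lam := Nat.pos_of_dvd_of_pos hlm hmk
  have hlam2 : lam ≤ (W2 * mm P B) ^ k := Nat.le_of_dvd hmk hlm
  have hnm : ∀ i ∉ B, ¬ P i ∣ W2 * mm P B := by
    intro i hi hd
    rcases (Nat.Prime.dvd_mul (Fact.out : (P i).Prime)).1 hd with h | h
    · exact hPW i h
    · exact hi ((dvd_mm_iff P hP B i).1 h)
  have hnl : ∀ i ∉ B, ¬ P i ∣ lam := fun i hi hd =>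
    hnm i hi ((Fact.out : (P i).Prime).dvd_of_dvd_pow (hd.trans hlm))
  refine children P (jj_pos k) (TT k P g) (TT k P g') (hnice g hst.deg hst.prim hst.inters)
    (hnice g' h1 h3 h4) B lam hlam hnl ?_ Q L (by omega) f Zm ?_ R (fun w => (hR w).1)
    (fun w => ((hR w).mono hml).2)
  · intro i hi c x
    have hl0 : (lam : ZMod (P i)) ≠ 0 := by
      rw [Ne, ZMod.natCast_eq_zero_iff]; exact hnl i hi
    have hker : kern (P i) g' = fun d => kern (P i) g ((lam : ZMod (P i)) * d) := by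
      funext d
      have := kern_affine (P i) g g' lam s ((W2 * mm P B : ℕ) : ℤ) hc
        (by rw [Int.natCast_dvd_natCast]; exact hnl i hi)
        (by rw [Int.natCast_dvd_natCast]; exact hnm i hi) d
      rwa [Int.cast_natCast] at this
    unfold TT
    rw [hker]
    exact tloc_affine _ _ _ _ c _ hl0 x
  · intro x0 L' hL'
    refine hZ g' _ L' (hst.child s lam _ hm hc hlam h1 h2 h3 h4 x0) h5 ?_
    calc L ≤ 4 * lam * L' := hL'
      _ ≤ 4 * (W2 * mm P B) ^ k * L' := by gcongr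

theorem famB_empty (Q : ℕ) : famB P ∅ Q = fam P Q := by
  unfold famB fam; simp

omit [∀ i, Fact (P i).Prime] [Fintype ι] in
theorem lift_res_range (A : Finset (Finset ι)) (L : ℕ) (f : ℕ → ℝ) :
    lift P A L (res (range L) f) = lift P A L f := by
  funext ω
  unfold lift res
  congr 1
  refine Finset.sum_congr rfl fun x hx => ?_
  rw [if_pos hx]

omit [∀ i, Fact (P i).Prime] [Fintype ι] in
theorem lift_split (A : Finset (Finset ι)) (L : ℕ) (f : ℕ → ℝ) (R : Finset ℕ) :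
    lift P A L (res (range L) f) =
      fun ω => lift P A L (res R f) ω + lift P A L (res (range L \ R) f) ω := by
  funext ω
  unfold lift res
  rw [← add_div, ← Finset.sum_add_distrib]
  congr 1
  refine Finset.sum_congr rfl fun x hx => ?_
  by_cases h : x ∈ R <;> simp [h, mem_range.1 hx]

end

/-! ### Counting in residue classes -/

theorem cnt_hi (S : Finset ℕ) (s l M : ℕ) (hM : 1 ≤ M) (hS : S ⊆ Ico s (s + l))
    (hc : ∀ x ∈ S, ∀ y ∈ S, x ≡ y [MOD M]) : M * S.card ≤ l + M := by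
  have h1 : S.card ≤ (range (l / M + 1)).card := by
    apply Finset.card_le_card_of_injOn (fun x => (x - s) / M)
    · intro x hx
      have := mem_Ico.1 (hS hx)
      simp only [coe_range, Set.mem_Iio]
      exact Nat.lt_succ_of_le (Nat.div_le_div_right (by omega))
    · intro x hx y hy hxy
      have hx' := mem_Ico.1 (hS hx)
      have hy' := mem_Ico.1 (hS hy)
      have h2 : x - s ≡ y - s [MOD M] := by
        apply Nat.ModEq.add_right_cancel' s
        rw [Nat.sub_add_cancel hx'.1, Nat.sub_add_cancel hy'.1]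
        exact hc x hx y hy
      have h3 := Nat.div_add_mod (x - s) M
      have h4 := Nat.div_add_mod (y - s) M
      simp only at hxy
      unfold Nat.ModEq at h2
      rw [hxy, h2] at h3
      omega
  rw [card_range] at h1
  calc M * S.card ≤ M * (l / M + 1) := Nat.mul_le_mul_left _ h1
    _ = M * (l / M) + M := by ring
    _ ≤ l + M := by have := Nat.mul_div_le l M; omega

theorem cnt_lo (s l M r : ℕ) (hM : 1 ≤ M) :
    l ≤ M * (((Ico s (s + l)).filter (fun x => x ≡ r [MOD M])).card + 1) := by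
  obtain ⟨a, ha, har⟩ : ∃ a, a < M ∧ s + a ≡ r [MOD M] := by
    refine ⟨(r + (M - 1) * s) % M, Nat.mod_lt _ hM, ?_⟩
    have h1 : s + (r + (M - 1) * s) % M ≡ s + (r + (M - 1) * s) [MOD M] :=
      Nat.ModEq.add_left _ (Nat.mod_modEq _ _)
    refine h1.trans ?_
    obtain ⟨n, rfl⟩ : ∃ n, M = n + 1 := ⟨M - 1, by omega⟩
    rw [Nat.add_sub_cancel, show s + (r + n * s) = r + (n + 1) * s by ring]
    unfold Nat.ModEq
    rw [Nat.add_mul_mod_self_left]
  have h1 : (range (l / M)).card ≤ ((Ico s (s + l)).filter (fun x => x ≡ r [MOD M])).card := by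
    apply Finset.card_le_card_of_injOn (fun t => s + a + M * t)
    · intro t ht
      simp only [coe_range, Set.mem_Iio] at ht
      simp only [coe_filter, mem_Ico, Set.mem_setOf_eq]
      have h2 : M * (t + 1) ≤ M * (l / M) := Nat.mul_le_mul_left _ ht
      have h3 := Nat.mul_div_le l M
      refine ⟨⟨by omega, by nlinarith⟩, ?_⟩
      refine Nat.ModEq.trans ?_ har
      unfold Nat.ModEq
      rw [Nat.add_mul_mod_self_left]
    · intro t _ t' _ h
      simp only at h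
      exact Nat.eq_of_mul_eq_mul_left hM (by omega)
  rw [card_range] at h1
  have h2 := Nat.lt_mul_div_succ l hM
  calc l ≤ M * (l / M + 1) := h2.le
    _ ≤ _ := Nat.mul_le_mul_left _ (by omega)

/-- a region: a residue class in an interval which is a union of cells and is not small -/
structure Reg (L W2 : ℕ) (R : Finset ℕ) : Prop where
  cl : Cl L W2 R
  big : L ≤ 4 * W2 * R.card
  shape : ∃ s l M, M ∣ W2 ∧ R ⊆ Ico s (s + l) ∧ (∀ x ∈ R, ∀ y ∈ R, x ≡ y [MOD M]) ∧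
    l ≤ M * (R.card + 1)

theorem reg_range (L W2 : ℕ) (hW : 1 ≤ W2) : Reg L W2 (range L) := by
  refine ⟨Cl.range _ _, ?_, 0, L, 1, one_dvd _, ?_, ?_, ?_⟩
  · rw [card_range]; nlinarith
  · intro x hx; simpa using hx
  · intro x _ y _; exact Nat.modEq_one
  · rw [card_range]; omega

def RU (L W2 e : ℕ) : Finset ℕ :=
  (Ico ((L + 1) / 2) ((L + 1) / 2 + L / 2)).filter (fun x => x ≡ e [MOD W2])

def RV (L W2 : ℕ) : Finset ℕ := (Ico 0 (0 + (L + 1) / 2)).filter (fun x => x ≡ 0 [MOD W2])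

theorem reg_RU (L W2 e : ℕ) (hW : 1 ≤ W2) (hL : 8 * W2 ≤ L) : Reg L W2 (RU L W2 e) := by
  have h1 := cnt_lo ((L + 1) / 2) (L / 2) W2 e hW
  refine ⟨⟨?_, ?_⟩, ?_, (L + 1) / 2, L / 2, W2, dvd_rfl, filter_subset _ _, ?_, h1⟩
  · intro x hx
    have := mem_Ico.1 (mem_filter.1 hx).1
    exact mem_range.2 (by omega)
  · intro x y hx hy h2 h3 h4
    unfold RU at h4 ⊢
    rw [mem_filter, mem_Ico] at h4 ⊢
    exact ⟨by omega, h3.symm.trans h4.2⟩
  · change L / 2 ≤ W2 * ((RU L W2 e).card + 1) at h1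
    rw [mul_add, mul_one] at h1
    rw [mul_assoc]
    omega
  · intro x hx y hy
    exact (mem_filter.1 hx).2.trans (mem_filter.1 hy).2.symm

theorem reg_RV (L W2 : ℕ) (hW : 1 ≤ W2) (hL : 8 * W2 ≤ L) : Reg L W2 (RV L W2) := by
  have h1 := cnt_lo 0 ((L + 1) / 2) W2 0 hW
  refine ⟨⟨?_, ?_⟩, ?_, 0, (L + 1) / 2, W2, dvd_rfl, filter_subset _ _, ?_, h1⟩
  · intro x hx
    have := mem_Ico.1 (mem_filter.1 hx).1
    exact mem_range.2 (by omega)
  · intro x y hx hy h2 h3 h4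
    unfold RV at h4 ⊢
    rw [mem_filter, mem_Ico] at h4 ⊢
    exact ⟨by omega, h3.symm.trans h4.2⟩
  · change (L + 1) / 2 ≤ W2 * ((RV L W2).card + 1) at h1
    rw [mul_add, mul_one] at h1
    rw [mul_assoc]
    omega
  · intro x hx y hy
    exact (mem_filter.1 hx).2.trans (mem_filter.1 hy).2.symm

theorem Reg.slice {L W2 : ℕ} {R : Finset ℕ} (h : Reg L W2 R) (hW : 1 ≤ W2) (m : ℕ) (hm : 1 ≤ m)
    (hco : Nat.Coprime W2 m) (hL : 8 * (W2 * m) ≤ L) (S : Finset ℕ) (hS : S ⊆ R)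
    (hc : ∀ x ∈ S, ∀ y ∈ S, x ≡ y [MOD m]) : m * S.card ≤ 2 * R.card := by
  obtain ⟨s, l, M, hMW, hsub, hcong, hl⟩ := h.shape
  have hM : 1 ≤ M := Nat.pos_of_dvd_of_pos hMW hW
  have hco' : Nat.Coprime M m := Nat.Coprime.coprime_dvd_left hMW hco
  have h1 := cnt_hi S s l (M * m) (Nat.mul_pos hM hm) (hS.trans hsub) (fun x hx y hy =>
    (Nat.modEq_and_modEq_iff_modEq_mul hco').1 ⟨hcong x (hS hx) y (hS hy), hc x hx y hy⟩)
  have h2 : M * (m * S.card) ≤ M * (R.card + 1 + m) := by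
    calc M * (m * S.card) = M * m * S.card := by ring
      _ ≤ l + M * m := h1
      _ ≤ M * (R.card + 1) + M * m := by omega
      _ = M * (R.card + 1 + m) := by ring
  have h3 := Nat.le_of_mul_le_mul_left h2 hM
  have h4 : (4 * W2) * (2 * m) ≤ (4 * W2) * R.card := by
    calc (4 * W2) * (2 * m) = 8 * (W2 * m) := by ring
      _ ≤ L := hL
      _ ≤ _ := h.big
  have h5 := Nat.le_of_mul_le_mul_left h4 (by omega)
  omega

end

end Vale.Agent.P042
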