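import Vale.Agent.P042.LocFac

open Finset Polynomial

namespace Vale.Agent.P042

namespace SmallAux

lemma exists_det (k : ℕ) : ∃ D : ℤ, D ≠ 0 ∧ ∀ f : ℤ[X], f.natDegree ≤ k → ∀ M : ℤ,
    (∀ c : ℕ, M ∣ f.eval (c : ℤ)) → ∀ j, j ≤ k → M ∣ D * f.coeff j := by
  let V := Matrix.vandermonde fun i : Fin (k + 1) => ((i : ℕ) : ℤ)
  refine ⟨V.det, Matrix.det_vandermonde_ne_zero_iff.2 fun i j h => Fin.ext (by exact_mod_cast h),
    fun f hf M hM j hj => ?_⟩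
  let a : Fin (k + 1) → ℤ := fun i => f.coeff i
  have h1 : ∀ i, V.mulVec a i = f.eval ((i : ℕ) : ℤ) := by
    intro i
    rw [eval_eq_sum_range' (Nat.lt_succ_of_le hf), sum_range]
    simp only [Matrix.mulVec, dotProduct, V, a, Matrix.vandermonde_apply]
    exact sum_congr rfl fun x _ => mul_comm _ _
  have h2 : V.adjugate.mulVec (V.mulVec a) = V.det • a := by
    rw [Matrix.mulVec_mulVec, Matrix.adjugate_mul, Matrix.smul_mulVec, Matrix.one_mulVec]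
  have h3 : V.det * f.coeff j = V.adjugate.mulVec (V.mulVec a) ⟨j, Nat.lt_succ_of_le hj⟩ := by
    rw [h2]
    rfl
  rw [h3, Matrix.mulVec, dotProduct]
  refine dvd_sum fun i _ => Dvd.dvd.mul_left ?_ _
  rw [h1]
  exact hM _

lemma exists_G0 (k : ℕ) : ∃ G0 : ℕ, ∀ g : ℤ[X], g.natDegree ≤ k → ∀ l : ℕ, l.Prime → NC g l →
    ∃ c : ℕ, ¬ (l : ℤ) ^ (G0 + 1) ∣ (derivative g).eval (c : ℤ) := by
  obtain ⟨D, hD, h⟩ := exists_det k
  refine ⟨D.natAbs * k, fun g hg l hl hnc => ?_⟩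
  obtain ⟨j, hj1, hj⟩ := hnc
  by_contra hc
  push Not at hc
  obtain ⟨i, rfl⟩ : ∃ i, j = i + 1 := ⟨j - 1, by omega⟩
  have hjk : i + 1 ≤ k := (le_natDegree_of_ne_zero fun h0 => hj (h0 ▸ dvd_zero _)).trans hg
  have h1 := h (derivative g) ((natDegree_derivative_le g).trans (by omega)) _ hc i (by omega)
  rw [coeff_derivative] at h1
  have hp : Prime (l : ℤ) := Nat.prime_iff_prime_int.1 hl
  have h2 : (l : ℤ) ^ (D.natAbs * k + 1) ∣ D * ((i : ℤ) + 1) := by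
    refine hp.pow_dvd_of_dvd_mul_left _ hj ?_
    have e : g.coeff (i + 1) * (D * ((i : ℤ) + 1)) = D * (g.coeff (i + 1) * ((i : ℤ) + 1)) := by
      ring
    rw [e]
    exact h1
  have h3 : l ^ (D.natAbs * k + 1) ∣ D.natAbs * (i + 1) := by
    have := Int.natAbs_dvd_natAbs.2 h2
    rw [Int.natAbs_pow, Int.natAbs_natCast, Int.natAbs_mul] at this
    exact this
  have h4 : l ^ (D.natAbs * k + 1) ≤ D.natAbs * (i + 1) :=
    Nat.le_of_dvd (Nat.mul_pos (Int.natAbs_pos.2 hD) (Nat.succ_pos i)) h3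
  have h5 : D.natAbs * k + 1 < l ^ (D.natAbs * k + 1) := Nat.lt_pow_self hl.one_lt
  have h6 : D.natAbs * (i + 1) ≤ D.natAbs * k := Nat.mul_le_mul_left _ hjk
  omega

lemma dvd_eval_sub (f : ℤ[X]) {n a b : ℤ} (h : n ∣ a - b) : n ∣ f.eval a - f.eval b :=
  h.trans (sub_dvd_eval_sub a b f)

lemma exists_c0 (G0 Wc : ℕ) (f : ℤ[X])
    (h : ∀ l : ℕ, l.Prime → ∃ c : ℕ, ¬ (l : ℤ) ^ (G0 + 1) ∣ f.eval (c : ℤ)) :
    ∃ c0 : ℕ, ∀ l ∈ Wc.primeFactors, ¬ (l : ℤ) ^ (G0 + 1) ∣ f.eval (c0 : ℤ) := by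
  choose! c hc using h
  obtain ⟨c0, hc0⟩ := Nat.chineseRemainderOfFinset c (fun l => l ^ (G0 + 1)) Wc.primeFactors
    (fun l hl => pow_ne_zero _ (Nat.prime_of_mem_primeFactors hl).ne_zero)
    (fun l hl l' hl' hne => Nat.Coprime.pow _ _ ((Nat.coprime_primes
      (Nat.prime_of_mem_primeFactors hl) (Nat.prime_of_mem_primeFactors hl')).2 hne))
  refine ⟨c0, fun l hl hd => hc l (Nat.prime_of_mem_primeFactors hl) ?_⟩
  have h1 : (l : ℤ) ^ (G0 + 1) ∣ (c l : ℤ) - c0 := by exact_mod_cast (hc0 l hl).dvd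
  have h2 := dvd_add (dvd_eval_sub f h1) hd
  simpa using h2

lemma comp_expand (g : ℤ[X]) (c M : ℤ) : ∃ H : ℤ[X], g.comp (C c + C M * X) =
    C (g.eval c) + C ((derivative g).eval c * M) * X + C (M ^ 2) * H := by
  obtain ⟨K, hK⟩ := binomExpansion (g.map (C : ℤ →+* ℤ[X])) (C c) (C M * X)
  rw [derivative_map, eval_map, eval_map, eval_map, eval₂_at_apply, eval₂_at_apply] at hK
  refine ⟨K * X ^ 2, ?_⟩
  rw [comp, hK, C_mul, C_pow]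
  ring

end SmallAux

open SmallAux in
/-- Linearization at the small primes and at the primes dividing `m`. -/
theorem small_sub (k : ℕ) : ∃ Γ : ℕ, ∀ Wc : ℕ, 1 ≤ Wc → ∀ g : ℤ[X], g.natDegree ≤ k →
    (∀ l : ℕ, l.Prime → NC g l) →
    ∃ e W1 : ℕ, e < Wc ^ Γ ∧ W1 ∣ Wc ^ Γ ∧
      ∀ (m : ℕ) (n0 : ℤ), 1 ≤ m → Nat.Coprime m Wc →
      (∀ l : ℕ, l.Prime → l ∣ m → ¬ (l : ℤ) ∣ (derivative g).eval n0) →
      ∃ (c : ℕ) (G : ℤ[X]), c < W1 * m ∧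
        C ((Wc ^ Γ * m : ℕ) : ℤ) * G =
          g.comp (C (c : ℤ) + C ((W1 * m : ℕ) : ℤ) * X) - C (g.eval (c : ℤ)) ∧
        ((Wc ^ Γ : ℕ) : ℤ) ∣ g.eval (c : ℤ) - e ∧ (m : ℤ) ∣ g.eval (c : ℤ) - g.eval n0 ∧
        ∀ l : ℕ, l.Prime → l ∣ Wc * m → Inj G l := by
  obtain ⟨G0, hG0⟩ := exists_G0 k
  refine ⟨2 * G0 + 1, fun Wc hWc g hg hnc => ?_⟩
  obtain ⟨c0, hc0⟩ := exists_c0 G0 Wc (derivative g) fun l hl => hG0 g hg l hl (hnc l hl)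
  obtain ⟨γ, hγ⟩ : ∃ γ : ℕ, γ = Nat.gcd ((derivative g).eval (c0 : ℤ)).natAbs (Wc ^ G0) := ⟨_, rfl⟩
  have hγ1 : (γ : ℤ) ∣ (derivative g).eval (c0 : ℤ) :=
    Int.natCast_dvd.2 (hγ ▸ Nat.gcd_dvd_left _ _)
  obtain ⟨β, hβ⟩ : γ ∣ Wc ^ G0 := hγ ▸ Nat.gcd_dvd_right _ _
  have hW0 : 0 < Wc ^ G0 := pow_pos hWc _
  have hγ0 : 0 < γ := Nat.pos_of_ne_zero fun h => by rw [h, zero_mul] at hβ; omega
  have hβ0 : 0 < β := Nat.pos_of_ne_zero fun h => by rw [h, mul_zero] at hβ; omega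
  obtain ⟨W1, hW1⟩ : ∃ W1 : ℕ, W1 = γ * (Wc * β ^ 2) := ⟨_, rfl⟩
  have hΓ : Wc ^ (2 * G0 + 1) = γ * W1 := by
    rw [pow_succ, mul_comm 2 G0, pow_mul, hβ, hW1]
    ring
  have hW10 : 0 < W1 := by
    rw [hW1]
    positivity
  have hN0 : (0 : ℤ) < ((Wc ^ (2 * G0 + 1) : ℕ) : ℤ) := by exact_mod_cast pow_pos hWc _
  have he0 := Int.emod_nonneg (g.eval (c0 : ℤ)) hN0.ne'
  have he1 := Int.emod_lt_of_pos (g.eval (c0 : ℤ)) hN0
  have hW1d : W1 ∣ Wc ^ (2 * G0 + 1) := hΓ ▸ Dvd.intro_left _ rfl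
  refine ⟨(g.eval (c0 : ℤ) % ((Wc ^ (2 * G0 + 1) : ℕ) : ℤ)).toNat, W1, by omega, hW1d,
    fun m n0 hm hcop hreg => ?_⟩
  have hco : Nat.Coprime W1 m := Nat.Coprime.coprime_dvd_left hW1d (hcop.symm.pow_left _)
  have hm0 : (0 : ℤ) < m := by exact_mod_cast hm
  obtain ⟨c, hlt, hc1, hc2⟩ : ∃ c : ℕ, c < W1 * m ∧ c ≡ c0 [MOD W1] ∧
      c ≡ (n0 % m).toNat [MOD m] :=
    ⟨_, Nat.chineseRemainder_lt_mul hco c0 (n0 % m).toNat hW10.ne' (by omega),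
      (Nat.chineseRemainder hco c0 (n0 % m).toNat).2⟩
  have d1 : (W1 : ℤ) ∣ (c : ℤ) - c0 := hc1.symm.dvd
  have d2 : (m : ℤ) ∣ (c : ℤ) - n0 := by
    have a1 := hc2.symm.dvd
    rw [Int.toNat_of_nonneg (Int.emod_nonneg _ hm0.ne')] at a1
    have a2 : (m : ℤ) ∣ n0 % m - n0 := (Int.mod_modEq n0 m).symm.dvd
    have := dvd_add a1 a2
    simpa using this
  have d3 : (W1 : ℤ) ∣ (derivative g).eval (c : ℤ) - (derivative g).eval (c0 : ℤ) :=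
    dvd_eval_sub _ d1
  have hγW : (γ : ℤ) ∣ W1 := by
    rw [hW1]
    exact_mod_cast Dvd.intro _ rfl
  obtain ⟨u, hu⟩ : (γ : ℤ) ∣ (derivative g).eval (c : ℤ) := by
    have := dvd_add (hγW.trans d3) hγ1
    simpa using this
  obtain ⟨H, hH⟩ := comp_expand g c ((W1 * m : ℕ) : ℤ)
  refine ⟨c, C 0 + C u * X + C ((Wc * β ^ 2 * m : ℕ) : ℤ) * H, hlt, ?_, ?_,
    dvd_eval_sub g d2, fun l hl hlm => inj_of_lin _ H 0 u _ l hl rfl (fun hlu => ?_) ?_⟩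
  · rw [hH, hu, hΓ, hW1]
    simp only [Nat.cast_mul, Nat.cast_pow, C_mul, C_pow, C_0]
    ring
  · rw [Int.toNat_of_nonneg he0]
    obtain ⟨t, ht⟩ := d1
    obtain ⟨K, hK⟩ := binomExpansion g (c0 : ℤ) (W1 * t)
    have a1 : (c : ℤ) = c0 + W1 * t := by linarith
    have a2 : ((Wc ^ (2 * G0 + 1) : ℕ) : ℤ) ∣ g.eval (c : ℤ) - g.eval (c0 : ℤ) := by
      obtain ⟨x, hx⟩ := hγ1
      obtain ⟨y, hy⟩ := hγW
      refine ⟨x * t + K * y * t ^ 2, ?_⟩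
      rw [a1, hK, hx, hΓ, Nat.cast_mul]
      linear_combination (K * t ^ 2 * W1) * hy
    have a3 : ((Wc ^ (2 * G0 + 1) : ℕ) : ℤ) ∣ g.eval (c0 : ℤ) -
        g.eval (c0 : ℤ) % ((Wc ^ (2 * G0 + 1) : ℕ) : ℤ) := (Int.mod_modEq _ _).dvd
    have := dvd_add a2 a3
    simpa using this
  · rcases (Nat.Prime.dvd_mul hl).1 hlm with hlW | hlm'
    · have a1 : (γ : ℤ) * l ∣ (derivative g).eval (c : ℤ) := hu ▸ mul_dvd_mul_left _ hlu
      have a2 : (γ : ℤ) * l ∣ W1 := by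
        rw [hW1]
        exact_mod_cast Nat.mul_dvd_mul_left γ (hlW.mul_right _)
      have a3 : (γ : ℤ) * l ∣ (derivative g).eval (c0 : ℤ) := by
        have := dvd_sub a1 (a2.trans d3)
        simpa using this
      have a4 : γ * l ∣ ((derivative g).eval (c0 : ℤ)).natAbs :=
        Int.natCast_dvd.1 (by exact_mod_cast a3)
      by_cases hlβ : l ∣ β
      · have a5 : γ * l ∣ γ := by
          have := Nat.dvd_gcd a4 (hβ ▸ Nat.mul_dvd_mul_left γ hlβ : γ * l ∣ Wc ^ G0)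
          rwa [← hγ] at this
        have a6 := Nat.le_of_dvd hγ0 a5
        have := hl.two_le
        nlinarith
      · have a5 : l ^ G0 ∣ γ := by
          have b1 : l ^ G0 ∣ γ * β := hβ ▸ pow_dvd_pow_of_dvd hlW G0
          exact (Nat.Coprime.pow_left G0 ((Nat.Prime.coprime_iff_not_dvd hl).2 hlβ)).dvd_of_dvd_mul_right
            b1
        refine hc0 l (Nat.mem_primeFactors.2 ⟨hl, hlW, by omega⟩) (Dvd.dvd.trans ?_ a3)
        rw [pow_succ]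
        exact mul_dvd_mul_right (by exact_mod_cast a5) _
    · refine hreg l hl hlm' ?_
      have a1 : (l : ℤ) ∣ (derivative g).eval (c : ℤ) := hu ▸ hlu.mul_left _
      have a2 : (l : ℤ) ∣ (derivative g).eval (c : ℤ) - (derivative g).eval n0 :=
        dvd_eval_sub _ ((Int.natCast_dvd_natCast.2 hlm').trans d2)
      have := dvd_sub a1 a2
      simpa using this
  · refine Int.natCast_dvd_natCast.2 (hlm.trans ⟨β ^ 2, ?_⟩)
    ring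

end Vale.Agent.P042
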