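import Vale.Agent.P042.Transfer
import Vale.Agent.P042.Small

open Finset Polynomial

namespace Vale.Agent.P042

namespace Transfer2

theorem sum_range_mul' (M n : ℕ) (F : ℕ → ℝ) :
    ∑ x ∈ range (M * n), F x = ∑ r ∈ range M, ∑ x ∈ range n, F (r + M * x) := by
  induction n with
  | zero => simp
  | succ n ih =>
    rw [Nat.mul_succ, sum_range_add, ih, ← sum_add_distrib]
    refine sum_congr rfl fun r _ => ?_
    rw [sum_range_succ, add_comm (M * n) r]

theorem sum_split (M n L : ℕ) (h : L ≤ M * n) (F : ℕ → ℝ) :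
    ∑ x ∈ range L, F x =
      ∑ r ∈ range M, ∑ x ∈ range n, if r + M * x < L then F (r + M * x) else 0 := by
  rw [← sum_range_mul' M n fun x => if x < L then F x else 0, ← sum_filter]
  refine sum_congr ?_ fun _ _ => rfl
  ext x
  simp only [mem_range, mem_filter]
  omega

section Aff

variable {p : ℕ} [Fact p.Prime] {g G : ℤ[X]} {M c w d : ℤ}

theorem evm_aff (h : C M * G = g.comp (C c + C w * X) - C d) (z : ZMod p) :
    (M : ZMod p) * evm p G z = evm p g (c + w * z) - d := by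
  have := congrArg (fun q => (q.map (Int.castRingHom (ZMod p))).eval z) h
  simpa [evm, Polynomial.map_comp, eval_comp] using this

theorem evm_aff' (h : C M * G = g.comp (C c + C w * X) - C d) (z : ZMod p) :
    (M : ZMod p) * evm p (derivative G) z = w * evm p (derivative g) (c + w * z) := by
  have h1 := congrArg derivative h
  rw [derivative_C_mul, derivative_sub, derivative_C, sub_zero, derivative_comp] at h1
  have := congrArg (fun q => (q.map (Int.castRingHom (ZMod p))).eval z) h1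
  simpa [evm, Polynomial.map_comp, eval_comp] using this

/-- the affine bijection -/
noncomputable def affE (c w : ZMod p) (hw : w ≠ 0) : ZMod p ≃ ZMod p :=
  (Equiv.mulLeft₀ w hw).trans (Equiv.addLeft c)

theorem affE_apply (c w : ZMod p) (hw : w ≠ 0) (z : ZMod p) : affE c w hw z = c + w * z := rfl

theorem push_aff (h : C M * G = g.comp (C c + C w * X) - C d) (hM : (M : ZMod p) ≠ 0)
    (hw : (w : ZMod p) ≠ 0) (v : ZMod p → ℝ) (t : ZMod p) :
    push p G (fun z => v (c + w * z)) t = push p g v (d + M * t) := by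
  simp only [push, sum_filter]
  refine Fintype.sum_equiv (affE c w hw) _ _ fun z => ?_
  rw [affE_apply]
  have h1 := evm_aff h z
  have h2 : evm p G z = t ↔ evm p g (c + w * z) = d + M * t := by
    constructor
    · intro e; rw [← e]; linear_combination -h1
    · intro e; apply mul_left_cancel₀ hM; rw [h1, e]; ring
  simp only [h2]

theorem norm_four (h : C M * G = g.comp (C c + C w * X) - C d) (hM : (M : ZMod p) ≠ 0)
    (hw : (w : ZMod p) ≠ 0) (u : ZMod p → ℂ) (ξ : ZMod p) :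
    ‖∑ n, u (c + w * n) * ZMod.stdAddChar (ξ * evm p G n)‖ =
      ‖∑ n, u n * ZMod.stdAddChar (ξ * (M : ZMod p)⁻¹ * evm p g n)‖ := by
  have e : ∑ n, u (c + w * n) * ZMod.stdAddChar (ξ * evm p G n) =
      (∑ n, u n * ZMod.stdAddChar (ξ * (M : ZMod p)⁻¹ * evm p g n)) *
        ZMod.stdAddChar (-(ξ * (M : ZMod p)⁻¹ * (d : ZMod p))) := by
    rw [sum_mul]
    refine Fintype.sum_equiv (affE c w hw) _ _ fun z => ?_
    rw [affE_apply, mul_assoc, ← AddChar.map_add_eq_mul]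
    have h1 := evm_aff h z
    have h2 : ξ * evm p G z
        = ξ * (M : ZMod p)⁻¹ * evm p g (c + w * z) + -(ξ * (M : ZMod p)⁻¹ * (d : ZMod p)) := by
      have h3 : (M : ZMod p)⁻¹ * M = 1 := inv_mul_cancel₀ hM
      linear_combination ξ * (M : ZMod p)⁻¹ * h1 - ξ * evm p G z * h3
    rw [h2]
  rw [e, norm_mul, AddChar.norm_apply, mul_one]

theorem wt_aff (h : C M * G = g.comp (C c + C w * X) - C d) (hM : (M : ZMod p) ≠ 0)
    (hw : (w : ZMod p) ≠ 0) {κ : ℝ} {v : ZMod p → ℝ} (hv : Wt p g κ v) :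
    Wt p G κ (fun z => v (c + w * z)) := by
  have hd : ∀ z, evm p (derivative G) z = 0 ↔ evm p (derivative g) (c + w * z) = 0 := by
    intro z
    have h1 := evm_aff' h z
    constructor
    · intro e
      rw [e, mul_zero] at h1
      exact (mul_eq_zero.1 h1.symm).resolve_left hw
    · intro e
      rw [e, mul_zero] at h1
      exact (mul_eq_zero.1 h1).resolve_left hM
  refine ⟨fun n => hv.nonneg _, ?_, fun n hn e => hv.reg _ hn ((hd n).1 e), fun ξ hξ => ?_,
    fun ξ hξ => ?_, ?_⟩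
  · rw [← hv.mean]
    exact Fintype.sum_equiv (affE c w hw) _ _ fun z => rfl
  · rw [norm_four h hM hw (fun n => (v n : ℂ)) ξ]
    exact hv.four _ (mul_ne_zero hξ (inv_ne_zero hM))
  · have h1 := norm_four h hM hw (fun _ => (1 : ℂ)) ξ
    simp only [one_mul] at h1
    rw [h1]
    exact hv.comp _ (mul_ne_zero hξ (inv_ne_zero hM))
  · refine le_trans (le_of_eq ?_) hv.sing
    congr 1
    refine card_equiv (affE c w hw) fun z => ?_
    simp only [mem_filter, mem_univ, true_and, affE_apply, hd]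

end Aff

theorem inj_add_C {G : ℤ[X]} {l : ℕ} (h : Inj G l) (t : ℤ) : Inj (G + C t) l := by
  intro E a b hab
  refine h E a b ?_
  simpa using hab

theorem deg_lead {g G : ℤ[X]} {M c w d : ℤ} {k : ℕ} (hk : 1 ≤ k)
    (h : C M * G = g.comp (C c + C w * X) - C d) (hM : 0 < M) (hw : 0 < w)
    (hg : g.natDegree = k) (hl : 0 < g.leadingCoeff) :
    G.natDegree = k ∧ 0 < G.leadingCoeff := by
  have h1 : (C c + C w * X : ℤ[X]).natDegree = 1 := by
    rw [add_comm]; exact natDegree_linear hw.ne'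
  have h2 : (C c + C w * X : ℤ[X]).leadingCoeff = w := by
    rw [add_comm]; exact leadingCoeff_linear hw.ne'
  have h3 : (g.comp (C c + C w * X)).natDegree = k := by rw [natDegree_comp, h1, hg, mul_one]
  have h4 : (g.comp (C c + C w * X)).leadingCoeff = g.leadingCoeff * w ^ k := by
    rw [leadingCoeff_comp (by rw [h1]; norm_num), h2, hg]
  have h5 : G.natDegree = k := by
    rw [← natDegree_C_mul hM.ne', h, natDegree_sub_C, h3]
  refine ⟨h5, ?_⟩
  have h6 := congrArg (fun q => q.coeff k) h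
  simp only [coeff_C_mul, coeff_sub] at h6
  rw [coeff_C_of_ne_zero (by omega), sub_zero] at h6
  rw [leadingCoeff, h3] at h4
  rw [leadingCoeff, h5]
  have h7 : 0 < M * G.coeff k := by rw [h6, h4]; positivity
  exact (mul_pos_iff_of_pos_left hM).1 h7

theorem ht_bound {g G : ℤ[X]} {M c w d : ℤ} {k U : ℕ}
    (h : C M * G = g.comp (C c + C w * X) - C d) (hM : 0 < M) (hc : 0 ≤ c) (hcw : c < w)
    (hg : g.natDegree ≤ k) (hU : 2 ≤ U) (hg' : ht g ≤ U) (hw : w ≤ (U : ℤ) ^ 2)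
    (hd : |d| ≤ (U : ℤ) ^ 2) : ht G ≤ ((U ^ (3 * k + 3) : ℕ) : ℤ) := by
  have hU' : (2 : ℤ) ≤ U := by exact_mod_cast hU
  have h1 := ht_C_mul M G
  rw [h, sub_eq_add_neg, ← C_neg, abs_of_pos hM] at h1
  have h2 := ht_add_C (g.comp (C c + C w * X)) (-d)
  have h3 := ht_comp g k hg c w (by rw [abs_of_nonneg hc, abs_of_pos (by omega)]; omega)
  rw [abs_of_nonneg hc, abs_of_pos (by omega : 0 < w)] at h3
  have h4 : c + w ≤ (U : ℤ) ^ 3 := by nlinarith
  have h5 : (c + w) ^ k ≤ ((U : ℤ) ^ 3) ^ k := pow_le_pow_left₀ (by omega) h4 k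
  have h6 : ht g * (c + w) ^ k ≤ U * ((U : ℤ) ^ 3) ^ k :=
    mul_le_mul hg' h5 (pow_nonneg (by omega) k) (by omega)
  have h7 : 1 ≤ ((U : ℤ) ^ 3) ^ k := one_le_pow₀ (one_le_pow₀ (by omega))
  have h8 := ht_nonneg G
  have h9 : ht G ≤ M * ht G := le_mul_of_one_le_left h8 (by omega)
  rw [abs_neg] at h2
  push_cast
  rw [pow_add, pow_mul]
  generalize ((U : ℤ) ^ 3) ^ k = T at *
  have h10 : (U : ℤ) ^ 2 ≤ U ^ 2 * T := le_mul_of_one_le_right (by positivity) h7
  have h11 : (U : ℤ) + U ^ 2 ≤ U ^ 3 := by nlinarith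
  have h12 : ((U : ℤ) + U ^ 2) * T ≤ U ^ 3 * T := mul_le_mul_of_nonneg_right h11 (by omega)
  nlinarith

theorem exists_crt {ι : Type} [Fintype ι] [DecidableEq ι] (P : ι → ℕ) [∀ i, Fact (P i).Prime]
    (hP : Function.Injective P) (S : Finset ι) (n : ∀ i, ZMod (P i)) :
    ∃ n0 : ℕ, ∀ i ∈ S, (n0 : ZMod (P i)) = n i := by
  have hco : Set.Pairwise (S : Set ι) (Function.onFun Nat.Coprime P) := fun i _ j _ hij =>
    (Nat.coprime_primes Fact.out Fact.out).2 fun e => hij (hP e)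
  obtain ⟨n0, h⟩ := Nat.chineseRemainderOfFinset (fun i => (n i).val) P S
    (fun i _ => (Fact.out : (P i).Prime).ne_zero) hco
  refine ⟨n0, fun i hi => ?_⟩
  rw [(ZMod.natCast_eq_natCast_iff _ _ _).2 (h i hi), ZMod.natCast_zmod_val]

theorem mm_dvd {ι : Type} [Fintype ι] [DecidableEq ι] (P : ι → ℕ) [∀ i, Fact (P i).Prime]
    (hP : Function.Injective P) (S : Finset ι) (z : ℤ) (h : ∀ i ∈ S, (P i : ℤ) ∣ z) :
    (mm P S : ℤ) ∣ z := by
  rw [mm, Nat.cast_prod]
  refine Finset.prod_dvd_of_coprime (fun i _ j _ hij => ?_) h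
  exact Nat.isCoprime_iff_coprime.2
    ((Nat.coprime_primes Fact.out Fact.out).2 fun e => hij (hP e))

theorem prime_dvd_mm {ι : Type} [Fintype ι] [DecidableEq ι] (P : ι → ℕ) [∀ i, Fact (P i).Prime]
    (S : Finset ι) {l : ℕ} (hl : l.Prime) (h : l ∣ mm P S) : ∃ i ∈ S, P i = l := by
  obtain ⟨i, hi, h1⟩ := (Nat.prime_iff.1 hl).exists_mem_finset_dvd h
  exact ⟨i, hi, ((Nat.prime_dvd_prime_iff_eq hl Fact.out).1 h1).symm⟩

end Transfer2

open Transfer2

/-- The transfer lemma with congruence conditions. -/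
theorem transfer2 (k : ℕ) (hk : 1 ≤ k) : ∃ (Γ A : ℕ) (C : ℝ), 0 ≤ C ∧
    ∀ Wc : ℕ, 1 ≤ Wc → ∀ g : ℤ[X], g.natDegree = k → 0 < g.leadingCoeff →
    (∀ l : ℕ, l.Prime → NC g l) →
    ∃ e : ℕ, e < Wc ^ Γ ∧
    ∀ {ι : Type} [Fintype ι] [DecidableEq ι] (P : ι → ℕ) [∀ i, Fact (P i).Prime],
    Function.Injective P → (∀ i, ¬ P i ∣ Wc) → ∀ (S : Finset ι) (κ : ℝ), 0 ≤ κ → κ ≤ 1 →
    ∀ v : ∀ i, ZMod (P i) → ℝ, (∀ i, Wt (P i) g κ (v i)) →
    ∀ Y U L : ℕ, 1 ≤ Y → Y ≤ U → 2 ≤ U → ht g ≤ U → Wc ^ Γ ≤ U → mm P S ≤ U → U ^ A ≤ L →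
    (∀ l : ℕ, l.Prime → l ≤ U ^ A → l ∣ Wc ∨ ∃ i, P i = l) →
    ∀ a b : ℕ → ℝ, (∀ x, |a x| ≤ 1) → (∀ y, |b y| ≤ 1) →
    (∀ x y, a x ≠ 0 → b y ≠ 0 → y < x ∧ ((Wc ^ Γ : ℕ) : ℤ) ∣ (x : ℤ) - y - e ∧
      ∀ n : ℕ, 1 ≤ n → (x : ℤ) - y ≠ g.eval (n : ℤ)) →
    ∀ (h : ℕ → ℕ → ℝ) (H : ℝ), (∀ x y, |h x y| ≤ H) →
    (∀ x x' y y', x ≡ x' [MOD mm P S] → y ≡ y' [MOD mm P S] → h x y = h x' y') →
    (∀ x y, h x y ≠ 0 → ∀ i ∈ S, kern (P i) g ((x : ZMod (P i)) - y) ≠ 0) →
    |∑ x ∈ range L, ∑ y ∈ range L,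
        a x * b y * h x y * wsum P S Y (fun i => push (P i) g (v i)) ((x : ℤ) - y)| ≤
      C * (Y : ℝ) ^ (-κ) * H * (L : ℝ) ^ 2 := by
  obtain ⟨A0, C0, hC0, htr⟩ := transfer k hk
  obtain ⟨Γ, hΓ⟩ := small_sub k
  refine ⟨Γ, (3 * k + 3) * A0 + 2, 4 * C0, by positivity, fun Wc hWc g hdeg hlead hnc => ?_⟩
  obtain ⟨e, W1, he, hW1, hsm⟩ := hΓ Wc hWc g hdeg.le hnc
  refine ⟨e, he, ?_⟩
  intro ι _ _ P _ hP hPW S κ hκ0 hκ1 v hv Y U L hY hYU hU hg hWU hmU hL hpr a b ha hb hab h H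
    hH hmod hker
  have hH0 : 0 ≤ H := (abs_nonneg _).trans (hH 0 0)
  have hm1 : 1 ≤ mm P S := mm_pos P S
  set m := mm P S with hm
  have hW0 : 0 < Wc ^ Γ := by positivity
  have hW1' : 0 < W1 := Nat.pos_of_dvd_of_pos hW1 hW0
  have hW1'' : W1 ≤ Wc ^ Γ := Nat.le_of_dvd hW0 hW1
  set M := Wc ^ Γ * m with hM
  have hM0 : 0 < M := Nat.mul_pos hW0 hm1
  have hMU : M ≤ U ^ 2 := by rw [sq]; exact Nat.mul_le_mul hWU hmU
  have hcop : Nat.Coprime m Wc :=
    Nat.Coprime.prod_left fun i _ => (Nat.Prime.coprime_iff_not_dvd Fact.out).2 (hPW i)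
  set U' := U ^ (3 * k + 3) with hU'
  have hUU : U ≤ U' := Nat.le_self_pow (by omega) _
  have hA : U' ^ A0 * U ^ 2 ≤ L := by rw [hU', ← pow_mul, ← pow_add]; exact hL
  have hA' : U' ^ A0 ≤ U ^ ((3 * k + 3) * A0 + 2) := by
    rw [hU', ← pow_mul]; exact Nat.pow_le_pow_right (by omega) (by omega)
  have hA0 : 0 < U' ^ A0 := by positivity
  have hML : M ≤ L := hMU.trans ((Nat.le_mul_of_pos_left _ hA0).trans hA)
  set L' := L / M + 1 with hL'
  have hL1 : U' ^ A0 ≤ L' := by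
    refine le_trans ?_ (Nat.le_succ _)
    rw [Nat.le_div_iff_mul_le hM0]
    exact (Nat.mul_le_mul_left _ hMU).trans hA
  have hL2 : L ≤ M * L' := (Nat.lt_mul_div_succ L hM0).le
  have hL3 : M * L' ≤ 2 * L := by
    have := Nat.mul_div_le L M
    rw [hL', Nat.mul_succ]; omega
  have key : ∀ r ∈ range M, ∀ s ∈ range M,
      |∑ x ∈ range L', ∑ y ∈ range L',
        (if r + M * x < L then a (r + M * x) else 0) * (if s + M * y < L then b (s + M * y) else 0)
          * h r s * wsum P S Y (fun i => push (P i) g (v i))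
            (((r + M * x : ℕ) : ℤ) - ((s + M * y : ℕ) : ℤ))|
        ≤ C0 * (Y : ℝ) ^ (-κ) * (L' : ℝ) ^ 2 * H := by
    intro r hr s hs
    rw [mem_range] at hr hs
    set a' : ℕ → ℝ := fun x => if r + M * x < L then a (r + M * x) else 0 with ha'
    set b' : ℕ → ℝ := fun y => if s + M * y < L then b (s + M * y) else 0 with hb'
    change |∑ x ∈ range L', ∑ y ∈ range L', a' x * b' y * h r s *
      wsum P S Y (fun i => push (P i) g (v i)) (((r + M * x : ℕ) : ℤ) - ((s + M * y : ℕ) : ℤ))| ≤ _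
    have hne : ∀ x y, a' x ≠ 0 → b' y ≠ 0 → a (r + M * x) ≠ 0 ∧ b (s + M * y) ≠ 0 := by
      intro x y h1 h2
      simp only [ha', hb'] at h1 h2
      constructor
      · intro e; apply h1; simp [e]
      · intro e; apply h2; simp [e]
    by_cases hz : h r s ≠ 0 ∧ ∃ x y, a' x ≠ 0 ∧ b' y ≠ 0
    swap
    · rw [sum_eq_zero, abs_zero]
      · positivity
      · intro x _
        refine sum_eq_zero fun y _ => ?_
        by_cases h1 : h r s = 0
        · simp [h1]
        · by_cases h2 : a' x = 0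
          · simp [h2]
          · by_cases h3 : b' y = 0
            · simp [h3]
            · exact absurd ⟨h1, x, y, h2, h3⟩ hz
    obtain ⟨hrs, x0, y0, hx0, hy0⟩ := hz
    have he1 : ((Wc ^ Γ : ℕ) : ℤ) ∣ (r : ℤ) - s - e := by
      have h1 := (hab _ _ (hne x0 y0 hx0 hy0).1 (hne x0 y0 hx0 hy0).2).2.1
      have h2 : (r : ℤ) - s - e = ((r + M * x0 : ℕ) : ℤ) - ((s + M * y0 : ℕ) : ℤ) - e
          - ((Wc ^ Γ : ℕ) : ℤ) * (m * (x0 - y0)) := by
        rw [hM]; push_cast; ring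
      rw [h2]
      exact dvd_sub h1 (dvd_mul_right _ _)
    have hn : ∀ i, ∃ n : ZMod (P i), i ∈ S →
        evm (P i) g n = (r : ZMod (P i)) - s ∧ evm (P i) (derivative g) n ≠ 0 := by
      intro i
      by_cases hi : i ∈ S
      · have h1 := hker r s hrs i hi
        simp only [kern, ne_eq, Nat.cast_eq_zero, card_eq_zero] at h1
        obtain ⟨n, hn⟩ := nonempty_iff_ne_empty.2 h1
        exact ⟨n, fun _ => (mem_filter.1 hn).2⟩
      · exact ⟨0, fun h => absurd h hi⟩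
    choose n hn using hn
    obtain ⟨n0, hn0⟩ := exists_crt P hP S n
    have hn1 : ∀ l : ℕ, l.Prime → l ∣ m → ¬ (l : ℤ) ∣ (derivative g).eval (n0 : ℤ) := by
      intro l hl hlm hd
      obtain ⟨i, hi, rfl⟩ := prime_dvd_mm P S hl hlm
      apply (hn i hi).2
      rw [← hn0 i hi, ← Int.cast_natCast, evm_cast]
      exact (ZMod.intCast_zmod_eq_zero_iff_dvd _ _).2 hd
    have hn2 : (m : ℤ) ∣ g.eval (n0 : ℤ) - ((r : ℤ) - s) := by
      refine mm_dvd P hP S _ fun i hi => (ZMod.intCast_zmod_eq_zero_iff_dvd _ _).1 ?_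
      have h1 := (hn i hi).1
      rw [← hn0 i hi, ← Int.cast_natCast, evm_cast] at h1
      push_cast
      rw [h1, sub_self]
    obtain ⟨c, G, hc, hG, hc1, hc2, hinj⟩ := hsm m n0 hm1 hcop hn1
    have hdv : (M : ℤ) ∣ g.eval (c : ℤ) - ((r : ℤ) - s) := by
      rw [hM, Nat.cast_mul]
      refine IsCoprime.mul_dvd (Nat.isCoprime_iff_coprime.2 (hcop.symm.pow_left _)) ?_ ?_
      · have := dvd_sub hc1 he1
        rwa [sub_sub_sub_cancel_right] at this
      · have := dvd_add hc2 hn2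
        rwa [sub_add_sub_cancel] at this
    obtain ⟨t, ht'⟩ := hdv
    have hGt : C (M : ℤ) * (G + C t)
        = g.comp (C (c : ℤ) + C ((W1 * m : ℕ) : ℤ) * X) - C ((r : ℤ) - s) := by
      rw [mul_add, hG, ← C_mul, ← ht', C_sub (a := g.eval (c : ℤ))]; ring
    have hw0 : 0 < W1 * m := Nat.mul_pos hW1' hm1
    have hwM : W1 * m ≤ M := Nat.mul_le_mul_right _ hW1''
    obtain ⟨hd1, hd2⟩ := deg_lead hk hGt (by exact_mod_cast hM0) (by exact_mod_cast hw0) hdeg hlead
    have hht : ht (G + C t) ≤ (U' : ℤ) := by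
      refine ht_bound hGt (by exact_mod_cast hM0) (Nat.cast_nonneg _) (by exact_mod_cast hc)
        hdeg.le hU hg (by exact_mod_cast hwM.trans hMU) ?_
      have : (M : ℤ) ≤ (U : ℤ) ^ 2 := by exact_mod_cast hMU
      rw [abs_le]; constructor <;> omega
    have hcast : ∀ i ∉ S, (((M : ℕ) : ℤ) : ZMod (P i)) ≠ 0 ∧
        (((W1 * m : ℕ) : ℤ) : ZMod (P i)) ≠ 0 := by
      intro i hi
      have hp : (P i).Prime := Fact.out
      have h1 : ¬ P i ∣ M := by
        intro hd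
        rcases (Nat.Prime.dvd_mul hp).1 hd with h2 | h2
        · exact hPW i (hp.dvd_of_dvd_pow h2)
        · exact hi ((dvd_mm_iff P hP S i).1 h2)
      have h2 : ¬ P i ∣ W1 * m := fun hd => h1 (hd.trans (Nat.mul_dvd_mul_right hW1 _))
      rw [Int.cast_natCast, Int.cast_natCast, Ne, Ne, ZMod.natCast_eq_zero_iff,
        ZMod.natCast_eq_zero_iff]
      exact ⟨h1, h2⟩
    have hmain := htr P hP S (G + C t) κ hκ0 hκ1
      (fun i z => v i ((((c : ℕ) : ℤ) : ZMod (P i)) + (((W1 * m : ℕ) : ℤ) : ZMod (P i)) * z))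
      (fun i hi => wt_aff hGt (hcast i hi).1 (hcast i hi).2 (hv i)) hd1 hd2 Y U' L' hY
      (hYU.trans hUU) (hU.trans hUU) hht hL1
      (fun l hl hlU => by
        rcases hpr l hl (hlU.trans hA') with h1 | ⟨i, rfl⟩
        · exact Or.inr (inj_add_C (hinj l hl (h1.mul_right _)) t)
        · by_cases hi : i ∈ S
          · exact Or.inr (inj_add_C (hinj _ hl (((dvd_mm_iff P hP S i).2 hi).mul_left _)) t)
          · exact Or.inl ⟨i, hi, rfl⟩)
      a' b'
      (fun x => by simp only [ha']; split_ifs; exacts [ha _, by simp])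
      (fun x => by simp only [hb']; split_ifs; exacts [hb _, by simp])
      (fun x y hx hy => by
        obtain ⟨h1, _, h3⟩ := hab _ _ (hne x y hx hy).1 (hne x y hx hy).2
        refine ⟨?_, fun n hn1 hn2 => h3 (c + W1 * m * n) ?_ ?_⟩
        · by_contra hlt
          have : M * (x + 1) ≤ M * y := Nat.mul_le_mul_left _ (by omega)
          rw [Nat.mul_succ] at this
          omega
        · have := Nat.mul_pos hw0 hn1
          omega
        · have h4 := congrArg (eval (n : ℤ)) hGt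
          rw [eval_mul, eval_C, ← hn2, eval_sub, eval_C, eval_comp, eval_add, eval_mul, eval_C,
            eval_C, eval_X] at h4
          push_cast at h4 ⊢
          linear_combination h4)
    have e1 : ∑ x ∈ range L', ∑ y ∈ range L', a' x * b' y * h r s *
        wsum P S Y (fun i => push (P i) g (v i)) (((r + M * x : ℕ) : ℤ) - ((s + M * y : ℕ) : ℤ))
        = (∑ x ∈ range L', ∑ y ∈ range L', a' x * b' y * wsum P S Y (fun i => push (P i) (G + C t)
          (fun z => v i ((((c : ℕ) : ℤ) : ZMod (P i)) + (((W1 * m : ℕ) : ℤ) : ZMod (P i)) * z)))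
            ((x : ℤ) - y)) * h r s := by
      rw [sum_mul]
      refine sum_congr rfl fun x _ => ?_
      rw [sum_mul]
      refine sum_congr rfl fun y _ => ?_
      rw [mul_right_comm]
      congr 2
      simp only [wsum]
      refine sum_congr rfl fun T hT => prod_congr rfl fun i hi => ?_
      have hiS : i ∉ S := disjoint_left.1 (mem_filter.1 hT).2.1 hi
      rw [push_aff hGt (hcast i hiS).1 (hcast i hiS).2]
      congr 2
      push_cast; ring
    rw [e1, abs_mul]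
    exact mul_le_mul hmain (hH r s) (abs_nonneg _) (by positivity)
  have e2 : ∑ x ∈ range L, ∑ y ∈ range L,
        a x * b y * h x y * wsum P S Y (fun i => push (P i) g (v i)) ((x : ℤ) - y)
      = ∑ r ∈ range M, ∑ s ∈ range M, ∑ x ∈ range L', ∑ y ∈ range L',
        (if r + M * x < L then a (r + M * x) else 0) * (if s + M * y < L then b (s + M * y) else 0)
          * h r s * wsum P S Y (fun i => push (P i) g (v i))
            (((r + M * x : ℕ) : ℤ) - ((s + M * y : ℕ) : ℤ)) := by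
    rw [sum_split M L' L hL2]
    refine sum_congr rfl fun r _ => ?_
    rw [sum_comm]
    refine sum_congr rfl fun x _ => ?_
    have hmd : ∀ r x : ℕ, r + M * x ≡ r [MOD m] := fun r x => by
      have : m ∣ M * x := (Dvd.intro_left _ rfl : m ∣ M).mul_right _
      simpa using (Nat.ModEq.refl r).add ((Nat.modEq_zero_iff_dvd).2 this)
    split_ifs with h1
    · rw [sum_split M L' L hL2]
      refine sum_congr rfl fun s _ => sum_congr rfl fun y _ => ?_
      split_ifs with h2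
      · rw [hmod _ _ _ _ (hmd r x) (hmd s y)]
      · simp
    · simp
  rw [e2]
  have h4 : ((M : ℝ) * L') ^ 2 ≤ (2 * L) ^ 2 := by
    have : (M : ℝ) * L' ≤ 2 * L := by exact_mod_cast hL3
    gcongr
  calc _ ≤ ∑ r ∈ range M, ∑ s ∈ range M, C0 * (Y : ℝ) ^ (-κ) * (L' : ℝ) ^ 2 * H := by
        refine (abs_sum_le_sum_abs _ _).trans (sum_le_sum fun r hr => ?_)
        exact (abs_sum_le_sum_abs _ _).trans (sum_le_sum fun s hs => key r hr s hs)
    _ = C0 * (Y : ℝ) ^ (-κ) * H * ((M : ℝ) * L') ^ 2 := by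
        simp only [sum_const, card_range, nsmul_eq_mul]; ring
    _ ≤ C0 * (Y : ℝ) ^ (-κ) * H * (2 * L) ^ 2 := by gcongr
    _ = _ := by ring

end Vale.Agent.P042
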