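import Vale.Agent.P042.MainB
import Vale.Agent.P042.Gmb
import Vale.Agent.P042.Good
import Vale.Agent.P042.Bad
import Vale.Agent.P042.Transfer2

open Finset Polynomial

namespace Vale.Agent.P042

noncomputable section

def RR {W : Type} [DecidableEq W] (L : ℕ) (u v : W) (S S' : Finset ℕ) : W → Finset ℕ :=
  fun w => if w = u then S else if w = v then S' else range L

theorem prod_RR {W : Type} [Fintype W] [DecidableEq W] (L : ℕ) (hL : 1 ≤ L) (u v : W)
    (huv : u ≠ v) (S S' : Finset ℕ) :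
    ∏ w, (((RR L u v S S' w).card : ℝ) / L) = ((S.card : ℝ) / L) * ((S'.card : ℝ) / L) := by
  have hL0 : (L : ℝ) ≠ 0 := by positivity
  rw [Fintype.prod_eq_mul u v huv]
  · simp [RR, huv.symm]
  · intro w hw
    simp [RR, hw.1, hw.2, hL0]

theorem RR_ind {W : Type} [DecidableEq W] (L : ℕ) (u v : W) (S S' : Finset ℕ)
    (p : Finset ℕ → Prop) (h1 : p S) (h2 : p S') (h3 : p (range L)) (w : W) :
    p (RR L u v S S' w) := by
  unfold RR; split_ifs <;> assumption

section
variable {ι : Type} [Fintype ι] [DecidableEq ι] (P : ι → ℕ) [∀ i, Fact (P i).Prime]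

theorem decomp {W : Type} [Fintype W] [DecidableEq W] (T : ∀ i, (W → ZMod (P i)) → ℝ)
    (A : Finset (Finset ι)) (L : ℕ) (f : ℕ → ℝ) (u v : W) (huv : u ≠ v) (S S' : Finset ℕ) :
    form T (fun _ => lift P A L f) =
      form T (fun w => lift P A L (res (RR L u v S S' w) f)) +
      form T (fun w => lift P A L (res (RR L u v S (range L \ S') w) f)) +
      form T (fun w => lift P A L (res (RR L u v (range L \ S) (range L) w) f)) := by
  have e1 : ∀ S1 : Finset ℕ, (fun w => lift P A L (res (RR L u v S1 (range L) w) f)) =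
      Function.update (fun _ => lift P A L f) u (lift P A L (res S1 f)) := by
    intro S1
    funext w
    by_cases h : w = u
    · subst h; simp [RR]
    · simp [RR, h, lift_res_range]
  have e2 : ∀ S1 : Finset ℕ, (fun w => lift P A L (res (RR L u v S S1 w) f)) =
      Function.update (fun w => lift P A L (res (RR L u v S (range L) w) f)) v
        (lift P A L (res S1 f)) := by
    intro S1
    funext w
    by_cases h : w = v
    · subst h; simp [RR, huv.symm]
    · simp [RR, h]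
  have h1 : form T (fun _ => lift P A L f) =
      form T (fun w => lift P A L (res (RR L u v S (range L) w) f)) +
      form T (fun w => lift P A L (res (RR L u v (range L \ S) (range L) w) f)) := by
    rw [e1, e1, ← form_add, ← lift_split, lift_res_range]
    simp
  have h2 : form T (fun w => lift P A L (res (RR L u v S (range L) w) f)) =
      form T (fun w => lift P A L (res (RR L u v S S' w) f)) +
      form T (fun w => lift P A L (res (RR L u v S (range L \ S') w) f)) := by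
    rw [e2 S', e2 (range L \ S'), ← form_add, ← lift_split, ← e2]
  rw [h1, h2]

theorem bad_one (k : ℕ) (hk : 1 ≤ k) (hP : Function.Injective P)
    (hnice : ∀ g : ℤ[X], g.natDegree = k → g.IsPrimitive → Inters g → ∀ i, Nice (TT k P g i))
    (W2 : ℕ) (hW2 : 1 ≤ W2) (hPW : ∀ i, ¬ P i ∣ W2) (g : ℤ[X]) (f : ℕ → ℝ) (hst : St k g f)
    (B : Finset ι) (Q L Y : ℕ) (hL : 8 * (W2 * mm P B) ^ k ≤ L) (Zm : ℝ) (hZm : 0 ≤ Zm)
    (hZ : ∀ (g' : ℤ[X]) (f' : ℕ → ℝ) (L' : ℕ), St k g' f' →
      ht g' ≤ ht g * (2 * ((W2 * mm P B : ℕ) : ℤ)) ^ k → L ≤ 4 * (W2 * mm P B) ^ k * L' →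
      ZZ k P g' Q L' f' ≤ Zm)
    (R : Site (jj k) → Finset ℕ) (hR : ∀ w, Reg L W2 (R w))
    (Th : ∀ i, (Site (jj k) → ZMod (P i)) → ℝ)
    (hTh : ∀ i, (∀ x, 0 ≤ Th i x) ∧ ∑ x, Th i x ≤ 1) (κ C : ℝ) (hκ : 0 ≤ κ) (hY : 1 ≤ Y)
    (hYQ : Y * mm P B ≤ Q)
    (hG1 : GM P (fun i => if i ∈ B then Th i else TT k P g i) Q L κ C)
    (hG2 : GM P (TT k P g) Q L κ C) :
    |form (fun i => if i ∈ B then Th i else TT k P g i)
        (fun w => lift P (fam P Q) L (res (R w) f))| ≤
      2 ^ Fintype.card (Site (jj k)) * Zm * ∏ w, (((R w).card : ℝ) / L) +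
        C * (Y : ℝ) ^ (-κ) * (1 + (mm P B : ℝ) ^ Fintype.card (Site (jj k))) := by
  refine bad_bound P (TT k P g) Th (fun i => (hnice g hst.deg hst.prim hst.inters i).2.1) B
    (fun i _ => hTh i) Q L Y κ C hκ hY hYQ hG1 hG2 (fun w => res (R w) f)
    (fun w x => hst.res_le _ x) _ ?_
  intro a
  have hm := mm_pos P B
  set R' : Site (jj k) → Finset ℕ :=
    fun w => (R w).filter (fun x => ∀ i ∈ B, (x : ZMod (P i)) = a w i) with hR'
  have e1 : (fun w => lift P (famB P B Q) L
      (fun x => if ∀ i ∈ B, (x : ZMod (P i)) = a w i then res (R w) f x else 0)) =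
      fun w => lift P (famB P B Q) L (res (R' w) f) := by
    funext w
    congr 1
    funext x
    simp only [res, hR', mem_filter]
    by_cases h1 : x ∈ R w <;> by_cases h2 : ∀ i ∈ B, (x : ZMod (P i)) = a w i <;> simp [h1, h2]
  have hcl : ∀ w, Cl L (W2 * mm P B) (R' w) := by
    intro w
    refine ⟨(filter_subset _ _).trans (hR w).cl.1, fun x y hx hy h1 h2 h3 => ?_⟩
    rw [hR', mem_filter] at h3 ⊢
    refine ⟨(hR w).cl.2 x y hx hy h1 (h2.of_mul_right _) h3.1, fun i hi => ?_⟩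
    rw [← h3.2 i hi]
    exact ((cast_eq_iff_modEq P hP B x y).2 (h2.of_mul_left _) i hi).symm
  have h1 := child_bound P k hk hP hnice W2 hW2 hPW g f hst B Q L hL Zm hZ R' hcl
  have hco : Nat.Coprime W2 (mm P B) := by
    unfold mm
    apply Nat.Coprime.prod_right
    intro i _
    exact ((Nat.Prime.coprime_iff_not_dvd (Fact.out : (P i).Prime)).2 (hPW i)).symm
  have hL2 : 8 * (W2 * mm P B) ≤ L := by
    have : W2 * mm P B ≤ (W2 * mm P B) ^ k := Nat.le_self_pow (by omega) _
    omega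
  have h2 : ∀ w, (mm P B : ℝ) * ((R' w).card / L) ≤ 2 * ((R w).card / L) := by
    intro w
    have h3 := (hR w).slice hW2 (mm P B) hm hco hL2 (R' w) (filter_subset _ _) (by
      intro x hx y hy
      rw [hR', mem_filter] at hx hy
      exact (cast_eq_iff_modEq P hP B x y).1 fun i hi => (hx.2 i hi).trans (hy.2 i hi).symm)
    rw [← mul_div_assoc, ← mul_div_assoc]
    apply div_le_div_of_nonneg_right _ (Nat.cast_nonneg L)
    exact_mod_cast h3
  have h3 : (mm P B : ℝ) ^ Fintype.card (Site (jj k)) * ∏ w, (((R' w).card : ℝ) / L) ≤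
      2 ^ Fintype.card (Site (jj k)) * ∏ w, (((R w).card : ℝ) / L) := by
    rw [← Finset.card_univ, ← Finset.prod_const, ← Finset.prod_const, ← Finset.prod_mul_distrib,
      ← Finset.prod_mul_distrib]
    exact Finset.prod_le_prod (fun w _ => by positivity) (fun w _ => h2 w)
  rw [e1]
  calc _ ≤ (mm P B : ℝ) ^ Fintype.card (Site (jj k)) * (Zm * ∏ w, (((R' w).card : ℝ) / L)) :=
        mul_le_mul_of_nonneg_left h1 (by positivity)
    _ = Zm * ((mm P B : ℝ) ^ Fintype.card (Site (jj k)) * ∏ w, (((R' w).card : ℝ) / L)) := by ring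
    _ ≤ Zm * (2 ^ Fintype.card (Site (jj k)) * ∏ w, (((R w).card : ℝ) / L)) :=
        mul_le_mul_of_nonneg_left h3 hZm
    _ = _ := by ring

/-- summation of the bad terms -/
theorem bad_sum (β : ι → ℝ) (hβ : ∀ i, 0 ≤ β i) (σ : ℝ) (hσ : ∑ i, β i * P i ≤ σ) (h1 : σ ≤ 1)
    (F : Finset ι → ℝ) (c : ℝ) (hc : 0 ≤ c) (hF : ∀ B, F B ≤ mm P B * c) :
    ∑ B ∈ univ.filter (fun B : Finset ι => B.Nonempty), (∏ i ∈ B, |β i|) * F B ≤ 2 * σ * c := by
  have h2 := sum_nonempty_le (fun i => β i * P i) (fun i => mul_nonneg (hβ i) (by positivity))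
    σ hσ h1
  refine le_trans ?_ (mul_le_mul_of_nonneg_right h2 hc)
  rw [Finset.sum_mul]
  refine Finset.sum_le_sum fun B _ => ?_
  rw [Finset.prod_mul_distrib]
  have h3 : ∏ i ∈ B, |β i| = ∏ i ∈ B, β i := Finset.prod_congr rfl fun i _ => abs_of_nonneg (hβ i)
  have h4 : ∏ i ∈ B, (P i : ℝ) = mm P B := by unfold mm; push_cast; rfl
  rw [h3, h4, mul_assoc]
  exact mul_le_mul_of_nonneg_left (hF B) (Finset.prod_nonneg fun i _ => hβ i)

end

end

end Vale.Agent.P042
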