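import Vale.Agent.P042.MainC

open Finset Polynomial

namespace Vale.Agent.P042

noncomputable section

theorem PD.nice {k p : ℕ} [Fact p.Prime] {g : ℤ[X]} {Cb : ℝ}
    {Tg Th : (Site (jj k) → ZMod p) → ℝ} {ζ β η : ℝ} {z : ZMod p → ℝ}
    (h : PD k p g Cb Tg Th ζ β η z) : Nice (Tloc (jj k) k (rho k p) (kern p g)) :=
  ⟨h.ok.rp, h.ok.sumT, h.ok.tameT.single⟩

theorem two_le_card (k : ℕ) : 2 ≤ Fintype.card (Site (jj k)) := by
  rw [card_site]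
  calc 2 ≤ 6 ^ 1 := by norm_num
    _ ≤ 6 ^ jj k := Nat.pow_le_pow_right (by norm_num) (jj_pos k)

theorem final_num (Z0 a b c0 T N2 Ctr e1 e2 e3 y : ℝ) (hZ : 0 ≤ Z0) (hab : c0 ≤ a * b)
    (hN : 0 < N2) (he : e3 ≤ e2) (hy : y ≤ e1) (h1 : 0 ≤ e1) (h2 : 0 ≤ e2) (hC : 0 ≤ Ctr)
    (hT : T ≤ (N2 * e1 + Ctr * e2 + 2 * (1 / (4 * N2)) * (N2 * Z0 * (a * b) + 2 * N2 * e3 + N2 * y))
      + Z0 * (a * (1 - b)) + Z0 * ((1 - a) * 1)) :
    T ≤ (1 - c0 / 2) * Z0 + (N2 + Ctr + 1) * (e1 + e2) := by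
  have h3 : 2 * (1 / (4 * N2)) * (N2 * Z0 * (a * b) + 2 * N2 * e3 + N2 * y) =
      Z0 * (a * b) / 2 + e3 + y / 2 := by field_simp; ring
  rw [h3] at hT
  have h4 := mul_le_mul_of_nonneg_left hab hZ
  have h5 := mul_nonneg hN.le h2
  have h6 := mul_nonneg hC h1
  nlinarith

section
variable {ι : Type} [Fintype ι] [DecidableEq ι] (P : ι → ℕ) [∀ i, Fact (P i).Prime]

theorem step_core (k : ℕ) (hk : 1 ≤ k) (hP : Function.Injective P)
    (hnice : ∀ g : ℤ[X], g.natDegree = k → g.IsPrimitive → Inters g → ∀ i, Nice (TT k P g i))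
    (W2 : ℕ) (hW2 : 1 ≤ W2) (hPW : ∀ i, ¬ P i ∣ W2) (g : ℤ[X]) (f : ℕ → ℝ) (hst : St k g f)
    (Cb : ℝ) (Tg Th : ∀ i, (Site (jj k) → ZMod (P i)) → ℝ) (ζ β η : ι → ℝ)
    (z : ∀ i, ZMod (P i) → ℝ)
    (hpd : ∀ i, PD k (P i) g Cb (Tg i) (Th i) (ζ i) (β i) (η i) (z i))
    (hβ : ∑ i, β i * P i ≤ 1 / (4 * 2 ^ Fintype.card (Site (jj k))))
    (Y1 Y L : ℕ) (hY1 : 2 ≤ Y1) (hWY : W2 ≤ Y1) (hYY : Y1 ≤ Y) (hL1 : (Y * Y1) ^ 20 ≤ L)
    (hL2 : 8 * (Y * Y1) ^ k ≤ L) (e : ℕ) (Ctr : ℝ) (hCtr : 0 ≤ Ctr)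
    (htr : ∀ S : Finset ι, mm P S ≤ Y1 → ∀ (h : ℕ → ℕ → ℝ) (H : ℝ), (∀ x y, |h x y| ≤ H) →
      (∀ x x' y y', x ≡ x' [MOD mm P S] → y ≡ y' [MOD mm P S] → h x y = h x' y') →
      (∀ x y, h x y ≠ 0 → ∀ i ∈ S, kern (P i) g ((x : ZMod (P i)) - y) ≠ 0) →
      |∑ x ∈ range L, ∑ y ∈ range L, res (RU L W2 e) f x * res (RV L W2) f y * h x y *
        wsum P S Y (fun i => push (P i) g (z i)) ((x : ℤ) - y)| ≤
          Ctr * (Y : ℝ) ^ (-kp k) * H * (L : ℝ) ^ 2)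
    (Z0 : ℝ) (hZ0 : 0 ≤ Z0)
    (hZ : ∀ m : ℕ, 1 ≤ m → m ≤ Y1 → ∀ (g' : ℤ[X]) (f' : ℕ → ℝ) (L' : ℕ), St k g' f' →
      ht g' ≤ ht g * (2 * ((W2 * m : ℕ) : ℤ)) ^ k → L ≤ 4 * (W2 * m) ^ k * L' →
      ZZ k P g' (Y * Y1) L' f' ≤ Z0 * m) :
    ZZ k P g (Y * Y1) L f ≤ (1 - 1 / (16 * (W2 : ℝ) ^ 2) / 2) * Z0 +
      (2 ^ Fintype.card (Site (jj k)) + Ctr + 1) * ((Y1 : ℝ) ^ (-kp k) +
        (Y : ℝ) ^ (-kp k) * (Y1 : ℝ) ^ (Fintype.card (Site (jj k)) + 2)) := by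
  have huv := u0_ne_v0 (jj_pos k)
  set u := u0 (jj k) with hu
  set v := v0 (jj k) with hv
  have hN2 := two_le_card k
  have hQ : 2 ≤ Y * Y1 := by nlinarith
  have hκ := (kp_pos k).le
  have hLm : ∀ m, m ≤ Y1 → 8 * (W2 * m) ^ k ≤ L := by
    intro m hm
    have : (W2 * m) ^ k ≤ (Y * Y1) ^ k := Nat.pow_le_pow_left (Nat.mul_le_mul (by omega) hm) k
    omega
  have hLW : 8 * W2 ≤ L := by
    have h1 := hLm 1 (by omega)
    have h2 : W2 * 1 ≤ (W2 * 1) ^ k := Nat.le_self_pow (by omega) _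
    omega
  have hL0 : 1 ≤ L := by omega
  have hL0' : (0 : ℝ) < L := by exact_mod_cast hL0
  have hRU := reg_RU L W2 e hW2 hLW
  have hRV := reg_RV L W2 hW2 hLW
  have hGT : GM P (TT k P g) (Y * Y1) L (kp k) (2 ^ Fintype.card (Site (jj k))) :=
    gmb hN2 P hP _ _ η (kp k) (fun i => (hpd i).ok.tameT) (fun i => (hpd i).eta) _ _ hQ hL1
  have hGG : GM P Tg (Y * Y1) L (kp k) (2 ^ Fintype.card (Site (jj k))) :=
    gmb hN2 P hP _ _ η (kp k) (fun i => (hpd i).ok.tameG) (fun i => (hpd i).eta) _ _ hQ hL1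
  have hGB : ∀ B : Finset ι, GM P (fun i => if i ∈ B then Th i else TT k P g i) (Y * Y1) L (kp k)
      (2 ^ Fintype.card (Site (jj k))) := by
    intro B
    refine gmb hN2 P hP (fun i => Phi (jj k) × (Site (jj k) → ZMod (P i))) _ η (kp k)
      (fun i => ?_) (fun i => (hpd i).eta) _ _ hQ hL1
    split_ifs
    · exact (hpd i).ok.tameH
    · exact (hpd i).ok.tameT
  -- the two easy pieces
  have hm0 : mm P ∅ = 1 := by simp [mm]
  have heasy : ∀ S S' : Finset ℕ, Cl L W2 S → Cl L W2 S' →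
      form (TT k P g) (fun w => lift P (fam P (Y * Y1)) L (res (RR L u v S S' w) f)) ≤
        Z0 * (((S.card : ℝ) / L) * ((S'.card : ℝ) / L)) := by
    intro S S' h1 h2
    have h3 := child_bound P k hk hP hnice W2 hW2 hPW g f hst ∅ (Y * Y1) L
      (by rw [hm0]; exact hLm 1 (by omega)) (Z0 * (1 : ℕ))
      (by rw [hm0]; exact hZ 1 le_rfl (by omega)) (RR L u v S S')
      (by rw [hm0, mul_one]; exact RR_ind L u v S S' _ h1 h2 (Cl.range _ _))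
    rw [famB_empty, prod_RR L hL0 u v huv, Nat.cast_one, mul_one] at h3
    exact (le_abs_self _).trans h3
  have hcomp : ∀ S : Finset ℕ, S ⊆ range L → (((range L \ S).card : ℝ) / L) = 1 - S.card / L := by
    intro S hS
    rw [card_sdiff_of_subset hS, card_range, Nat.cast_sub (by simpa using card_le_card hS)]
    field_simp
  have h2 := heasy _ _ hRU.cl hRV.cl.compl
  have h3 := heasy _ _ hRU.cl.compl (Cl.range L W2)
  rw [hcomp _ hRV.cl.1] at h2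
  rw [hcomp _ hRU.cl.1, card_range, div_self hL0'.ne'] at h3
  -- the good pair
  set R := RR L u v (RU L W2 e) (RV L W2) with hR
  have hRu : R u = RU L W2 e := by simp [hR, RR]
  have hRv : R v = RV L W2 := by simp [hR, RR, huv.symm]
  have hreg : ∀ w, Reg L W2 (R w) := RR_ind L u v _ _ _ hRU hRV (reg_range L W2 hW2)
  have hf : ∀ w x, |res (R w) f x| ≤ 1 := fun w x => hst.res_le _ x
  have hYp : (0 : ℝ) < Y := by exact_mod_cast (by omega : 0 < Y)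
  have hY1p : (1 : ℝ) ≤ Y1 := by exact_mod_cast (by omega : 1 ≤ Y1)
  have hYk : 0 ≤ (Y : ℝ) ^ (-kp k) := (Real.rpow_pos_of_pos hYp _).le
  have hgood := good_bound P hP Tg u v huv (fun i => push (P i) g (z i))
    (fun i d => kern (P i) g d ≠ 0) (fun i => (hpd i).ok.gpos) (fun i => (hpd i).ok.gsum)
    (fun i => (hpd i).ok.tameG.single) (fun i => (hpd i).pair) (fun i => (hpd i).pb)
    (fun i => (hpd i).ok.gsupp) (fun i => (hpd i).ps) (Y * Y1) L Y Y1 (kp k) _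
    (Ctr * (Y : ℝ) ^ (-kp k)) hκ (mul_nonneg hCtr hYk) (by omega) hYY le_rfl hL0 hGG
    (fun w => res (R w) f) hf (by simp only [hRu, hRv]; exact htr)
  have hsplit := form_split (TT k P g) Tg Th ζ β (fun i => (hpd i).ok.split)
    (fun w => lift P (fam P (Y * Y1)) L (res (R w) f))
  have hζ : |∏ i, ζ i| ≤ 1 := by
    rw [abs_of_nonneg (Finset.prod_nonneg fun i _ => (hpd i).ok.zeta0)]
    exact Finset.prod_le_one (fun i _ => (hpd i).ok.zeta0) (fun i _ => (hpd i).ok.zeta1)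
  have hπ := prod_RR L hL0 u v huv (RU L W2 e) (RV L W2)
  rw [← hR] at hπ
  obtain ⟨a, ha⟩ : ∃ a, a = ((RU L W2 e).card : ℝ) / L := ⟨_, rfl⟩
  obtain ⟨b, hb⟩ : ∃ b, b = ((RV L W2).card : ℝ) / L := ⟨_, rfl⟩
  rw [← ha, ← hb] at hπ h2
  rw [← ha] at h3
  have hbig : ∀ S : Finset ℕ, Reg L W2 S → 1 / (4 * (W2 : ℝ)) ≤ (S.card : ℝ) / L := by
    intro S hS
    have hW : (0 : ℝ) < W2 := by exact_mod_cast hW2
    rw [div_le_div_iff₀ (by positivity) hL0']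
    have : (L : ℝ) ≤ 4 * W2 * S.card := by exact_mod_cast hS.big
    linarith
  have hab : 1 / (16 * (W2 : ℝ) ^ 2) ≤ a * b := by
    have hW : (0 : ℝ) < W2 := by exact_mod_cast hW2
    have h4 := hbig _ hRU
    have h5 := hbig _ hRV
    rw [← ha] at h4
    rw [← hb] at h5
    calc 1 / (16 * (W2 : ℝ) ^ 2) = 1 / (4 * (W2 : ℝ)) * (1 / (4 * (W2 : ℝ))) := by
          field_simp; norm_num
      _ ≤ a * b := mul_le_mul h4 h5 (by positivity) (le_trans (by positivity) h4)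
  have hab0 : 0 ≤ a * b := le_trans (by positivity) hab
  obtain ⟨N, hN⟩ : ∃ N, N = Fintype.card (Site (jj k)) := ⟨_, rfl⟩
  have hbad := bad_sum P β (fun i => (hpd i).ok.beta0) _ hβ (by
      rw [div_le_one (by positivity)]
      have : (1 : ℝ) ≤ 2 ^ Fintype.card (Site (jj k)) := one_le_pow₀ (by norm_num)
      linarith)
    (fun B => |form (fun i => if i ∈ B then Th i else TT k P g i)
      (fun w => lift P (fam P (Y * Y1)) L (res (R w) f))|)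
    (2 ^ N * Z0 * (a * b) + 2 * 2 ^ N * ((Y : ℝ) ^ (-kp k) * (Y1 : ℝ) ^ N) + 2 ^ N * (1 / Y1))
    (by positivity) (by
      intro B
      have hm1 : (1 : ℝ) ≤ mm P B := by exact_mod_cast mm_pos P B
      by_cases hB : mm P B ≤ Y1
      · have h4 := bad_one P k hk hP hnice W2 hW2 hPW g f hst B (Y * Y1) L Y (hLm _ hB)
          (Z0 * mm P B) (by positivity) (hZ _ (mm_pos P B) hB) R hreg Th
          (fun i => ⟨(hpd i).ok.hpos, (le_abs_self _).trans (hpd i).ok.tameH.mass⟩) (kp k) _ hκ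
          (by omega) (Nat.mul_le_mul_left _ hB) (hGB B) hGT
        rw [hπ, ← hN] at h4
        refine h4.trans ?_
        have h5 : (mm P B : ℝ) ^ N ≤ (Y1 : ℝ) ^ N :=
          pow_le_pow_left₀ (by positivity) (by exact_mod_cast hB) N
        have h6 : (1 : ℝ) ≤ (Y1 : ℝ) ^ N := one_le_pow₀ hY1p
        have h7 : 2 ^ N * (Y : ℝ) ^ (-kp k) * (1 + (mm P B : ℝ) ^ N) ≤
            2 ^ N * (Y : ℝ) ^ (-kp k) * (2 * (Y1 : ℝ) ^ N) :=
          mul_le_mul_of_nonneg_left (by linarith) (by positivity)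
        have h8 : 1 * (2 * 2 ^ N * ((Y : ℝ) ^ (-kp k) * (Y1 : ℝ) ^ N)) ≤
            mm P B * (2 * 2 ^ N * ((Y : ℝ) ^ (-kp k) * (Y1 : ℝ) ^ N)) :=
          mul_le_mul_of_nonneg_right hm1 (by positivity)
        have h9 : 0 ≤ (mm P B : ℝ) * (2 ^ N * (1 / Y1)) := by positivity
        linarith
      · have h4 := gm_bound P _ _ _ _ _ hκ (hGB B) (fun w => res (R w) f) hf
          (fun _ => fam P (Y * Y1)) (fun _ => Subset.refl _)
        rw [← hN] at h4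
        refine h4.trans ?_
        have h5 : (Y1 : ℝ) ≤ mm P B := by exact_mod_cast (not_le.1 hB).le
        have h6 : (Y1 : ℝ) * (2 ^ N * (1 / Y1)) ≤ mm P B * (2 ^ N * (1 / Y1)) :=
          mul_le_mul_of_nonneg_right h5 (by positivity)
        have h7 : (Y1 : ℝ) * (2 ^ N * (1 / Y1)) = 2 ^ N := by field_simp
        have h8 : 0 ≤ (mm P B : ℝ) * (2 ^ N * Z0 * (a * b)) := by positivity
        have h9 : 0 ≤ (mm P B : ℝ) * (2 * 2 ^ N * ((Y : ℝ) ^ (-kp k) * (Y1 : ℝ) ^ N)) := by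
          positivity
        linarith)
  rw [← hN] at hbad hgood ⊢
  have h1 : form (TT k P g) (fun w => lift P (fam P (Y * Y1)) L (res (R w) f)) ≤
      2 ^ N * (Y1 : ℝ) ^ (-kp k) + Ctr * ((Y : ℝ) ^ (-kp k) * (Y1 : ℝ) ^ (N + 2)) +
        2 * (1 / (4 * 2 ^ N)) * (2 ^ N * Z0 * (a * b) +
          2 * 2 ^ N * ((Y : ℝ) ^ (-kp k) * (Y1 : ℝ) ^ N) + 2 ^ N * (1 / Y1)) := by
    refine (le_abs_self _).trans (hsplit.trans (add_le_add ?_ hbad))
    rw [← mul_assoc]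
    exact (mul_le_of_le_one_left (abs_nonneg _) hζ).trans hgood
  refine final_num Z0 a b _ _ (2 ^ N) Ctr _ _ ((Y : ℝ) ^ (-kp k) * (Y1 : ℝ) ^ N) (1 / Y1) hZ0 hab
    (by positivity) ?_ ?_ (by positivity) (by positivity) hCtr ?_
  · exact mul_le_mul_of_nonneg_left (pow_le_pow_right₀ hY1p (by omega)) hYk
  · rw [one_div, ← Real.rpow_neg_one]
    exact Real.rpow_le_rpow_of_exponent_le hY1p (by linarith [kp_le_half k hk])
  · unfold ZZ
    rw [decomp P (TT k P g) _ L f u v huv (RU L W2 e) (RV L W2)]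
    exact add_le_add (add_le_add h1 h2) h3

end

end

end Vale.Agent.P042
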