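import Vale.Agent.P042.MainD

open Finset Polynomial

namespace Vale.Agent.P042

noncomputable section

theorem one_step (k : ℕ) (hk : 2 ≤ k) : ∃ (p0 W2 A : ℕ) (Ce : ℝ), 1 ≤ W2 ∧ 20 ≤ A ∧ 0 ≤ Ce ∧
    ∀ {ι : Type} [Fintype ι] [DecidableEq ι] (P : ι → ℕ) [∀ i, Fact (P i).Prime],
    Function.Injective P → (∀ i, p0 < P i) →
    (∀ g f, St k g f → ∀ Q L : ℕ, 2 ≤ Q → Q ^ 20 ≤ L → ZZ k P g Q L f ≤ 2 ^ 6 ^ jj k) ∧
    (∀ g f, St k g f → ∀ Q L : ℕ, 1 ≤ Q →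
      ((∑ x ∈ range L, f x) / L) ^ (6 ^ jj k) ≤ ZZ k P g Q L f) ∧
    ∀ Y1 Y L : ℕ, 2 ≤ Y1 → W2 ≤ Y1 → Y1 ≤ Y → (Y * Y1) ^ A ≤ L →
    (∀ l : ℕ, l.Prime → p0 < l → l ≤ (Y * Y1) ^ A → ∃ i, P i = l) →
    ∀ g f, St k g f → ht g ≤ Y → ∀ Z0 : ℝ, 0 ≤ Z0 →
    (∀ m : ℕ, 1 ≤ m → m ≤ Y1 → ∀ (g' : ℤ[X]) (f' : ℕ → ℝ) (L' : ℕ), St k g' f' →
      ht g' ≤ ht g * (2 * ((W2 * m : ℕ) : ℤ)) ^ k → L ≤ 4 * (W2 * m) ^ k * L' →
      ZZ k P g' (Y * Y1) L' f' ≤ Z0 * m) →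
    ZZ k P g (Y * Y1) L f ≤ (1 - 1 / (16 * (W2 : ℝ) ^ 2) / 2) * Z0 +
      Ce * ((Y1 : ℝ) ^ (-kp k) + (Y : ℝ) ^ (-kp k) * (Y1 : ℝ) ^ (6 ^ jj k + 2)) := by
  obtain ⟨p1, Cb, hCb, hpd⟩ := prime_data k hk
  obtain ⟨Γ, A0, Ctr, hCtr, htr⟩ := transfer2 k (by omega)
  obtain ⟨p2, hp2⟩ := exists_nat_ge (4 * 2 ^ Fintype.card (Site (jj k)) * Cb)
  set p0 := p1 + p2 + 1 with hp0
  have hWc : 1 ≤ p0.factorial := Nat.factorial_pos _
  refine ⟨p0, p0.factorial ^ Γ, A0 + 20 + k + 3, 2 ^ Fintype.card (Site (jj k)) + Ctr + 1,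
    Nat.pow_pos hWc, by omega, by positivity, ?_⟩
  intro ι _ _ P _ hP hp
  have hdata : ∀ g : ℤ[X], g.natDegree = k → g.IsPrimitive → Inters g → ∀ i,
      ∃ Tg Th ζ β η z, PD k (P i) g Cb Tg Th ζ β η z := fun g h1 h2 h3 i =>
    hpd (P i) (by have := hp i; omega) g h1.le (nc_of_prim g h2 h3 _ Fact.out)
  have hnice : ∀ g : ℤ[X], g.natDegree = k → g.IsPrimitive → Inters g →
      ∀ i, Nice (TT k P g i) := by
    intro g h1 h2 h3 i
    obtain ⟨Tg, Th, ζ, β, η, z, h⟩ := hdata g h1 h2 h3 i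
    exact h.nice
  have hPW0 : ∀ i, ¬ P i ∣ p0.factorial := by
    intro i h
    have := ((Fact.out : (P i).Prime).dvd_factorial).1 h
    have := hp i
    omega
  have hPW : ∀ i, ¬ P i ∣ p0.factorial ^ Γ := fun i h =>
    hPW0 i ((Fact.out : (P i).Prime).dvd_of_dvd_pow h)
  refine ⟨?_, ?_, ?_⟩
  · intro g f hst Q L hQ hL
    choose Tg Th ζ β η z h using hdata g hst.deg hst.prim hst.inters
    have hG : GM P (TT k P g) Q L (kp k) (2 ^ Fintype.card (Site (jj k))) :=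
      gmb (two_le_card k) P hP _ _ η (kp k) (fun i => (h i).ok.tameT) (fun i => (h i).eta)
        _ _ hQ hL
    have := gm_bound P _ _ _ _ _ (kp_pos k).le hG (fun _ => f) (fun _ x => hst.abs_le x)
      (fun _ => fam P Q) (fun _ => Subset.refl _)
    rw [card_site] at this
    exact (le_abs_self _).trans this
  · intro g f hst Q L hQ
    exact dens_le_diag P (jj_pos k) _ (hnice g hst.deg hst.prim hst.inters) Q L hQ f
  intro Y1 Y L hY1 hWY hYY hL hcov g f hst hht Z0 hZ0 hZ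
  choose Tg Th ζ β η z h using hdata g hst.deg hst.prim hst.inters
  obtain ⟨e, -, he⟩ := htr p0.factorial hWc g hst.deg hst.lead
    (fun l hl => nc_of_prim g hst.prim hst.inters l hl)
  have hQ : 2 ≤ Y * Y1 := by nlinarith
  have hYQ : Y ≤ Y * Y1 := Nat.le_mul_of_pos_right _ (by omega)
  have hpow : ∀ n, n ≤ A0 + 20 + k + 3 → (Y * Y1) ^ n ≤ (Y * Y1) ^ (A0 + 20 + k + 3) :=
    fun n hn => Nat.pow_le_pow_right (by omega) hn
  have hYA : Y ^ A0 ≤ (Y * Y1) ^ (A0 + 20 + k + 3) :=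
    (Nat.pow_le_pow_left hYQ A0).trans (hpow _ (by omega))
  rw [← card_site]
  refine step_core P k (by omega) hP hnice _ (Nat.pow_pos hWc) hPW g f hst Cb Tg Th ζ β η z h ?_
    Y1 Y L hY1 hWY hYY ((hpow 20 (by omega)).trans hL) ?_ e Ctr hCtr ?_ Z0 hZ0 hZ
  · have h1 := sum_inv_sq_le P hP p0 (by omega) hp
    have h2 : ∑ i, β i * P i ≤ Cb * ∑ i, ((P i : ℝ) ^ 2)⁻¹ := by
      rw [Finset.mul_sum]; exact Finset.sum_le_sum fun i _ => (h i).beta
    refine h2.trans ((mul_le_mul_of_nonneg_left h1 hCb).trans ?_)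
    have h3 : (p2 : ℝ) ≤ p0 := by exact_mod_cast (by omega : p2 ≤ p0)
    have h4 : (0 : ℝ) < p0 := by exact_mod_cast (by omega : 0 < p0)
    rw [← div_eq_mul_inv, div_le_div_iff₀ h4 (by positivity)]
    linarith
  · have h1 : 8 ≤ (Y * Y1) ^ 3 := by
      calc 8 = 2 ^ 3 := by norm_num
        _ ≤ _ := Nat.pow_le_pow_left hQ 3
    calc 8 * (Y * Y1) ^ k ≤ (Y * Y1) ^ 3 * (Y * Y1) ^ k := Nat.mul_le_mul_right _ h1
      _ = (Y * Y1) ^ (3 + k) := by rw [← pow_add]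
      _ ≤ L := (hpow _ (by omega)).trans hL
  · intro S hS hh H hH hper hsupp
    refine he P hP hPW0 S (kp k) (kp_pos k).le (by linarith [kp_le_half k (by omega)]) z
      (fun i => (h i).wt) Y Y L (by omega) le_rfl (by omega) hht (by omega) (by omega)
      (hYA.trans hL) ?_ _ _ (fun x => hst.res_le _ x) (fun x => hst.res_le _ x) ?_ hh H hH hper
      hsupp
    · intro l hl hlY
      by_cases hlp : p0 < l
      · exact Or.inr (hcov l hl hlp (hlY.trans hYA))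
      · exact Or.inl (hl.dvd_factorial.2 (by omega))
    · intro x y hx hy
      unfold res at hx hy
      have hx1 : x ∈ RU L (p0.factorial ^ Γ) e := by by_contra h'; exact hx (if_neg h')
      have hy1 : y ∈ RV L (p0.factorial ^ Γ) := by by_contra h'; exact hy (if_neg h')
      rw [if_pos hx1] at hx
      rw [if_pos hy1] at hy
      unfold RU at hx1
      unfold RV at hy1
      rw [mem_filter, mem_Ico] at hx1 hy1
      have hlt : y < x := by omega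
      refine ⟨hlt, ?_, fun n hn hxy => ?_⟩
      · have h1 := (Nat.modEq_iff_dvd.1 hx1.2.symm)
        have h2 := (Nat.modEq_iff_dvd.1 hy1.2.symm)
        have h3 := dvd_sub h1 h2
        have h4 : (x : ℤ) - e - (y - (0 : ℕ)) = x - y - e := by push_cast; ring
        rwa [h4] at h3
      · have := hst.avoid x y hx hy n hn hxy
        omega

end

end Vale.Agent.P042
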