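import Vale.Agent.P042.MainE

open Finset Polynomial

namespace Vale.Agent.P042

noncomputable section

theorem exists_exp (τ : ℝ) (hτ : 1 < τ) (ε : ℝ) (hε : 0 < ε) (k : ℕ) (hk : 1 ≤ k) :
    ∃ c : ℝ, 0 < c ∧ k * c ≤ 1 ∧ τ ^ c ≤ 1 + ε := by
  have hl : 0 < Real.log τ := Real.log_pos hτ
  have hl2 : 0 < Real.log (1 + ε) := Real.log_pos (by linarith)
  have hk0 : (0 : ℝ) < k := by exact_mod_cast hk
  refine ⟨min (1 / k) (Real.log (1 + ε) / Real.log τ), lt_min (by positivity) (by positivity),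
    ?_, ?_⟩
  · calc (k : ℝ) * min (1 / (k : ℝ)) (Real.log (1 + ε) / Real.log τ) ≤ k * (1 / k) :=
          mul_le_mul_of_nonneg_left (min_le_left _ _) hk0.le
      _ = 1 := by field_simp
  · calc τ ^ min (1 / (k : ℝ)) (Real.log (1 + ε) / Real.log τ)
        ≤ τ ^ (Real.log (1 + ε) / Real.log τ) :=
          Real.rpow_le_rpow_of_exponent_le hτ.le (min_le_right _ _)
      _ = 1 + ε := by
          rw [Real.rpow_def_of_pos (by linarith), mul_div_cancel₀ _ hl.ne',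
            Real.exp_log (by linarith)]

theorem pow_kp (k : ℕ) (x : ℝ) (hx : 0 < x) : (x ^ (2 ^ k : ℕ)) ^ (-kp k) = x⁻¹ := by
  rw [← Real.rpow_natCast, ← Real.rpow_mul hx.le, ← Real.rpow_neg_one]
  congr 1
  unfold kp
  push_cast
  field_simp

theorem rec_num (c0 Cs Ce s τc r : ℝ) (hc0 : 0 < c0) (hc1 : c0 ≤ 1) (hCs : 0 ≤ Cs) (hs : 0 ≤ s)
    (hτ : τc ≤ 1 + c0 / 2) (hr : r ≤ s) (hr0 : 0 ≤ r) (hCe : 0 ≤ Ce) (hC : 4 * Ce ≤ c0 * Cs) :
    (1 - c0) * (Cs * (s * τc)) + Ce * (r + r) ≤ Cs * s := by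
  have h1 : (1 - c0) * τc ≤ 1 - c0 / 2 := by
    have := mul_le_mul_of_nonneg_left hτ (by linarith : 0 ≤ 1 - c0)
    nlinarith
  have h2 := mul_le_mul_of_nonneg_left h1 (mul_nonneg hCs hs)
  have h3 := mul_le_mul_of_nonneg_left hr hCe
  have h4 := mul_le_mul_of_nonneg_right hC hs
  nlinarith

theorem decay (k : ℕ) (hk : 2 ≤ k) : ∃ (c : ℝ) (A R0 : ℕ) (Cs : ℝ), 0 < c ∧ c ≤ 1 ∧ 1 ≤ A ∧
    0 ≤ Cs ∧ ∀ g f, St k g f → ∀ R L : ℕ, R0 ≤ R → ht g ≤ R → R ^ A ≤ L →
    ((∑ x ∈ range L, f x) / L) ^ (6 ^ jj k) ≤ Cs * (R : ℝ) ^ (-c) := by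
  obtain ⟨p0, W2, A, Ce, hW2, hA, hCe, hstep⟩ := one_step k hk
  set N := 6 ^ jj k with hN
  set τ : ℕ := 4 * (2 * W2) ^ k with hτ
  have hτ1 : 1 ≤ (2 * W2) ^ k := Nat.pow_pos (by omega)
  have hτ4 : 4 ≤ τ := by omega
  set c0 : ℝ := 1 / (16 * (W2 : ℝ) ^ 2) / 2 with hc0
  have hW2' : (1 : ℝ) ≤ W2 := by exact_mod_cast hW2
  have hc00 : 0 < c0 := by positivity
  have hc01 : c0 ≤ 1 := by
    rw [hc0, div_div, div_le_one (by positivity)]; nlinarith
  obtain ⟨c, hc, hkc, hτc⟩ := exists_exp τ (by exact_mod_cast (by omega : 1 < τ)) (c0 / 2)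
    (by positivity) k (by omega)
  have hk1 : (1 : ℝ) ≤ k := by exact_mod_cast (by omega : 1 ≤ k)
  have hc1 : c ≤ 1 := by nlinarith
  set Cs : ℝ := 2 ^ N + 4 * Ce / c0 with hCs
  have hCs0 : 0 ≤ Cs := by positivity
  have hCs1 : 2 ^ N ≤ Cs := by
    have : 0 ≤ 4 * Ce / c0 := by positivity
    linarith
  have hCs2 : 4 * Ce ≤ c0 * Cs := by
    rw [hCs, mul_add, mul_div_cancel₀ _ hc00.ne']
    have : 0 ≤ c0 * 2 ^ N := by positivity
    linarith
  set a1 : ℕ := 2 ^ k with ha1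
  set a2 : ℕ := (1 + a1 * (N + 2)) * a1 with ha2
  have ha12 : 2 ≤ a1 := by
    calc 2 = 2 ^ 1 := by norm_num
      _ ≤ 2 ^ k := Nat.pow_le_pow_right (by norm_num) (by omega)
  have ha21 : a1 ≤ a2 := Nat.le_mul_of_pos_left _ (by omega)
  refine ⟨c, 2 + a1 * k + (a2 + a1) * A, τ + W2 + 2, Cs, hc, hc1, by omega, hCs0, ?_⟩
  intro g0 f0 hst0 R L0 hR hht0 hL0
  have hR2 : 2 ≤ R := by omega
  have hR0 : (0 : ℝ) < R := by exact_mod_cast (by omega : 0 < R)
  set Y1 := R ^ a1 with hY1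
  set Y := R ^ a2 with hY
  have hRY1 : R ^ 2 ≤ Y1 := Nat.pow_le_pow_right (by omega) ha12
  have hYY : Y1 ≤ Y := Nat.pow_le_pow_right (by omega) ha21
  have hRR : R ≤ R ^ 2 := Nat.le_self_pow (by omega) _
  have hQ2 : 2 ≤ Y * Y1 := by nlinarith
  set Λ := (range ((Y * Y1) ^ A + 1)).filter (fun p => p.Prime ∧ p0 < p) with hΛ
  let P : {p // p ∈ Λ} → ℕ := Subtype.val
  have : ∀ i, Fact (P i).Prime := fun i => ⟨(mem_filter.1 i.2).2.1⟩
  obtain ⟨hZ1, hZ2, hZ3⟩ := hstep P Subtype.val_injective (fun i => (mem_filter.1 i.2).2.2)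
  have hcov : ∀ l : ℕ, l.Prime → p0 < l → l ≤ (Y * Y1) ^ A → ∃ i, P i = l := fun l h1 h2 h3 =>
    ⟨⟨l, mem_filter.2 ⟨mem_range.2 (by omega), h1, h2⟩⟩, rfl⟩
  have hbig : R * τ * Y1 ^ k * (Y * Y1) ^ A ≤ L0 := by
    refine le_trans ?_ hL0
    calc R * τ * Y1 ^ k * (Y * Y1) ^ A ≤ R * R * Y1 ^ k * (Y * Y1) ^ A := by
          gcongr; omega
      _ = R ^ (2 + a1 * k + (a2 + a1) * A) := by
          rw [hY1, hY, ← pow_add, ← pow_mul, ← pow_mul, pow_add, pow_add]; ring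
  have hlen : ∀ t L : ℕ, t ≤ R * τ * Y1 ^ k → L0 ≤ t * L → (Y * Y1) ^ A ≤ L := by
    intro t L ht hL
    have hpos : 0 < R * τ * Y1 ^ k := by positivity
    apply Nat.le_of_mul_le_mul_left _ hpos
    calc _ ≤ L0 := hbig
      _ ≤ t * L := hL
      _ ≤ _ := Nat.mul_le_mul_right _ ht
  have he1 : (Y1 : ℝ) ^ (-kp k) = (R : ℝ)⁻¹ := by
    rw [hY1, ha1]; push_cast; exact pow_kp k R hR0
  have he2 : (Y : ℝ) ^ (-kp k) * (Y1 : ℝ) ^ (N + 2) = (R : ℝ)⁻¹ := by
    have : (Y : ℝ) = ((R : ℝ) * (Y1 : ℝ) ^ (N + 2)) ^ (2 ^ k : ℕ) := by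
      rw [hY, hY1, ha2, ← ha1]; push_cast; rw [pow_mul, pow_add, pow_one, pow_mul]
    have hY10 : (0 : ℝ) < Y1 := by rw [hY1]; positivity
    rw [this, pow_kp k _ (by positivity)]
    field_simp
  have key : ∀ n t : ℕ, R - t ≤ n → 1 ≤ t → t ≤ R * τ * Y1 ^ k → ∀ g f (L : ℕ), St k g f →
      ht g ≤ R * t → L0 ≤ t * L → ZZ k P g (Y * Y1) L f ≤ Cs * ((t : ℝ) / R) ^ c := by
    have base : ∀ t : ℕ, R ≤ t → t ≤ R * τ * Y1 ^ k → ∀ g f (L : ℕ), St k g f →
        L0 ≤ t * L → ZZ k P g (Y * Y1) L f ≤ Cs * ((t : ℝ) / R) ^ c := by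
      intro t htR ht g f L hst hL
      have h1 := hZ1 g f hst _ L hQ2
        ((Nat.pow_le_pow_right (by omega) hA).trans (hlen t L ht hL))
      have h2 : 1 ≤ ((t : ℝ) / R) ^ c :=
        Real.one_le_rpow (by rw [le_div_iff₀ hR0, one_mul]; exact_mod_cast htR) hc.le
      calc _ ≤ Cs * 1 := by linarith
        _ ≤ _ := mul_le_mul_of_nonneg_left h2 hCs0
    intro n
    induction n with
    | zero => intro t h1 _ h3 g f L hst _ hL; exact base t (by omega) h3 g f L hst hL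
    | succ n ih =>
      intro t h1 h2 h3 g f L hst hht hL
      by_cases htR : R ≤ t
      · exact base t htR h3 g f L hst hL
      have ht0 : (0 : ℝ) < t := by exact_mod_cast h2
      have hs0 : 0 ≤ ((t : ℝ) / R) ^ c := by positivity
      have h4 := hZ3 Y1 Y L (by omega) (by omega) hYY (hlen t L h3 hL) hcov g f hst
        (by
          have : R * t ≤ Y := by nlinarith
          exact hht.trans (by exact_mod_cast this))
        (Cs * (((t : ℝ) / R) ^ c * (τ : ℝ) ^ c)) (by positivity) (by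
          intro m hm1 hm2 g' f' L' hst' hht' hL'
          have hmk : 1 ≤ m ^ k := Nat.pow_pos hm1
          have hmk2 : m ^ k ≤ Y1 ^ k := Nat.pow_le_pow_left hm2 k
          have h5 : t * 4 * 1 ≤ t * τ * m ^ k := by gcongr
          have h6 : (2 * (W2 * m)) ^ k ≤ τ * m ^ k := by
            rw [← mul_assoc, mul_pow]; gcongr; omega
          have h7 : 4 * (W2 * m) ^ k ≤ τ * m ^ k := by
            rw [mul_pow, ← mul_assoc, hτ]; gcongr; omega
          have h8 := ih (t * τ * m ^ k) (by omega) (by omega) (by gcongr; omega) g' f' L' hst'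
            (by
              refine hht'.trans ?_
              have h9 : (2 * ((W2 * m : ℕ) : ℤ)) ^ k ≤ ((τ * m ^ k : ℕ) : ℤ) := by
                exact_mod_cast h6
              calc _ ≤ ((R : ℤ) * t) * ((τ * m ^ k : ℕ) : ℤ) :=
                    mul_le_mul hht h9 (by positivity) (by positivity)
                _ = _ := by push_cast; ring)
            (by
              calc L0 ≤ t * L := hL
                _ ≤ t * (4 * (W2 * m) ^ k * L') := by gcongr
                _ ≤ t * (τ * m ^ k * L') := by gcongr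
                _ = _ := by ring)
          refine h8.trans ?_
          have hm' : (1 : ℝ) ≤ m := by exact_mod_cast hm1
          have h9 : ((m : ℝ) ^ k) ^ c ≤ m := by
            rw [← Real.rpow_natCast, ← Real.rpow_mul (by positivity)]
            calc (m : ℝ) ^ (k * c) ≤ (m : ℝ) ^ (1 : ℝ) :=
                  Real.rpow_le_rpow_of_exponent_le hm' hkc
              _ = m := Real.rpow_one _
          have h10 : (((t * τ * m ^ k : ℕ) : ℝ) / R) ^ c =
              ((t : ℝ) / R) ^ c * (τ : ℝ) ^ c * ((m : ℝ) ^ k) ^ c := by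
            rw [← Real.mul_rpow (by positivity) (by positivity),
              ← Real.mul_rpow (by positivity) (by positivity)]
            congr 1
            rw [Nat.cast_mul, Nat.cast_mul, Nat.cast_pow]; ring
          rw [h10, mul_assoc Cs]
          gcongr)
      rw [he1, he2] at h4
      refine h4.trans (rec_num c0 Cs Ce _ _ _ hc00 hc01 hCs0 hs0 hτc ?_ (by positivity) hCe hCs2)
      have h5 : (R : ℝ)⁻¹ ≤ t / R := by
        rw [← one_div]; gcongr; exact_mod_cast h2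
      have h6 : (t : ℝ) / R ≤ 1 := by
        rw [div_le_one hR0]; exact_mod_cast (not_le.1 htR).le
      calc (R : ℝ)⁻¹ ≤ t / R := h5
        _ = ((t : ℝ) / R) ^ (1 : ℝ) := (Real.rpow_one _).symm
        _ ≤ _ := Real.rpow_le_rpow_of_exponent_ge (by positivity) h6 hc1
  have h1 := key R 1 (by omega) le_rfl (Nat.succ_le_of_lt (by positivity)) g0 f0 L0 hst0
    (by simpa using hht0) (by omega)
  refine (hZ2 g0 f0 hst0 _ L0 (by omega)).trans (h1.trans (le_of_eq ?_))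
  rw [Nat.cast_one, one_div, Real.inv_rpow hR0.le, Real.rpow_neg hR0.le]

/-- power saving for the density of a state -/
theorem dens_bound (k : ℕ) (hk : 2 ≤ k) : ∃ c : ℝ, 0 < c ∧ c ≤ 1 ∧ ∀ g : ℤ[X], ∃ C : ℝ, 0 ≤ C ∧
    ∀ f, St k g f → ∀ L : ℕ, 1 ≤ L → ∑ x ∈ range L, f x ≤ C * (L : ℝ) ^ (1 - c) := by
  obtain ⟨c, A, R0, Cs, hc, hc1, hA, hCs, h⟩ := decay k hk
  set N := 6 ^ jj k with hN
  have hN1 : 1 ≤ N := Nat.pow_pos (by norm_num)
  have hA' : (1 : ℝ) ≤ A := by exact_mod_cast hA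
  have hN' : (1 : ℝ) ≤ N := by exact_mod_cast hN1
  have hAN : (1 : ℝ) ≤ A * N := one_le_mul_of_one_le_of_one_le hA' hN'
  have hcc : c / (A * N) ≤ 1 := by rw [div_le_one (by positivity)]; linarith
  refine ⟨c / (A * N), by positivity, hcc, fun g => ?_⟩
  set R1 : ℕ := R0 + (ht g).natAbs + 1 with hR1
  set C1 : ℝ := 2 * Cs + (R1 : ℝ) ^ A + 1 with hC1
  have hC11 : 1 ≤ C1 := by
    have : (0 : ℝ) ≤ (R1 : ℝ) ^ A := by positivity
    linarith
  refine ⟨C1, by linarith, fun f hst L hL => ?_⟩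
  have hL1 : (1 : ℝ) ≤ L := by exact_mod_cast hL
  have hL0 : (0 : ℝ) < L := by linarith
  have hα0 : 0 ≤ (∑ x ∈ range L, f x) / L :=
    div_nonneg (Finset.sum_nonneg fun x _ => hst.f0 x) hL0.le
  suffices hs : (∑ x ∈ range L, f x) / L ≤ C1 * (L : ℝ) ^ (-(c / (A * N))) by
    rw [div_le_iff₀ hL0] at hs
    refine hs.trans (le_of_eq ?_)
    rw [sub_eq_neg_add, Real.rpow_add hL0, Real.rpow_one, mul_assoc]
  set R := Nat.nthRoot A L with hR
  have h1 : R ^ A ≤ L := Nat.pow_nthRoot_le_iff.2 (Or.inl (by omega))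
  have h2 : L < (R + 1) ^ A := Nat.lt_pow_nthRoot_add_one (by omega) L
  by_cases hRR : R1 ≤ R
  · have hR0 : (1 : ℝ) ≤ R := by exact_mod_cast (by omega : 1 ≤ R)
    have h3 := h g f hst R L (by omega) (by have := le_abs_self (ht g); omega) h1
    have h4 : (L : ℝ) ≤ (2 * R : ℝ) ^ A := by
      have : (R + 1) ^ A ≤ (2 * R) ^ A := Nat.pow_le_pow_left (by omega) A
      exact_mod_cast h2.le.trans this
    have h5 : (L : ℝ) ^ (c / A) ≤ 2 * (R : ℝ) ^ c := by
      calc (L : ℝ) ^ (c / A) ≤ ((2 * R : ℝ) ^ A) ^ (c / A) :=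
            Real.rpow_le_rpow hL0.le h4 (by positivity)
        _ = (2 * R : ℝ) ^ c := by
            rw [← Real.rpow_natCast, ← Real.rpow_mul (by positivity)]
            congr 1; field_simp
        _ = (2 : ℝ) ^ c * (R : ℝ) ^ c := Real.mul_rpow (by norm_num) (by positivity)
        _ ≤ 2 * (R : ℝ) ^ c := by
            gcongr
            calc (2 : ℝ) ^ c ≤ (2 : ℝ) ^ (1 : ℝ) :=
                  Real.rpow_le_rpow_of_exponent_le (by norm_num) hc1
              _ = 2 := Real.rpow_one _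
    have h6 : (R : ℝ) ^ (-c) ≤ 2 * (L : ℝ) ^ (-(c / A)) := by
      rw [Real.rpow_neg (by positivity), Real.rpow_neg hL0.le, ← div_eq_mul_inv, ← one_div,
        div_le_div_iff₀ (by positivity) (by positivity)]
      linarith
    apply le_of_pow_le_pow_left₀ (n := N) (by omega) (by positivity)
    refine h3.trans ?_
    have h7 : ((L : ℝ) ^ (-(c / (A * N)))) ^ N = (L : ℝ) ^ (-(c / A)) := by
      rw [← Real.rpow_natCast, ← Real.rpow_mul hL0.le]
      congr 1; field_simp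
    rw [mul_pow, h7]
    have h8 : 2 * Cs ≤ C1 ^ N := by
      have : (0 : ℝ) ≤ (R1 : ℝ) ^ A := by positivity
      calc 2 * Cs ≤ C1 := by linarith
        _ ≤ C1 ^ N := le_self_pow₀ hC11 (by omega)
    calc Cs * (R : ℝ) ^ (-c) ≤ Cs * (2 * (L : ℝ) ^ (-(c / A))) := by gcongr
      _ = 2 * Cs * (L : ℝ) ^ (-(c / A)) := by ring
      _ ≤ _ := by gcongr
  · have h3 : (∑ x ∈ range L, f x) / L ≤ 1 := by
      rw [div_le_one hL0]
      calc ∑ x ∈ range L, f x ≤ ∑ x ∈ range L, (1 : ℝ) := Finset.sum_le_sum fun x _ => hst.f1 x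
        _ = L := by simp
    have h4 : (L : ℝ) ≤ C1 := by
      have h5 : (R + 1) ^ A ≤ R1 ^ A := Nat.pow_le_pow_left (by omega) A
      have h6 : (L : ℝ) ≤ (R1 : ℝ) ^ A := by exact_mod_cast h2.le.trans h5
      linarith
    have h5 : (L : ℝ) ^ (c / (A * N)) ≤ C1 := by
      calc (L : ℝ) ^ (c / (A * N)) ≤ (L : ℝ) ^ (1 : ℝ) := Real.rpow_le_rpow_of_exponent_le hL1 hcc
        _ = L := Real.rpow_one _
        _ ≤ C1 := h4
    refine h3.trans ?_
    rw [Real.rpow_neg hL0.le, ← div_eq_mul_inv, le_div_iff₀ (by positivity), one_mul]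
    exact h5

theorem power_saving (k : ℕ) (hk : 2 ≤ k) : ∃ c : ℝ, 0 < c ∧ ∀ h : ℤ[X], h.natDegree = k →
    0 < h.leadingCoeff → (∀ q : ℕ, 1 ≤ q → ∃ t : ℤ, (q : ℤ) ∣ h.eval t) →
    ∃ C : ℝ, ∀ (N : ℕ) (A : Finset ℕ), A ⊆ Icc 1 N →
      (∀ a ∈ A, ∀ b ∈ A, ∀ n : ℕ, 1 ≤ n → (a : ℤ) - b = h.eval (n : ℤ) → h.eval (n : ℤ) = 0) →
      (A.card : ℝ) ≤ C * (N : ℝ) ^ (1 - c) := by
  obtain ⟨c, hc, hc1, hd⟩ := dens_bound k hk
  refine ⟨c, hc, fun h hdeg hl hint => ?_⟩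
  obtain ⟨d, g, hd1, hg, g1, g2, g3, g4⟩ := prim_part h hl hint
  obtain ⟨C1, hC1, hC⟩ := hd g
  refine ⟨2 * d * C1, fun N A hA hav => ?_⟩
  rcases Nat.eq_zero_or_pos N with rfl | hN
  · have : A = ∅ := by simpa using hA
    subst this
    simp only [card_empty, Nat.cast_zero]
    positivity
  have hst : ∀ r : ℕ, St k g (fun x => if r + d * x ∈ A then 1 else 0) := by
    intro r
    refine ⟨g1.trans hdeg, g2, g3, g4, fun x => ?_, fun x => ?_, ?_⟩
    · split_ifs <;> norm_num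
    · split_ifs <;> norm_num
    · intro x y hx hy n hn hxy
      have hx' : r + d * x ∈ A := by by_contra h'; exact hx (if_neg h')
      have hy' : r + d * y ∈ A := by by_contra h'; exact hy (if_neg h')
      have h1 : h.eval (n : ℤ) = d * ((x : ℤ) - y) := by rw [hg, eval_mul, eval_C, hxy]
      have h2 := hav _ hx' _ hy' n hn (by rw [h1]; push_cast; ring)
      rw [h1] at h2
      rcases mul_eq_zero.1 h2 with h3 | h3
      · omega
      · omega
  have h1 : A.card ≤ ((range d ×ˢ range (N + 1)).filter (fun z => z.1 + d * z.2 ∈ A)).card := by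
    apply Finset.card_le_card_of_injOn (fun a => (a % d, a / d))
    · intro a ha
      have h2 := mem_Icc.1 (hA ha)
      have h3 := Nat.div_le_self a d
      simp only [coe_filter, mem_product, mem_range, Set.mem_ofPred_eq]
      refine ⟨⟨Nat.mod_lt _ hd1, by omega⟩, ?_⟩
      rw [Nat.mod_add_div]; exact ha
    · intro a _ b _ hab
      simp only [Prod.mk.injEq] at hab
      rw [← Nat.mod_add_div a d, ← Nat.mod_add_div b d, hab.1, hab.2]
  have h2 : (((range d ×ˢ range (N + 1)).filter (fun z => z.1 + d * z.2 ∈ A)).card : ℝ) =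
      ∑ r ∈ range d, ∑ x ∈ range (N + 1), (if r + d * x ∈ A then (1 : ℝ) else 0) := by
    rw [Finset.card_filter, Finset.sum_product]; push_cast; rfl
  have h3 : (((N + 1 : ℕ) : ℝ)) ^ (1 - c) ≤ 2 * (N : ℝ) ^ (1 - c) := by
    have hN1 : (1 : ℝ) ≤ N := by exact_mod_cast hN
    calc (((N + 1 : ℕ) : ℝ)) ^ (1 - c) ≤ (2 * N : ℝ) ^ (1 - c) :=
          Real.rpow_le_rpow (by positivity) (by push_cast; linarith) (by linarith)
      _ = (2 : ℝ) ^ (1 - c) * (N : ℝ) ^ (1 - c) := Real.mul_rpow (by norm_num) (by positivity)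
      _ ≤ 2 * (N : ℝ) ^ (1 - c) := by
          gcongr
          calc (2 : ℝ) ^ (1 - c) ≤ (2 : ℝ) ^ (1 : ℝ) :=
                Real.rpow_le_rpow_of_exponent_le (by norm_num) (by linarith)
            _ = 2 := Real.rpow_one _
  calc (A.card : ℝ) ≤ _ := by exact_mod_cast h1
    _ = _ := h2
    _ ≤ ∑ _r ∈ range d, C1 * (((N + 1 : ℕ) : ℝ)) ^ (1 - c) :=
        Finset.sum_le_sum fun r _ => hC _ (hst r) (N + 1) (by omega)
    _ = d * (C1 * (((N + 1 : ℕ) : ℝ)) ^ (1 - c)) := by simp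
    _ ≤ d * (C1 * (2 * (N : ℝ) ^ (1 - c))) := by gcongr
    _ = _ := by ring

end

end Vale.Agent.P042
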