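import Vale.Agent.P042.Weyl
import Vale.Agent.P042.Poly

open Finset Polynomial

namespace Vale.Agent.P042

namespace MinorAux

lemma abel_id (a b : ℕ → ℂ) (X0 X1 : ℕ) (h : X0 ≤ X1) :
    ∑ n ∈ Ico X0 X1, a n * b n = (∑ i ∈ Ico X0 X1, a i) * b X1 -
      ∑ n ∈ Ico X0 X1, (∑ i ∈ Ico X0 (n + 1), a i) * (b (n + 1) - b n) := by
  induction X1, h using Nat.le_induction with
  | base => simp
  | succ X1 h ih =>
    rw [sum_Ico_succ_top h, sum_Ico_succ_top h (fun n => (∑ i ∈ Ico X0 (n + 1), a i) *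
      (b (n + 1) - b n)), ih, sum_Ico_succ_top h a]
    ring

lemma sum_residue (f : ℕ → ℂ) (m : ℕ) (hm : 1 ≤ m) (N : ℕ) :
    ∑ n ∈ range N, f n = ∑ r ∈ range m, ∑ t ∈ range ((N + m - 1 - r) / m), f (r + m * t) := by
  rw [← sum_fiberwise_of_maps_to (g := fun n => n % m) (t := range m)
    (fun n _ => mem_range.2 (Nat.mod_lt n hm))]
  refine sum_congr rfl fun r hr => ?_
  rw [mem_range] at hr
  have key : ∀ t, t < (N + m - 1 - r) / m ↔ r + m * t < N := by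
    intro t
    rw [Nat.lt_iff_add_one_le, Nat.le_div_iff_mul_le hm, add_mul, one_mul, mul_comm t m]
    omega
  symm
  refine sum_nbij' (fun t => r + m * t) (fun n => n / m) ?_ ?_ ?_ ?_ fun _ _ => rfl
  · intro t ht
    rw [mem_range, key] at ht
    exact mem_filter.2 ⟨mem_range.2 ht, by rw [Nat.add_mul_mod_self_left, Nat.mod_eq_of_lt hr]⟩
  · intro n hn
    obtain ⟨h1, h2⟩ := mem_filter.1 hn
    rw [mem_range, key, ← h2, Nat.mod_add_div]
    exact mem_range.1 h1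
  · intro t _
    rw [Nat.add_mul_div_left _ _ hm, Nat.div_eq_of_lt hr, zero_add]
  · intro n hn
    obtain ⟨_, h2⟩ := mem_filter.1 hn
    rw [← h2, Nat.mod_add_div]

lemma per_add (w : ℕ → ℝ) (m : ℕ) (hw : ∀ n, w (n + m) = w n) (r t : ℕ) :
    w (r + m * t) = w r := by
  induction t with
  | zero => simp
  | succ t ih => rw [mul_add, mul_one, ← add_assoc, hw, ih]

lemma init_bound (e : ℕ → ℂ) (w : ℕ → ℝ) (m : ℕ) (hm : 1 ≤ m) (hw : ∀ n, w (n + m) = w n)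
    (U B : ℝ) (hU : ∀ n, |w n| ≤ U) (Z : ℕ)
    (h : ∀ r, r < m → ∀ T, T ≤ Z → ‖∑ t ∈ range T, e (r + m * t)‖ ≤ B) (N : ℕ) (hN : N ≤ Z) :
    ‖∑ n ∈ range N, (w n : ℂ) * e n‖ ≤ m * (U * B) := by
  rw [sum_residue _ m hm]
  refine (norm_sum_le _ _).trans ((sum_le_card_nsmul _ _ (U * B) fun r hr => ?_).trans ?_)
  · simp only [per_add w m hw]
    rw [← mul_sum, norm_mul, Complex.norm_real, Real.norm_eq_abs]
    refine mul_le_mul (hU r) (h r (mem_range.1 hr) _ (le_trans ?_ hN)) (norm_nonneg _)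
      ((abs_nonneg _).trans (hU 0))
    rw [Nat.div_le_iff_le_mul_add_pred hm]
    have : N ≤ m * N := Nat.le_mul_of_pos_left N hm
    omega
  · rw [card_range, nsmul_eq_mul]

end MinorAux

open MinorAux in
/-- Abel summation inequality. -/
theorem abel_bound (a b : ℕ → ℂ) (X0 X1 : ℕ) (B S V : ℝ)
    (hB : ∀ n, X0 ≤ n → n ≤ X1 → ‖∑ i ∈ Ico X0 n, a i‖ ≤ B)
    (hS : ∀ n, X0 ≤ n → n ≤ X1 → ‖b n‖ ≤ S)
    (hV : ∑ n ∈ Ico X0 X1, ‖b (n + 1) - b n‖ ≤ V) (hB0 : 0 ≤ B) (hS0 : 0 ≤ S) :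
    ‖∑ n ∈ Ico X0 X1, a n * b n‖ ≤ B * (S + V) := by
  have hV0 : 0 ≤ V := (sum_nonneg fun _ _ => norm_nonneg _).trans hV
  rcases le_or_gt X0 X1 with h | h
  · rw [abel_id a b X0 X1 h, mul_add]
    refine (norm_sub_le _ _).trans (add_le_add ?_ ?_)
    · rw [norm_mul]
      exact mul_le_mul (hB X1 h le_rfl) (hS X1 h le_rfl) (norm_nonneg _) hB0
    · refine (norm_sum_le _ _).trans (le_trans ?_ (mul_le_mul_of_nonneg_left hV hB0))
      rw [mul_sum]
      refine sum_le_sum fun n hn => ?_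
      rw [mem_Ico] at hn
      rw [norm_mul]
      exact mul_le_mul_of_nonneg_right (hB (n + 1) (by omega) (by omega)) (norm_nonneg _)
  · rw [Ico_eq_empty_of_le h.le, sum_empty, norm_zero]
    positivity

open MinorAux in
/-- Minor arcs: a large weighted sum forces a good rational approximation. -/
theorem minor (k : ℕ) (hk : 1 ≤ k) : ∃ A : ℕ, ∀ U L : ℕ, 2 ≤ U → U ^ A ≤ L →
    ∀ G : ℤ[X], G.natDegree = k → ht G ≤ U →
    ∀ (m : ℕ) (w : ℕ → ℝ), 1 ≤ m → m ≤ U → (∀ n, w (n + m) = w n) → (∀ n, |w n| ≤ U) →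
    ∀ X0 X1 : ℕ, X1 ^ k ≤ 4 ^ k * L → ∀ θ : ℝ,
    (L : ℝ) / U ^ 2 ≤
      ‖∑ n ∈ Ico X0 X1, ((w n * dlt G n : ℝ) : ℂ) * ee (θ * (G.eval (n : ℤ) : ℤ))‖ →
    ∃ q : ℕ, 1 ≤ q ∧ q ≤ U ^ A ∧ ∃ b : ℤ, |(q : ℝ) * θ - b| ≤ (U : ℝ) ^ A / L := by
  obtain ⟨Cw, hCw⟩ := weyl_inv k hk
  obtain ⟨E, hE⟩ : ∃ E, E = 4 * k + 7 := ⟨_, rfl⟩
  refine ⟨(k + 1) * (E * Cw + 1), fun U L hU hL G hG hht m w hm hmU hw hwU X0 X1 hX θ hbig => ?_⟩
  have hk0 : k ≠ 0 := by omega
  have hU1 : 1 ≤ U := by omega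
  have hL1 : 1 ≤ L := (Nat.one_le_pow _ _ hU1).trans hL
  obtain ⟨z, hz⟩ : ∃ z, z = Nat.nthRoot k (4 ^ k * L) := ⟨_, rfl⟩
  have hz1 : X1 ≤ z := hz ▸ (Nat.le_nthRoot_iff hk0).2 hX
  have hz2 : 4 ≤ z := hz ▸ (Nat.le_nthRoot_iff hk0).2 (Nat.le_mul_of_pos_right _ hL1)
  have hz3 : z ^ k ≤ 4 ^ k * L := hz ▸ Nat.pow_nthRoot_le (Or.inl hk0)
  have hz4 : 4 ^ k * L < (z + 1) ^ k := hz ▸ Nat.lt_pow_nthRoot_add_one hk0 _
  clear hz
  have hLz : L ≤ (z + 1) ^ k := (Nat.le_mul_of_pos_left L (by positivity)).trans hz4.le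
  have hUR : (2 : ℝ) ≤ U := by exact_mod_cast hU
  have hU0 : (0 : ℝ) < U := by linarith
  have hLR : (0 : ℝ) < L := by exact_mod_cast hL1
  obtain ⟨δ, hδ⟩ : ∃ δ : ℝ, δ = ((U : ℝ) ^ E)⁻¹ := ⟨_, rfl⟩
  have hδ0 : 0 < δ := by rw [hδ]; positivity
  have hδinv : δ⁻¹ ^ Cw = ((U ^ (E * Cw) : ℕ) : ℝ) := by
    rw [hδ, inv_inv, ← pow_mul, Nat.cast_pow]
  have hhtR : ((ht G : ℤ) : ℝ) ≤ U := by exact_mod_cast hht
  have hht0 : (0 : ℝ) ≤ ((ht G : ℤ) : ℝ) := by exact_mod_cast ht_nonneg G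
  by_cases hsmall : ∀ r, r < m → ∀ T, T ≤ z + 1 →
      ‖∑ t ∈ range T, ee (θ * (G.eval ((r + m * t : ℕ) : ℤ) : ℤ))‖ ≤ δ * (z + 1 : ℕ)
  · exfalso
    have h1 := init_bound (fun n => ee (θ * (G.eval (n : ℤ) : ℤ))) w m hm hw U _ hwU (z + 1)
      hsmall
    obtain ⟨Y, hY⟩ : ∃ Y : ℝ, Y = (z : ℝ) + 2 := ⟨_, rfl⟩
    have hY0 : (0 : ℝ) ≤ z := Nat.cast_nonneg z
    have hmR : (m : ℝ) ≤ U := by exact_mod_cast hmU
    have h2 := abel_bound (fun n => (w n : ℂ) * ee (θ * (G.eval (n : ℤ) : ℤ)))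
      (fun n => ((dlt G n : ℝ) : ℂ)) X0 X1 (2 * (U * (U * (δ * Y)))) (k * U * Y ^ (k - 1))
      (k * U * Y ^ (k - 1))
      (fun n h0 hn => by
        rw [sum_Ico_eq_sub _ h0]
        refine (norm_sub_le _ _).trans ?_
        have a1 := h1 n (by omega)
        have a2 := h1 X0 (by omega)
        have a3 : (m : ℝ) * (U * (δ * (z + 1 : ℕ))) ≤ U * (U * (δ * Y)) := by
          rw [hY]
          push_cast
          gcongr
          norm_num
        linarith)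
      (fun n _ hn => by
        rw [Complex.norm_real, Real.norm_eq_abs]
        have a1 : |((dlt G n : ℤ) : ℝ)| ≤ k * ((ht G : ℤ) : ℝ) * ((z + 2 : ℕ) : ℝ) ^ (k - 1) := by
          exact_mod_cast abs_dlt_le G k hG.le n (z + 2) (by omega)
        refine a1.trans ?_
        rw [hY]
        push_cast
        gcongr)
      (by
        have a1 : ∑ n ∈ range (z + 1), |((dlt G (n + 1) : ℤ) : ℝ) - ((dlt G n : ℤ) : ℝ)| ≤
            k * ((ht G : ℤ) : ℝ) * (((z + 1 : ℕ) : ℝ) + 1) ^ (k - 1) := by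
          exact_mod_cast tv_dlt_le G k hG.le (z + 1)
        have a2 : ∑ n ∈ Ico X0 X1, ‖(((dlt G (n + 1) : ℤ) : ℝ) : ℂ) - (((dlt G n : ℤ) : ℝ) : ℂ)‖ ≤
            ∑ n ∈ range (z + 1), |((dlt G (n + 1) : ℤ) : ℝ) - ((dlt G n : ℤ) : ℝ)| := by
          simp only [← Complex.ofReal_sub, Complex.norm_real, Real.norm_eq_abs]
          refine sum_le_sum_of_subset_of_nonneg (fun n hn => ?_) fun _ _ _ => abs_nonneg _
          rw [mem_Ico] at hn
          exact mem_range.2 (by omega)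
        refine a2.trans (a1.trans ?_)
        have a3 : ((z + 1 : ℕ) : ℝ) + 1 = Y := by
          rw [hY]
          push_cast
          ring
        rw [a3]
        have : 0 ≤ Y := by linarith
        gcongr)
      (by rw [hY]; positivity) (by rw [hY]; positivity)
    have h3 : ∑ n ∈ Ico X0 X1, ((w n * dlt G n : ℝ) : ℂ) * ee (θ * (G.eval (n : ℤ) : ℤ)) =
        ∑ n ∈ Ico X0 X1, (w n : ℂ) * ee (θ * (G.eval (n : ℤ) : ℤ)) * ((dlt G n : ℝ) : ℂ) :=
      sum_congr rfl fun n _ => by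
        rw [Complex.ofReal_mul]
        ring
    rw [h3] at hbig
    have h4 := hbig.trans h2
    have h5 : Y ^ k ≤ 8 ^ k * L := by
      have a1 : (z + 2) ^ k ≤ 8 ^ k * L := by
        calc (z + 2) ^ k ≤ (2 * z) ^ k := Nat.pow_le_pow_left (by omega) k
          _ = 2 ^ k * z ^ k := mul_pow _ _ _
          _ ≤ 2 ^ k * (4 ^ k * L) := Nat.mul_le_mul_left _ hz3
          _ = 8 ^ k * L := by rw [← mul_assoc, ← mul_pow]; norm_num
      rw [hY]
      exact_mod_cast a1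
    have h6 : Y * Y ^ (k - 1) = Y ^ k := by
      rw [← pow_succ', Nat.sub_add_cancel hk]
    have h7 : 4 * k * 8 ^ k * U ^ 5 < U ^ E := by
      have a1 : k < 2 ^ k := Nat.lt_two_pow_self
      have a2 : 2 ^ (4 * k + 2) ≤ U ^ (4 * k + 2) := Nat.pow_le_pow_left hU _
      have a3 : 4 * k * 8 ^ k < 2 ^ (4 * k + 2) := by
        calc 4 * k * 8 ^ k < 4 * 2 ^ k * 8 ^ k :=
              Nat.mul_lt_mul_of_pos_right (by omega) (by positivity)
          _ = 4 * 16 ^ k := by rw [mul_assoc, ← mul_pow]; norm_num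
          _ = 2 ^ (4 * k + 2) := by rw [pow_add, pow_mul]; ring
      calc 4 * k * 8 ^ k * U ^ 5 < U ^ (4 * k + 2) * U ^ 5 :=
            Nat.mul_lt_mul_of_pos_right (by omega) (by positivity)
        _ = U ^ E := by rw [hE, ← pow_add]
    have h8 : (4 : ℝ) * k * 8 ^ k * U ^ 5 * δ < 1 := by
      rw [hδ, ← div_eq_mul_inv, div_lt_one (by positivity)]
      exact_mod_cast h7
    rw [div_le_iff₀ (by positivity)] at h4
    have h9 : 2 * (U * (U * (δ * Y))) * (k * U * Y ^ (k - 1) + k * U * Y ^ (k - 1)) * U ^ 2 =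
        4 * k * U ^ 5 * δ * Y ^ k := by
      rw [← h6]
      ring
    rw [h9] at h4
    have h10 : 4 * k * (U : ℝ) ^ 5 * δ * Y ^ k ≤ 4 * k * U ^ 5 * δ * (8 ^ k * L) := by gcongr
    have h11 := mul_lt_mul_of_pos_right h8 hLR
    nlinarith
  · push Not at hsmall
    obtain ⟨r, hr, T, hT, hbig'⟩ := hsmall
    have hm0 : (m : ℤ) ≠ 0 := by exact_mod_cast (by omega : m ≠ 0)
    obtain ⟨G', hG'⟩ : ∃ G' : ℤ[X], G' = G.comp (C (m : ℤ) * X + C (r : ℤ)) := ⟨_, rfl⟩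
    have hdeg : G'.natDegree = k := by
      rw [hG', natDegree_comp, natDegree_linear hm0, hG, mul_one]
    have hco : G'.coeff k = G.leadingCoeff * (m : ℤ) ^ k := by
      have := coeff_comp_degree_mul_degree (p := G) (q := C (m : ℤ) * X + C (r : ℤ))
        (by rw [natDegree_linear hm0]; norm_num)
      rwa [natDegree_linear hm0, leadingCoeff_linear hm0, hG, mul_one, ← hG'] at this
    have hG0 : G ≠ 0 := fun h => hk0 (by rw [← hG, h, natDegree_zero])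
    have hlam0 : G'.coeff k ≠ 0 := by
      rw [hco]
      exact mul_ne_zero (leadingCoeff_ne_zero.2 hG0) (pow_ne_zero _ hm0)
    have hlam1 : (G'.coeff k).natAbs ≤ U ^ (k + 1) := by
      rw [hco, Int.natAbs_mul, Int.natAbs_pow, Int.natAbs_natCast, pow_succ']
      refine Nat.mul_le_mul ?_ (Nat.pow_le_pow_left hmU k)
      have a1 : |G.leadingCoeff| ≤ U := (abs_coeff_le_ht G _).trans hht
      rw [← Int.natCast_natAbs] at a1
      exact_mod_cast a1
    have hZ : U ^ (E * Cw) ≤ z + 1 := by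
      refine (Nat.pow_le_pow_iff_left hk0).1 (le_trans ?_ (hL.trans hLz))
      rw [← pow_mul]
      exact Nat.pow_le_pow_right hU1 (by nlinarith [Nat.zero_le (E * Cw)])
    obtain ⟨q, hq1, hq2, b, hb⟩ := hCw δ hδ0
      (by
        rw [hδ, one_div]
        refine inv_anti₀ (by norm_num) (hUR.trans ?_)
        exact le_self_pow₀ (by linarith) (by omega))
      (C θ * G'.map (Int.castRingHom ℝ))
      ((natDegree_C_mul_le _ _).trans (natDegree_map_le.trans hdeg.le)) (z + 1) T hT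
      (by rw [hδinv]; exact_mod_cast hZ)
      (by
        refine hbig'.le.trans (le_of_eq ?_)
        congr 1
        refine sum_congr rfl fun t _ => ?_
        congr 1
        rw [eval_mul, eval_C, eval_natCast_map, hG', eval_comp]
        simp [add_comm])
    rw [hδinv] at hq2 hb
    rw [coeff_C_mul, coeff_map, eq_intCast] at hb
    have hq2' : q ≤ U ^ (E * Cw) := by exact_mod_cast hq2
    have hb' : |(q : ℝ) * (θ * (G'.coeff k : ℤ)) - b| ≤ (U : ℝ) ^ ((k + 1) * (E * Cw + 1)) / L := by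
      refine hb.trans (div_le_div₀ (by positivity) ?_ hLR (by exact_mod_cast hLz))
      rw [Nat.cast_pow]
      exact pow_le_pow_right₀ (by linarith) (by nlinarith [Nat.zero_le (k * (E * Cw))])
    refine ⟨q * (G'.coeff k).natAbs, Nat.mul_pos hq1 (Int.natAbs_pos.2 hlam0), ?_, ?_⟩
    · refine (Nat.mul_le_mul hq2' hlam1).trans ?_
      rw [← pow_add]
      exact Nat.pow_le_pow_right hU1 (by nlinarith [Nat.zero_le (k * (E * Cw))])
    · have hh := Int.natAbs_eq (G'.coeff k)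
      generalize (G'.coeff k).natAbs = n at hh ⊢
      rcases hh with h | h
      · refine ⟨b, le_trans (le_of_eq ?_) hb'⟩
        have : (n : ℝ) = (G'.coeff k : ℤ) := by exact_mod_cast h.symm
        rw [Nat.cast_mul, this]
        congr 1
        ring
      · refine ⟨-b, le_trans (le_of_eq ?_) hb'⟩
        have : (n : ℝ) = -(G'.coeff k : ℤ) := by
          have a1 : (n : ℤ) = -G'.coeff k := by omega
          exact_mod_cast a1
        rw [Nat.cast_mul, this, ← abs_neg]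
        congr 1
        push_cast
        ring

end Vale.Agent.P042
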