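import Vale.Agent.P042.Defs

open Finset Polynomial

namespace Vale.Agent.P042

/-- `a` does not depend on the coordinate `w`. -/
def Indep {W X : Type} [DecidableEq W] (a : (W → X) → ℝ) (w : W) : Prop :=
  ∀ y t, a (Function.update y w t) = a y

namespace PairB

/-- averaging over one coordinate -/
theorem avg {W X : Type} [Fintype W] [DecidableEq W] [Fintype X] (w : W) (F : (W → X) → ℝ) :
    (Fintype.card X : ℝ) * ∑ y, F y = ∑ y, ∑ t, F (Function.update y w t) := by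
  let σ : (W → X) × X → (W → X) × X := fun z => (Function.update z.1 w z.2, z.1 w)
  have hσ : Function.Involutive σ := fun z => by simp [σ]
  have h1 := hσ.bijective.sum_comp (fun z => F z.1)
  rw [Fintype.sum_prod_type, Fintype.sum_prod_type] at h1
  simp only [σ] at h1
  rw [h1, mul_sum]
  simp

theorem avgZ {W : Type} [Fintype W] [DecidableEq W] {p : ℕ} [NeZero p] (w : W)
    (F : (W → ZMod p) → ℝ) : (p : ℝ) * ∑ y, F y = ∑ y, ∑ t, F (Function.update y w t) := by
  rw [← avg, ZMod.card]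

theorem indep_mul {W X : Type} [DecidableEq W] {a b : (W → X) → ℝ} {w : W} (ha : Indep a w)
    (hb : Indep b w) : Indep (fun y => a y * b y) w := fun y t => by
  simp only [ha y t, hb y t]

theorem indep_prod {W : Type} [DecidableEq W] {p : ℕ} (k : ZMod p → ℝ) (E : Finset (W × W))
    (w : W) (h : ∀ e ∈ E, e.1 ≠ w ∧ e.2 ≠ w) :
    Indep (fun y : W → ZMod p => ∏ e ∈ E, k (y e.1 - y e.2)) w := fun y t =>
  prod_congr rfl fun e he => by
    rw [Function.update_of_ne (h e he).1, Function.update_of_ne (h e he).2]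

theorem prod_le {W : Type} {p : ℕ} (k : ZMod p → ℝ) (km : ℝ) (hk0 : ∀ d, 0 ≤ k d ∧ k d ≤ km)
    (E : Finset (W × W)) (y : W → ZMod p) :
    0 ≤ ∏ e ∈ E, k (y e.1 - y e.2) ∧ ∏ e ∈ E, k (y e.1 - y e.2) ≤ km ^ E.card := by
  refine ⟨prod_nonneg fun e _ => (hk0 _).1, ?_⟩
  rw [← prod_const]
  exact prod_le_prod (fun e _ => (hk0 _).1) fun e _ => (hk0 _).2

theorem sqrt_mul_le {Y : Type} [Fintype Y] (a q : Y → ℝ) (M : ℝ) (hM : 0 ≤ M)
    (hq : ∀ y, 0 ≤ q y ∧ q y ≤ M) : √(∑ y, (a y * q y) ^ 2) ≤ M * √(∑ y, a y ^ 2) := by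
  rw [← Real.sqrt_sq hM, ← Real.sqrt_mul (sq_nonneg M), mul_sum]
  refine Real.sqrt_le_sqrt (sum_le_sum fun y _ => ?_)
  rw [mul_pow, mul_comm]
  exact mul_le_mul_of_nonneg_right (pow_le_pow_left₀ (hq y).1 (hq y).2 2) (sq_nonneg _)

theorem eq_of_agree {W X : Type} [DecidableEq W] {a : (W → X) → ℝ} (t : Finset W) :
    ∀ y y' : W → X, (∀ w ∉ t, y w = y' w) → (∀ w ∈ t, Indep a w) → a y = a y' := by
  induction t using Finset.induction_on with
  | empty =>
    intro y y' h _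
    rw [show y = y' from funext fun w => h w (notMem_empty w)]
  | insert w t _ ih =>
    intro y y' h hi
    rw [← hi w (mem_insert_self w t) y (y' w)]
    refine ih _ _ (fun w' hw' => ?_) fun w' hw' => hi w' (mem_insert_of_mem hw')
    by_cases e : w' = w
    · rw [e, Function.update_self]
    · rw [Function.update_of_ne e]
      exact h w' (by simp [e, hw'])

end PairB

/-- One edge. -/
theorem pair_bound {W : Type} [Fintype W] [DecidableEq W] {p : ℕ} [NeZero p] (k : ZMod p → ℝ)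
    (ρ : ℝ) (hρ : 0 ≤ ρ) (hk : OpB k ρ) (u v : W) (huv : u ≠ v) (a b : (W → ZMod p) → ℝ)
    (ha : Indep a v) (hb : Indep b u) :
    |∑ y, a y * b y * (k (y u - y v) - 1)| ≤ ρ * (√(∑ y, a y ^ 2) * √(∑ y, b y ^ 2)) := by
  have hp : (0 : ℝ) < p := Nat.cast_pos.2 (Nat.pos_of_ne_zero (NeZero.ne p))
  have h1 : (p : ℝ) * (p * ∑ y, a y * b y * (k (y u - y v) - 1)) = ∑ y : W → ZMod p, ∑ s, ∑ t,
      a (Function.update y u s) * b (Function.update y v t) * (k (s - t) - 1) := by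
    rw [PairB.avgZ v, PairB.avgZ u]
    refine sum_congr rfl fun y _ => sum_congr rfl fun s _ => sum_congr rfl fun t _ => ?_
    rw [ha, Function.update_self, Function.update_of_ne huv, Function.update_self,
      Function.update_comm huv, hb]
  have h2 : ∑ y : W → ZMod p, √(∑ s, a (Function.update y u s) ^ 2) *
      √(∑ t, b (Function.update y v t) ^ 2) ≤ p * (√(∑ y, a y ^ 2) * √(∑ y, b y ^ 2)) := by
    refine (Real.sum_sqrt_mul_sqrt_le _ (fun y => sum_nonneg fun _ _ => sq_nonneg _)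
      (fun y => sum_nonneg fun _ _ => sq_nonneg _)).trans (le_of_eq ?_)
    rw [← PairB.avgZ u (fun y => a y ^ 2), ← PairB.avgZ v (fun y => b y ^ 2),
      Real.sqrt_mul hp.le, Real.sqrt_mul hp.le, mul_mul_mul_comm, Real.mul_self_sqrt hp.le]
  have h3 : (p : ℝ) * (p * |∑ y, a y * b y * (k (y u - y v) - 1)|) ≤
      p * (p * (ρ * (√(∑ y, a y ^ 2) * √(∑ y, b y ^ 2)))) := by
    calc (p : ℝ) * (p * |∑ y, a y * b y * (k (y u - y v) - 1)|)
        = |(p : ℝ) * (p * ∑ y, a y * b y * (k (y u - y v) - 1))| := by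
          rw [abs_mul, abs_mul, abs_of_pos hp]
      _ ≤ ∑ y : W → ZMod p, ρ * p * (√(∑ s, a (Function.update y u s) ^ 2) *
            √(∑ t, b (Function.update y v t) ^ 2)) := by
          rw [h1]
          exact (abs_sum_le_sum_abs _ _).trans (sum_le_sum fun y _ => hk _ _)
      _ ≤ ρ * p * (p * (√(∑ y, a y ^ 2) * √(∑ y, b y ^ 2))) := by
          rw [← mul_sum]
          exact mul_le_mul_of_nonneg_left h2 (by positivity)
      _ = _ := by ring
  exact le_of_mul_le_mul_left (le_of_mul_le_mul_left h3 hp) hp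

theorem PairB.step {W : Type} [Fintype W] [DecidableEq W] {p : ℕ} [NeZero p] (k : ZMod p → ℝ)
    (ρ km : ℝ) (hρ : 0 ≤ ρ) (hkm : 1 ≤ km) (hk0 : ∀ d, 0 ≤ k d ∧ k d ≤ km) (hk : OpB k ρ)
    (E : Finset (W × W)) (u v : W) (huv : u ≠ v) (h1 : (u, v) ∉ E) (h2 : (v, u) ∉ E)
    (a b : (W → ZMod p) → ℝ) (ha : Indep a v) (hb : Indep b u) :
    |∑ y, a y * b y * ((k (y u - y v) - 1) * ∏ e ∈ E, k (y e.1 - y e.2))| ≤
      ρ * km ^ E.card * (√(∑ y, a y ^ 2) * √(∑ y, b y ^ 2)) := by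
  have hkm0 : 0 ≤ km := zero_le_one.trans hkm
  let E1 := E.filter fun e => e.1 ≠ v ∧ e.2 ≠ v
  let E2 := E.filter fun e => ¬ (e.1 ≠ v ∧ e.2 ≠ v)
  have i1 := PairB.indep_prod k E1 v fun e he => (mem_filter.1 he).2
  have i2 := PairB.indep_prod k E2 u fun e he => by
    obtain ⟨he1, he2⟩ := mem_filter.1 he
    obtain ⟨e1, e2⟩ := e
    constructor
    · rintro rfl
      exact he2 ⟨huv, fun h => h1 (h ▸ he1)⟩
    · rintro rfl
      exact he2 ⟨fun h => h2 (h ▸ he1), huv⟩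
  have h3 := pair_bound k ρ hρ hk u v huv _ _ (PairB.indep_mul ha i1) (PairB.indep_mul hb i2)
  have h4 : ∑ y, a y * b y * ((k (y u - y v) - 1) * ∏ e ∈ E, k (y e.1 - y e.2)) =
      ∑ y, (a y * ∏ e ∈ E1, k (y e.1 - y e.2)) * (b y * ∏ e ∈ E2, k (y e.1 - y e.2)) *
        (k (y u - y v) - 1) := sum_congr rfl fun y _ => by
    rw [← prod_filter_mul_prod_filter_not E (fun e => e.1 ≠ v ∧ e.2 ≠ v)]
    ring
  have h5 := PairB.sqrt_mul_le a _ _ (pow_nonneg hkm0 _) (PairB.prod_le k km hk0 E1)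
  have h6 := PairB.sqrt_mul_le b _ _ (pow_nonneg hkm0 _) (PairB.prod_le k km hk0 E2)
  have h7 : E1.card + E2.card = E.card := card_filter_add_card_filter_not _
  rw [h4, ← h7, pow_add]
  refine h3.trans ?_
  rw [mul_assoc ρ, mul_mul_mul_comm]
  exact mul_le_mul_of_nonneg_left (mul_le_mul h5 h6 (Real.sqrt_nonneg _) (by positivity)) hρ

/-- An oriented set of edges (telescoping). -/
theorem prod_bound {W : Type} [Fintype W] [DecidableEq W] {p : ℕ} [NeZero p] (k : ZMod p → ℝ)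
    (ρ km : ℝ) (hρ : 0 ≤ ρ) (hkm : 1 ≤ km) (hk0 : ∀ d, 0 ≤ k d ∧ k d ≤ km) (hk : OpB k ρ)
    (E : Finset (W × W)) (hE : ∀ e ∈ E, e.1 ≠ e.2 ∧ (e.2, e.1) ∉ E)
    (a b : (W → ZMod p) → ℝ)
    (hab : ∀ e ∈ E, (Indep a e.2 ∧ Indep b e.1) ∨ (Indep a e.1 ∧ Indep b e.2)) :
    |∑ y, a y * b y * (∏ e ∈ E, k (y e.1 - y e.2) - 1)| ≤
      E.card * ρ * km ^ E.card * (√(∑ y, a y ^ 2) * √(∑ y, b y ^ 2)) := by
  induction E using Finset.induction_on with
  | empty => simp
  | insert e E he ih =>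
    have hE' : ∀ e' ∈ E, e'.1 ≠ e'.2 ∧ (e'.2, e'.1) ∉ E := fun e' he' =>
      ⟨(hE e' (mem_insert_of_mem he')).1, fun h =>
        (hE e' (mem_insert_of_mem he')).2 (mem_insert_of_mem h)⟩
    have ih' := ih hE' fun e' he' => hab e' (mem_insert_of_mem he')
    have he1 := hE e (mem_insert_self e E)
    have he2 : (e.2, e.1) ∉ E := fun h => he1.2 (mem_insert_of_mem h)
    have hs : |∑ y, a y * b y * ((k (y e.1 - y e.2) - 1) * ∏ e ∈ E, k (y e.1 - y e.2))| ≤
        ρ * km ^ E.card * (√(∑ y, a y ^ 2) * √(∑ y, b y ^ 2)) := by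
      rcases hab e (mem_insert_self e E) with h | h
      · exact PairB.step k ρ km hρ hkm hk0 hk E e.1 e.2 he1.1 he he2 a b h.1 h.2
      · have := PairB.step k ρ km hρ hkm hk0 hk E e.1 e.2 he1.1 he he2 b a h.2 h.1
        simp only [mul_comm (b _) (a _)] at this
        rwa [mul_comm √(∑ y, b y ^ 2)] at this
    have h4 : ∑ y, a y * b y * (∏ e ∈ insert e E, k (y e.1 - y e.2) - 1) =
        ∑ y, a y * b y * ((k (y e.1 - y e.2) - 1) * ∏ e ∈ E, k (y e.1 - y e.2)) +
          ∑ y, a y * b y * (∏ e ∈ E, k (y e.1 - y e.2) - 1) := by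
      rw [← sum_add_distrib]
      refine sum_congr rfl fun y _ => ?_
      rw [prod_insert he]
      ring
    have h5 : km ^ E.card ≤ km ^ (E.card + 1) := pow_le_pow_right₀ hkm (Nat.le_succ _)
    rw [h4, card_insert_of_notMem he]
    refine (abs_add_le _ _).trans ((add_le_add hs ih').trans ?_)
    push_cast
    calc _ = ((E.card : ℝ) + 1) * ρ * km ^ E.card * (√(∑ y, a y ^ 2) * √(∑ y, b y ^ 2)) := by
          ring
      _ ≤ _ := by gcongr

/-- Independence: the sum of a product of functions of disjoint sets of coordinates. -/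
theorem indep_sum {W X : Type} [Fintype W] [DecidableEq W] [Fintype X] (s : Finset W)
    (a b : (W → X) → ℝ) (ha : ∀ w ∉ s, Indep a w) (hb : ∀ w ∈ s, Indep b w) :
    (Fintype.card (W → X) : ℝ) * ∑ y, a y * b y = (∑ y, a y) * ∑ y, b y := by
  let σ : (W → X) × (W → X) → (W → X) × (W → X) := fun z =>
    (s.piecewise z.1 z.2, s.piecewise z.2 z.1)
  have hσ : Function.Involutive σ := fun z => by
    refine Prod.ext (funext fun w => ?_) (funext fun w => ?_) <;>
      by_cases hw : w ∈ s <;> simp [σ, hw]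
  have h1 := hσ.bijective.sum_comp (fun z => a z.1 * b z.2)
  rw [Fintype.sum_prod_type, Fintype.sum_prod_type] at h1
  rw [sum_mul_sum, ← h1, mul_sum]
  refine sum_congr rfl fun y _ => ?_
  have h2 : ∀ y', a (σ (y, y')).1 * b (σ (y, y')).2 = a y * b y := fun y' => by
    rw [PairB.eq_of_agree sᶜ (σ (y, y')).1 y (fun w hw => by simp [σ, notMem_compl.1 hw])
      (fun w hw => ha w (mem_compl.1 hw)),
      PairB.eq_of_agree s (σ (y, y')).2 y (fun w hw => by simp [σ, hw]) hb]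
  simp only [h2, sum_const, card_univ, nsmul_eq_mul]

theorem edges_asymm {j : ℕ} (φ : Phi j) : ∀ e ∈ edges φ, e.1 ≠ e.2 ∧ (e.2, e.1) ∉ edges φ := by
  intro e he
  obtain ⟨⟨h1, i, -, h2⟩, -⟩ := (mem_filter.1 he).2
  refine ⟨fun h => h1 i ?_, fun h => (mem_filter.1 h).2.1.1 i h2⟩
  rw [h] at h2 ⊢
  exact h2

theorem card_edges_le {j : ℕ} (φ : Phi j) : (edges φ).card ≤ cE j := by
  refine (card_le_univ _).trans (le_of_eq ?_)
  simp [cE, sq]

theorem wgt_bound {j p : ℕ} (φ : Phi j) (k : ZMod p → ℝ) (km : ℝ) (hkm : 1 ≤ km)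
    (hk0 : ∀ d, 0 ≤ k d ∧ k d ≤ km) (y : Site j → ZMod p) :
    0 ≤ wgt φ k y ∧ wgt φ k y ≤ km ^ cE j := by
  have h := PairB.prod_le k km hk0 (edges φ) y
  exact ⟨h.1, h.2.trans (pow_le_pow_right₀ hkm (card_edges_le φ))⟩

/-- integrating against a stratum -/
theorem sum_strat {j p : ℕ} [NeZero p] (φ : Phi j) (k : ZMod p → ℝ)
    (F : (Site j → ZMod p) → ℝ) :
    ∑ x, strat φ k x * F x = (∑ y, wgt φ k y * F (y ∘ app φ)) / (p : ℝ) ^ (6 ^ j) := by
  simp only [strat, div_mul_eq_mul_div, sum_mul]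
  rw [← sum_div, sum_comm]
  refine congrArg (· / _) (sum_congr rfl fun y _ => ?_)
  simp only [ite_mul, zero_mul, sum_ite_eq, mem_univ, if_true]

/-- affine invariance of a stratum -/
theorem strat_affine {j p : ℕ} [Fact p.Prime] (φ : Phi j) (k : ZMod p → ℝ) (c l : ZMod p)
    (hl : l ≠ 0) (x : Site j → ZMod p) :
    strat φ (fun d => k (l * d)) x = strat φ k (fun w => c + l * x w) := by
  let σ : (Site j → ZMod p) → (Site j → ZMod p) := fun y w => c + l * y w
  have hinj : Function.Injective σ := fun y y' h => funext fun w =>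
    mul_left_cancel₀ hl (add_left_cancel (congrFun h w))
  have hσ : Function.Bijective σ := Finite.injective_iff_bijective.1 hinj
  unfold strat
  rw [← hσ.sum_comp (fun y => if y ∘ app φ = (fun w => c + l * x w) then wgt φ k y else 0)]
  refine congrArg (· / _) (sum_congr rfl fun y _ => ?_)
  have h1 : (σ y ∘ app φ = fun w => c + l * x w) ↔ y ∘ app φ = x :=
    ⟨fun h => hinj h, fun h => h ▸ rfl⟩
  have h2 : wgt φ (fun d => k (l * d)) y = wgt φ k (σ y) :=
    prod_congr rfl fun e _ => by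
      simp only [σ]
      rw [add_sub_add_left_eq_sub, mul_sub]
  simp only [h1, h2]

end Vale.Agent.P042
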