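import Vale.Agent.P042.Minor
import Vale.Agent.P042.LocFac
import Vale.Agent.P042.Four

open Finset Polynomial

namespace Vale.Agent.P042

namespace Transfer

theorem ee_add (x y : ℝ) : ee (x + y) = ee x * ee y := by
  unfold ee; rw [← Complex.exp_add]; congr 1; push_cast; ring

theorem norm_ee (x : ℝ) : ‖ee x‖ = 1 := by
  have : ee x = Complex.exp (((2 * Real.pi * x : ℝ) : ℂ) * Complex.I) := by
    unfold ee; congr 1; push_cast; ring
  rw [this, Complex.norm_exp_ofReal_mul_I]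

theorem norm_ee_sub (x y : ℝ) : ‖ee x - ee y‖ ≤ 7 * |x - y| := by
  have e1 : ee x - ee y = ee y * (ee (x - y) - 1) := by
    rw [mul_sub, ← ee_add]; simp
  have e2 : ee (x - y) = Complex.exp (Complex.I * ((2 * Real.pi * (x - y) : ℝ) : ℂ)) := by
    unfold ee; congr 1; push_cast; ring
  rw [e1, norm_mul, norm_ee, one_mul, e2]
  refine Real.norm_exp_I_mul_ofReal_sub_one_le.trans ?_
  rw [Real.norm_eq_abs, abs_mul, abs_of_pos (by positivity : (0 : ℝ) < 2 * Real.pi)]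
  have := Real.pi_lt_d2
  exact mul_le_mul_of_nonneg_right (by linarith) (abs_nonneg _)

/-- linear exponential sum -/
noncomputable def EE (β : ℝ) (t : ℕ) : ℂ := ∑ d ∈ range t, ee (β * d)

theorem norm_EE (β : ℝ) (t : ℕ) : ‖EE β t‖ ≤ t := by
  refine (norm_sum_le _ _).trans ?_
  simp [norm_ee]

theorem EE_aux (β m x : ℝ) {s t : ℕ} (h : s ≤ t) (hm : ∀ d ∈ Ico s t, |(d : ℝ) - x| ≤ m) :
    ‖EE β t - EE β s - ((t : ℂ) - s) * ee (β * x)‖ ≤ ((t : ℝ) - s) * (7 * |β| * m) := by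
  have e : EE β t - EE β s - ((t : ℂ) - s) * ee (β * x) =
      ∑ d ∈ Ico s t, (ee (β * d) - ee (β * x)) := by
    unfold EE
    rw [Finset.sum_sub_distrib, Finset.sum_Ico_eq_sub _ h, Finset.sum_const, Nat.card_Ico,
      nsmul_eq_mul, Nat.cast_sub h]
  rw [e]
  refine (norm_sum_le _ _).trans ((Finset.sum_le_card_nsmul _ _ (7 * |β| * m)
    (fun d hd => (norm_ee_sub _ _).trans ?_)).trans ?_)
  · rw [← mul_sub, abs_mul, mul_assoc]
    exact mul_le_mul_of_nonneg_left (mul_le_mul_of_nonneg_left (hm d hd) (abs_nonneg _))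
      (by norm_num)
  · rw [Nat.card_Ico, nsmul_eq_mul, Nat.cast_sub h]

theorem EE_step (β D : ℝ) (s t : ℕ) (h : |(t : ℝ) - s| ≤ D) :
    ‖EE β t - EE β s - ((t : ℂ) - s) * ee (β * s)‖ ≤ 7 * |β| * D ^ 2 := by
  have hD : 0 ≤ D := (abs_nonneg _).trans h
  obtain ⟨h1, h2⟩ := abs_le.1 h
  have hb : 0 ≤ 7 * |β| * D := by positivity
  rcases le_total s t with hst | hst
  · refine (EE_aux β D s hst (fun d hd => ?_)).trans (by nlinarith)
    obtain ⟨d1, d2⟩ := mem_Ico.1 hd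
    have d1' : (s : ℝ) ≤ d := by exact_mod_cast d1
    have d2' : (d : ℝ) ≤ t := by exact_mod_cast d2.le
    exact abs_le.2 ⟨by linarith, by linarith⟩
  · have := EE_aux β D s hst (fun d hd => by
      obtain ⟨d1, d2⟩ := mem_Ico.1 hd
      have d1' : (t : ℝ) ≤ d := by exact_mod_cast d1
      have d2' : (d : ℝ) ≤ s := by exact_mod_cast d2.le
      exact abs_le.2 ⟨by linarith, by linarith⟩)
    rw [← norm_neg] at this
    refine le_trans (le_of_eq ?_) (this.trans (by nlinarith))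
    congr 1; ring

theorem major (z : ℕ → ℂ) (c : ℂ) (B D β : ℝ) (g δ : ℕ → ℤ) {X0 X1 : ℕ} (hX : X0 ≤ X1)
    (hg : ∀ n, X0 ≤ n → 0 ≤ g n) (hδ : ∀ n, δ n = g (n + 1) - g n)
    (hz : ∀ N, ‖∑ n ∈ range N, (z n - c)‖ ≤ B) (hD : ∀ n, n ≤ X1 → |(δ n : ℝ)| ≤ D)
    (hV : ∑ n ∈ range X1, |(δ (n + 1) : ℝ) - δ n| ≤ D) :
    ‖∑ n ∈ Ico X0 X1, z n * ((δ n : ℂ) * ee (β * g n)) -
      c * (EE β (g X1).toNat - EE β (g X0).toNat)‖ ≤
      2 * B * (2 * D + X1 * (7 * |β| * D ^ 2)) + ‖c‖ * (X1 * (7 * |β| * D ^ 2)) := by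
  have hB : 0 ≤ B := (norm_nonneg _).trans (hz 0)
  have hD0 : 0 ≤ D := (abs_nonneg _).trans (hD 0 (Nat.zero_le _))
  have hcard : ∀ (f : ℕ → ℝ) (m : ℝ), 0 ≤ m → (∀ n ∈ Ico X0 X1, f n ≤ m) →
      ∑ n ∈ Ico X0 X1, f n ≤ X1 * m := by
    intro f m hm hf
    refine (Finset.sum_le_card_nsmul _ _ m hf).trans ?_
    rw [Nat.card_Ico, nsmul_eq_mul]
    exact mul_le_mul_of_nonneg_right (by exact_mod_cast Nat.sub_le _ _) hm
  have h1 := abel_bound (fun n => z n - c) (fun n => (δ n : ℂ) * ee (β * g n)) X0 X1 (2 * B) D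
    (D + X1 * (7 * |β| * D ^ 2)) (fun n h _ => by
      rw [Finset.sum_Ico_eq_sub _ h]
      exact (norm_sub_le _ _).trans (by linarith [hz n, hz X0]))
    (fun n _ h => by rw [norm_mul, norm_ee, mul_one, Complex.norm_intCast]; exact hD n h)
    (by
      have a1 : ∀ n ∈ Ico X0 X1, ‖(δ (n + 1) : ℂ) * ee (β * g (n + 1)) - (δ n : ℂ) * ee (β * g n)‖ ≤
          |(δ (n + 1) : ℝ) - δ n| + 7 * |β| * D ^ 2 := by
        intro n hn
        have b1 := hD n (mem_Ico.1 hn).2.le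
        have e : (δ (n + 1) : ℂ) * ee (β * g (n + 1)) - (δ n : ℂ) * ee (β * g n) =
            (((δ (n + 1) : ℝ) - δ n : ℝ) : ℂ) * ee (β * g (n + 1)) +
              (δ n : ℂ) * (ee (β * g (n + 1)) - ee (β * g n)) := by push_cast; ring
        rw [e]
        refine (norm_add_le _ _).trans (add_le_add ?_ ?_)
        · rw [norm_mul, norm_ee, mul_one, Complex.norm_real, Real.norm_eq_abs]
        · rw [norm_mul, Complex.norm_intCast]
          have b2 := norm_ee_sub (β * g (n + 1)) (β * g n)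
          rw [← mul_sub, abs_mul, ← Int.cast_sub, ← hδ] at b2
          have b3 : ‖ee (β * g (n + 1)) - ee (β * g n)‖ ≤ 7 * (|β| * D) :=
            b2.trans (by gcongr)
          calc _ ≤ D * (7 * (|β| * D)) := by gcongr
            _ = _ := by ring
      refine (Finset.sum_le_sum a1).trans ?_
      rw [Finset.sum_add_distrib]
      refine add_le_add (le_trans (Finset.sum_le_sum_of_subset_of_nonneg
        (fun n hn => mem_range.2 (mem_Ico.1 hn).2) (fun _ _ _ => abs_nonneg _)) hV)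
        (hcard _ _ (by positivity) (fun _ _ => le_rfl)))
    (by positivity) hD0
  have h2 : ‖∑ n ∈ Ico X0 X1, (δ n : ℂ) * ee (β * g n) -
      (EE β (g X1).toNat - EE β (g X0).toNat)‖ ≤ X1 * (7 * |β| * D ^ 2) := by
    rw [← Finset.sum_Ico_sub (fun n => EE β (g n).toNat) hX, ← Finset.sum_sub_distrib]
    refine (norm_sum_le _ _).trans (hcard _ _ (by positivity) (fun n hn => ?_))
    obtain ⟨n1, n2⟩ := mem_Ico.1 hn
    have a1 : (((g n).toNat : ℕ) : ℤ) = g n := Int.toNat_of_nonneg (hg n n1)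
    have a2 : (((g (n + 1)).toNat : ℕ) : ℤ) = g (n + 1) := Int.toNat_of_nonneg (hg _ (by omega))
    have a3 := EE_step β D (g n).toNat (g (n + 1)).toNat (by
      have := hD n n2.le
      rw [hδ, ← a1, ← a2] at this
      exact_mod_cast this)
    rw [norm_sub_rev] at a3
    refine le_trans (le_of_eq ?_) a3
    rw [hδ]
    conv_lhs => rw [← a1, ← a2]
    simp only [Int.toNat_natCast]
    push_cast
    rfl
  have e : ∑ n ∈ Ico X0 X1, z n * ((δ n : ℂ) * ee (β * g n)) -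
      c * (EE β (g X1).toNat - EE β (g X0).toNat) =
      ∑ n ∈ Ico X0 X1, (z n - c) * ((δ n : ℂ) * ee (β * g n)) +
      c * (∑ n ∈ Ico X0 X1, (δ n : ℂ) * ee (β * g n) - (EE β (g X1).toNat - EE β (g X0).toNat)) := by
    simp only [sub_mul, Finset.sum_sub_distrib, mul_sub, Finset.mul_sum]; ring
  rw [e]
  refine (norm_add_le _ _).trans (add_le_add (h1.trans (le_of_eq (by ring))) ?_)
  rw [norm_mul]
  exact mul_le_mul_of_nonneg_left h2 (norm_nonneg _)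

theorem minor_sum {ι : Type} [Fintype ι] [DecidableEq ι] (P : ι → ℕ) [∀ i, Fact (P i).Prime]
    (hP : Function.Injective P) (S : Finset ι) (v : ∀ i, ZMod (P i) → ℝ)
    (hv : ∀ i ∉ S, ∀ x, 0 ≤ v i x ∧ v i x ≤ P i) {Y U : ℕ} (hYU : Y ≤ U) (s : Finset ℕ)
    (f : ℕ → ℝ) (e : ℕ → ℂ) {M : ℝ} (hM : 0 ≤ M)
    (h : ∀ (m : ℕ) (w : ℕ → ℝ), 1 ≤ m → m ≤ U → (∀ n, w (n + m) = w n) → (∀ n, |w n| ≤ U) →
      ‖∑ n ∈ s, ((w n * f n : ℝ) : ℂ) * e n‖ ≤ M) :
    ‖∑ n ∈ s, ((wsum P S Y v (n : ℤ) * f n : ℝ) : ℂ) * e n‖ ≤ Y * M := by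
  have e1 : ∑ n ∈ s, ((wsum P S Y v (n : ℤ) * f n : ℝ) : ℂ) * e n = ∑ T ∈ famB P S Y,
      ∑ n ∈ s, (((∏ i ∈ T, (v i ((n : ℤ) : ZMod (P i)) - 1)) * f n : ℝ) : ℂ) * e n := by
    rw [Finset.sum_comm]
    refine Finset.sum_congr rfl (fun n _ => ?_)
    rw [wsum, Finset.sum_mul, Complex.ofReal_sum, Finset.sum_mul]
  rw [e1]
  refine (norm_sum_le _ _).trans ((Finset.sum_le_card_nsmul _ _ M (fun T hT => ?_)).trans ?_)
  · obtain ⟨-, t1, t2⟩ := mem_filter.1 hT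
    refine h (mm P T) (fun n => ∏ i ∈ T, (v i ((n : ℤ) : ZMod (P i)) - 1))
      (Finset.prod_pos (fun i _ => (Fact.out : (P i).Prime).pos)) (t2.trans hYU)
      (fun n => Finset.prod_congr rfl (fun i hi => ?_)) (fun n => ?_)
    · have : ((mm P T : ℕ) : ZMod (P i)) = 0 :=
        (ZMod.natCast_eq_zero_iff _ _).2 (Finset.dvd_prod_of_mem P hi)
      simp [this]
    · rw [Finset.abs_prod]
      refine (Finset.prod_le_prod (g := fun i => (P i : ℝ)) (fun _ _ => abs_nonneg _)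
        (fun i hi => ?_)).trans ?_
      · obtain ⟨a1, a2⟩ := hv i (Finset.disjoint_left.1 t1 hi) ((n : ℤ) : ZMod (P i))
        have : (1 : ℝ) ≤ P i := by exact_mod_cast (Fact.out : (P i).Prime).one_le
        exact abs_le.2 ⟨by linarith, by linarith⟩
      · rw [← Nat.cast_prod]; exact_mod_cast t2.trans hYU
  · rw [nsmul_eq_mul]
    exact mul_le_mul_of_nonneg_right (by exact_mod_cast card_famB P hP S Y) hM

theorem scale (k N : ℕ) (hk : 1 ≤ k) (hN : 2 * k + 2 ≤ N) (G : ℤ[X]) (hdeg : G.natDegree = k)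
    (hl : 0 < G.leadingCoeff) (U L : ℕ) (hU : 2 ≤ U) (hht : ht G ≤ U)
    (hL : U ^ (k * N + 1) ≤ L) :
    ∃ (X1 : ℕ) (D : ℤ), 2 * U ≤ X1 ∧ (L : ℤ) ≤ G.eval (X1 : ℤ) ∧ G.eval (X1 : ℤ) ≤ 2 * L ∧
      X1 ^ k ≤ 4 ^ k * L ∧ G.eval ((2 * U : ℕ) : ℤ) ≤ (U : ℤ) ^ (2 * k + 1) ∧
      (∀ n, n ≤ X1 → |dlt G n| ≤ D) ∧ ∑ n ∈ range X1, |dlt G (n + 1) - dlt G n| ≤ D ∧
      X1 * D ≤ (U : ℤ) ^ (2 * k + 2) * L ∧ (U : ℤ) ^ N * D ≤ (U : ℤ) ^ (2 * k + 2) * L := by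
  have hU' : (2 : ℤ) ≤ U := by exact_mod_cast hU
  have hL' : (U : ℤ) ^ (k * N + 1) ≤ L := by exact_mod_cast hL
  have low : ∀ n : ℕ, 2 * U ≤ n → (n : ℤ) ^ k ≤ 2 * G.eval (n : ℤ) := fun n hn =>
    eval_lower G k hdeg hl n (by have : ((2 * U : ℕ) : ℤ) ≤ n := by exact_mod_cast hn
                                 push_cast at this; omega)
  have upp : ∀ n : ℕ, 1 ≤ n → G.eval (n : ℤ) ≤ U * (n : ℤ) ^ k := fun n hn =>
    (le_abs_self _).trans ((abs_eval_le G k hdeg.le n n (by exact_mod_cast hn)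
      (by rw [abs_of_nonneg (by positivity)])).trans
        (mul_le_mul_of_nonneg_right hht (by positivity)))
  have hex : ∃ n : ℕ, 2 * U ≤ n ∧ (L : ℤ) ≤ G.eval (n : ℤ) := by
    refine ⟨2 * U + 2 * L, by omega, ?_⟩
    have h1 := low (2 * U + 2 * L) (by omega)
    have h2 : ((2 * U + 2 * L : ℕ) : ℤ) ≤ ((2 * U + 2 * L : ℕ) : ℤ) ^ k :=
      le_self_pow₀ (by push_cast; omega) (by omega)
    push_cast at h1 h2 ⊢
    omega
  classical
  obtain ⟨x1, x2⟩ := Nat.find_spec hex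
  have x3 := fun m (hm : m < Nat.find hex) => Nat.find_min hex hm
  generalize Nat.find hex = X1 at x1 x2 x3
  have g0 : G.eval ((2 * U : ℕ) : ℤ) ≤ (U : ℤ) ^ (2 * k + 1) := by
    refine (upp _ (by omega)).trans ?_
    rw [pow_succ', pow_mul]
    refine mul_le_mul_of_nonneg_left (pow_le_pow_left₀ (by positivity) ?_ _) (by omega)
    push_cast; nlinarith
  have g1 : (U : ℤ) ^ (2 * k + 1) < (U : ℤ) ^ (k * N + 1) :=
    pow_lt_pow_right₀ (by omega) (by nlinarith)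
  have x4 : 2 * U < X1 := by
    rcases Nat.lt_or_eq_of_le x1 with h | h
    · exact h
    · rw [← h] at x2; omega
  obtain ⟨m, rfl⟩ : ∃ m, X1 = m + 1 := ⟨X1 - 1, by omega⟩
  have x5 : G.eval (m : ℤ) < L := by
    by_contra h
    exact x3 m (by omega) ⟨by omega, by omega⟩
  have x6 := low m (by omega)
  have z1 : ((m : ℤ) + 2) ^ k ≤ 2 ^ (k + 1) * L := by
    calc ((m : ℤ) + 2) ^ k ≤ (2 * m) ^ k := pow_le_pow_left₀ (by positivity) (by omega) _
      _ = 2 ^ k * (m : ℤ) ^ k := mul_pow _ _ _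
      _ ≤ 2 ^ k * (2 * L) := mul_le_mul_of_nonneg_left (by omega) (by positivity)
      _ = _ := by ring
  have z2 : (U : ℤ) ^ N ≤ (m : ℤ) + 1 := by
    have h1 := upp (m + 1) (by omega)
    have h2 : (U : ℤ) * ((U : ℤ) ^ N) ^ k ≤ U * ((m + 1 : ℕ) : ℤ) ^ k := by
      rw [← pow_mul, ← pow_succ', mul_comm N k]; omega
    have h3 := le_of_mul_le_mul_left h2 (by omega)
    push_cast at h3
    exact (pow_le_pow_iff_left₀ (by positivity) (by positivity) (by omega)).1 h3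
  have hD : ((m : ℤ) + 2) * (k * U * ((m : ℤ) + 2) ^ (k - 1)) ≤ (U : ℤ) ^ (2 * k + 2) * L := by
    have e : ((m : ℤ) + 2) * (k * U * ((m : ℤ) + 2) ^ (k - 1)) = k * U * ((m : ℤ) + 2) ^ k := by
      conv_rhs => rw [show k = k - 1 + 1 by omega, pow_succ]
      rw [show k - 1 + 1 = k by omega]; ring
    have a1 : (k : ℤ) ≤ (U : ℤ) ^ k :=
      le_trans (by exact_mod_cast Nat.lt_two_pow_self.le) (pow_le_pow_left₀ (by norm_num) hU' k)
    have a2 : (2 : ℤ) ^ (k + 1) ≤ (U : ℤ) ^ (k + 1) := pow_le_pow_left₀ (by norm_num) hU' _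
    rw [e]
    calc (k : ℤ) * U * ((m : ℤ) + 2) ^ k ≤ (U : ℤ) ^ k * U * ((U : ℤ) ^ (k + 1) * L) := by
          gcongr
          exact z1.trans (by gcongr)
      _ = _ := by ring
  have hD0 : (0 : ℤ) ≤ k * U * ((m : ℤ) + 2) ^ (k - 1) := by positivity
  have hb : (k : ℤ) * ht G * ((m : ℤ) + 2) ^ (k - 1) ≤ k * U * ((m : ℤ) + 2) ^ (k - 1) := by
    gcongr
  have d1 : ∀ n, n ≤ m + 1 → |dlt G n| ≤ k * U * ((m : ℤ) + 2) ^ (k - 1) := fun n hn => by
    have := abs_dlt_le G k hdeg.le n (m + 2) (by omega)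
    push_cast at this
    exact this.trans hb
  have d2 : (U : ℤ) ^ N * (k * U * ((m : ℤ) + 2) ^ (k - 1)) ≤ (U : ℤ) ^ (2 * k + 2) * L :=
    le_trans (mul_le_mul_of_nonneg_right (by omega) hD0) hD
  refine ⟨m + 1, k * U * ((m : ℤ) + 2) ^ (k - 1), x1, x2, ?_, ?_, g0, d1, ?_, ?_, d2⟩
  · have a1 := (le_abs_self _).trans (d1 m (by omega))
    have a2 : (U : ℤ) ^ (2 * k + 2) ≤ (U : ℤ) ^ N := pow_le_pow_right₀ (by omega) hN
    have a3 : (U : ℤ) ^ (2 * k + 2) * (k * U * ((m : ℤ) + 2) ^ (k - 1)) ≤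
        (U : ℤ) ^ (2 * k + 2) * L := le_trans (mul_le_mul_of_nonneg_right a2 hD0) d2
    have a4 := le_of_mul_le_mul_left a3 (by positivity)
    unfold dlt at a1
    push_cast; omega
  · have a1 : ((m : ℤ) + 1) ^ k ≤ ((m : ℤ) + 2) ^ k := pow_le_pow_left₀ (by positivity) (by omega) _
    have a2 : (2 : ℤ) ^ (k + 1) ≤ 4 ^ k := by
      rw [show (4 : ℤ) = 2 ^ 2 by norm_num, ← pow_mul]
      exact pow_le_pow_right₀ (by norm_num) (by omega)
    have a3 : ((m : ℤ) + 1) ^ k ≤ 4 ^ k * L := a1.trans (z1.trans (by gcongr))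
    exact_mod_cast a3
  · have := tv_dlt_le G k hdeg.le (m + 1)
    push_cast at this
    rw [add_assoc, one_add_one_eq_two] at this
    exact this.trans hb
  · exact le_trans (mul_le_mul_of_nonneg_right (by push_cast; omega) hD0) hD

theorem ht_X : ht (X : ℤ[X]) = 1 := by
  simp [ht, Finset.sum_range_succ]

theorem sqrt_le (L : ℕ) (a : ℕ → ℝ) (ha : ∀ x, |a x| ≤ 1) : √(∑ x ∈ range L, a x ^ 2) ≤ √L := by
  refine Real.sqrt_le_sqrt ((Finset.sum_le_card_nsmul _ _ 1 (fun x _ => ?_)).trans (by simp))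
  rw [← sq_abs]
  exact pow_le_one₀ (abs_nonneg _) (ha x)

theorem numerics {u W L y B D τ R c c' g0 t : ℝ} (hu : 2 ≤ u) (hW : 1 ≤ W) (hD : 0 ≤ D)
    (hτ0 : 0 ≤ τ) (ht0 : 0 ≤ t) (hB : 2 * B ≤ W) (hτ : τ ≤ W) (hc : c ≤ W) (hc' : c' ≤ W) (hR : R ≤ W) (ht : t ≤ 2 * R)
    (hg : c * g0 ≤ W) (h1 : u * (W ^ 2 * D) ≤ L) (h2 : u * W ^ 2 ≤ L) (hy : L ≤ u * y) :
    2 * B * (2 * D + 7 * τ * D) + c * (7 * τ * D) + (2 * B * (2 + 7 * t) + c' * (7 * t)) +
      c * g0 ≤ 50 * y := by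
  have a1 : W ^ 2 * D ≤ y := le_of_mul_le_mul_left (h1.trans hy) (by linarith)
  have a2 : W ^ 2 ≤ y := le_of_mul_le_mul_left (h2.trans hy) (by linarith)
  have b1 : 2 * B * (2 * D + 7 * τ * D) ≤ W * (2 * (W * D) + 7 * W * D) := by
    have : D ≤ W * D := le_mul_of_one_le_left hD hW
    gcongr
  have b2 : c * (7 * τ * D) ≤ W * (7 * W * D) := by gcongr
  have b3 : 2 * B * (2 + 7 * t) ≤ W * (2 * W + 7 * (2 * W)) := by gcongr <;> linarith
  have b4 : c' * (7 * t) ≤ W * (7 * (2 * W)) := by gcongr; linarith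
  have b5 : W ≤ W ^ 2 := by nlinarith
  nlinarith

end Transfer

open Transfer in
/-- The transfer lemma (circle method), clean form. -/
theorem transfer (k : ℕ) (hk : 1 ≤ k) : ∃ (A : ℕ) (C : ℝ), 0 ≤ C ∧
    ∀ {ι : Type} [Fintype ι] [DecidableEq ι] (P : ι → ℕ) [∀ i, Fact (P i).Prime],
    Function.Injective P → ∀ (S : Finset ι) (G : ℤ[X]) (κ : ℝ), 0 ≤ κ → κ ≤ 1 →
    ∀ v : ∀ i, ZMod (P i) → ℝ, (∀ i ∉ S, Wt (P i) G κ (v i)) →
    G.natDegree = k → 0 < G.leadingCoeff →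
    ∀ Y U L : ℕ, 1 ≤ Y → Y ≤ U → 2 ≤ U → ht G ≤ U → U ^ A ≤ L →
    (∀ l : ℕ, l.Prime → l ≤ U ^ A → (∃ i ∉ S, P i = l) ∨ Inj G l) →
    ∀ a b : ℕ → ℝ, (∀ x, |a x| ≤ 1) → (∀ y, |b y| ≤ 1) →
    (∀ x y, a x ≠ 0 → b y ≠ 0 →
      y ≤ x ∧ ∀ n : ℕ, 1 ≤ n → (x : ℤ) - y ≠ G.eval (n : ℤ)) →
    |∑ x ∈ range L, ∑ y ∈ range L,
        a x * b y * wsum P S Y (fun i => push (P i) G (v i)) ((x : ℤ) - y)| ≤
      C * (Y : ℝ) ^ (-κ) * (L : ℝ) ^ 2 := by
  obtain ⟨Ak, hAk⟩ := minor k hk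
  obtain ⟨A1, hA1⟩ := minor 1 le_rfl
  set A0 := Ak + A1 with hA0
  set w0 := A0 + 2 * k + 6 with hw0
  refine ⟨k * (3 * w0 + 1) + 1, 52, by norm_num, ?_⟩
  intro ι _ _ P _ hP S G κ hκ0 hκ1 v hv hdeg hl Y U L hY hYU hU hht hL hcov a b ha hb hab
  obtain ⟨X1, D, x1, x2, x3, x4, x5, d1, d2, d3, d4⟩ :=
    scale k (3 * w0 + 1) hk (by omega) G hdeg hl U L hU hht hL
  have hpow : ∀ i j : ℕ, i ≤ j → U ^ i ≤ U ^ j := fun i j h => Nat.pow_le_pow_right (by omega) h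
  have hAA : 3 * w0 + 1 ≤ k * (3 * w0 + 1) + 1 := by nlinarith
  have hu : (2 : ℝ) ≤ U := by exact_mod_cast hU
  have hy1 : (1 : ℝ) ≤ Y := by exact_mod_cast hY
  have hyu : (Y : ℝ) ≤ U := by exact_mod_cast hYU
  have hL0 : (0 : ℝ) < L := by
    have : 0 < L := lt_of_lt_of_le (by positivity) hL
    exact_mod_cast this
  have hpw : ∀ i j : ℕ, i ≤ j → (U : ℝ) ^ i ≤ (U : ℝ) ^ j := fun i j h =>
    pow_le_pow_right₀ (by linarith) h
  have hyk : (L : ℝ) ≤ U * ((Y : ℝ) ^ (-κ) * L) := by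
    have h1 : (Y : ℝ) ^ (-1 : ℝ) ≤ (Y : ℝ) ^ (-κ) :=
      Real.rpow_le_rpow_of_exponent_le hy1 (by linarith)
    rw [Real.rpow_neg_one] at h1
    have h2 : (1 : ℝ) ≤ U * (Y : ℝ) ^ (-κ) := by
      calc (1 : ℝ) = Y * (Y : ℝ)⁻¹ := (mul_inv_cancel₀ (by linarith)).symm
        _ ≤ _ := by gcongr
    nlinarith
  have hg0 : ∀ n : ℕ, 2 * U ≤ n → 0 ≤ G.eval (n : ℤ) := fun n hn => by
    have h1 := eval_lower G k hdeg hl n (by
      have : ((2 * U : ℕ) : ℤ) ≤ n := by exact_mod_cast hn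
      push_cast at this; omega)
    have : (0 : ℤ) ≤ (n : ℤ) ^ k := by positivity
    omega
  obtain ⟨D1, hD1⟩ : ∃ D1 : ℕ, G.eval (X1 : ℤ) = D1 := ⟨_, (Int.toNat_of_nonneg (hg0 _ x1)).symm⟩
  have hv1 : ∀ i ∉ S, ∀ x, 0 ≤ v i x ∧ v i x ≤ P i := fun i hi x =>
    ⟨(hv i hi).nonneg x, by
      rw [← (hv i hi).mean]
      exact Finset.single_le_sum (fun y _ => (hv i hi).nonneg y) (mem_univ x)⟩
  have hv2 : ∀ i ∉ S, ∀ x, 0 ≤ push (P i) G (v i) x ∧ push (P i) G (v i) x ≤ P i := fun i hi x =>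
    ⟨Finset.sum_nonneg (fun y _ => (hv i hi).nonneg y), by
      rw [← (hv i hi).mean]
      exact Finset.sum_le_sum_of_subset_of_nonneg (Finset.subset_univ _)
        (fun y _ _ => (hv i hi).nonneg y)⟩
  set Dw : ℤ → ℝ := wsum P S Y (fun i => push (P i) G (v i)) with hDw
  set w : ℤ → ℝ := wsum P S Y v with hw
  have key : ∀ θ : ℝ, ‖∑ d ∈ range D1, (Dw d : ℂ) * ee (θ * d) -
      ∑ n ∈ Ico (2 * U) X1, ((w n * dlt G n : ℝ) : ℂ) * ee (θ * (G.eval (n : ℤ) : ℤ))‖ ≤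
      52 * ((Y : ℝ) ^ (-κ) * L) := by
    intro θ
    have hyL : 0 ≤ (Y : ℝ) ^ (-κ) * L := by positivity
    by_cases hq : ∃ q : ℕ, 1 ≤ q ∧ q ≤ U ^ A0 ∧ ∃ b : ℤ, |(q : ℝ) * θ - b| ≤ (U : ℝ) ^ A0 / L
    · obtain ⟨q0, q1, q2, b0, q3⟩ := hq
      obtain ⟨g, a', q', g1, g2, g3, g4⟩ := Int.exists_gcd_one' (m := b0) (n := (q0 : ℤ))
        (Int.gcd_pos_of_ne_zero_right _ (by omega))
      have hq' : 0 < q' := by
        by_contra h
        have : q' * g ≤ 0 := mul_nonpos_of_nonpos_of_nonneg (by omega) (by omega)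
        omega
      obtain ⟨q, rfl⟩ := Int.eq_ofNat_of_zero_le hq'.le
      have g5 : q0 = q * g := by exact_mod_cast g4
      have hq1 : 1 ≤ q := by exact_mod_cast hq'
      have hq2 : q ≤ U ^ A0 := le_trans (by rw [g5]; exact Nat.le_mul_of_pos_right _ g1) q2
      have hqr : (0 : ℝ) < q := by exact_mod_cast hq1
      have hgr : (1 : ℝ) ≤ g := by exact_mod_cast g1
      obtain ⟨β, hθ, hβ⟩ : ∃ β : ℝ, θ = a' / q + β ∧ |β| ≤ (U : ℝ) ^ A0 / L := by
        refine ⟨θ - a' / q, by ring, le_trans ?_ q3⟩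
        have e : (q0 : ℝ) * θ - b0 = (q * g) * (θ - a' / q) := by
          rw [g5, g3]; push_cast; field_simp
        have h1 : (1 : ℝ) ≤ q := by exact_mod_cast hq1
        rw [e, abs_mul, abs_of_pos (by positivity : (0 : ℝ) < q * g)]
        exact le_mul_of_one_le_left (abs_nonneg _) (by nlinarith)
      obtain ⟨c, c', c1, c2, c3, c4, c5⟩ := locfac P hP S G κ hκ0 v hv Y hY q hq1 a'
        (Int.isCoprime_iff_gcd_eq_one.2 g2) (fun l l1 l2 => hcov l l1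
          ((Nat.le_of_dvd hq1 l2).trans (hq2.trans (hpow _ _ (by omega)))))
      have m1 := major _ c _ (D : ℝ) β (fun n => G.eval (n : ℤ)) (dlt G) x1 hg0
        (fun n => by simp [dlt]) c4 (fun n hn => by exact_mod_cast d1 n hn) (by exact_mod_cast d2)
      have m2 := major _ c' _ 1 β (fun n => (n : ℤ)) (fun _ => 1) (Nat.zero_le D1)
        (fun n _ => by omega) (fun n => by simp) c5 (fun n _ => by simp) (by simp)
      rw [hD1] at m1 x2 x3
      obtain ⟨g0, hg0'⟩ : ∃ g0 : ℕ, G.eval ((2 * U : ℕ) : ℤ) = g0 :=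
        ⟨_, (Int.toNat_of_nonneg (hg0 _ le_rfl)).symm⟩
      rw [hg0'] at m1 x5
      simp only [Int.toNat_natCast] at m1 m2
      have e1 : ∑ d ∈ range D1, (Dw d : ℂ) * ee (θ * d) = ∑ n ∈ Ico 0 D1,
          (Dw n : ℂ) * ee (a' * n / q) * (((1 : ℤ) : ℂ) * ee (β * ((n : ℤ) : ℝ))) := by
        rw [Finset.range_eq_Ico]
        refine Finset.sum_congr rfl (fun n _ => ?_)
        rw [hθ, show (a' / q + β) * (n : ℝ) = a' * n / q + β * ((n : ℤ) : ℝ) by push_cast; ring,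
          ee_add]
        push_cast; ring
      have e2 : ∑ n ∈ Ico (2 * U) X1, ((w n * dlt G n : ℝ) : ℂ) * ee (θ * (G.eval (n : ℤ) : ℤ)) =
          ∑ n ∈ Ico (2 * U) X1, (w n : ℂ) * ee (a' * (G.eval (n : ℤ) : ℤ) / q) *
            ((dlt G n : ℂ) * ee (β * (G.eval (n : ℤ) : ℤ))) := by
        refine Finset.sum_congr rfl (fun n _ => ?_)
        rw [hθ, show (a' / q + β) * ((G.eval (n : ℤ) : ℤ) : ℝ) =
          a' * (G.eval (n : ℤ) : ℤ) / q + β * (G.eval (n : ℤ) : ℤ) by ring, ee_add]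
        push_cast; ring
      rw [e1, e2]
      generalize ∑ n ∈ Ico 0 D1, (Dw n : ℂ) * ee (a' * n / q) *
        (((1 : ℤ) : ℂ) * ee (β * ((n : ℤ) : ℝ))) = SD at m2 ⊢
      generalize ∑ n ∈ Ico (2 * U) X1, (w n : ℂ) * ee (a' * (G.eval (n : ℤ) : ℤ) / q) *
        ((dlt G n : ℂ) * ee (β * (G.eval (n : ℤ) : ℤ))) = SW at m1 ⊢
      have e3 : SD - SW = (SD - c' * (EE β D1 - EE β 0)) - (SW - c * (EE β D1 - EE β g0)) -
          (c - c') * EE β D1 + c * EE β g0 := by simp [EE]; ring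
      have hD1r : (D1 : ℝ) ≤ 2 * L := by exact_mod_cast x3
      have t1 : ‖(c - c') * EE β D1‖ ≤ (Y : ℝ) ^ (-κ) * (2 * L) := by
        rw [norm_mul]
        exact mul_le_mul c1 ((norm_EE _ _).trans hD1r) (norm_nonneg _) (by positivity)
      have t2 : ‖c * EE β g0‖ ≤ ‖c‖ * g0 := by
        rw [norm_mul]; exact mul_le_mul_of_nonneg_left (norm_EE _ _) (norm_nonneg _)
      have hD0 : (0 : ℝ) ≤ D := by exact_mod_cast (abs_nonneg _).trans (d1 0 (Nat.zero_le _))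
      have d3r : (X1 : ℝ) * D ≤ (U : ℝ) ^ (2 * k + 2) * L := by exact_mod_cast d3
      have d4r : (U : ℝ) ^ (3 * w0 + 1) * D ≤ (U : ℝ) ^ (2 * k + 2) * L := by exact_mod_cast d4
      have hβL : |β| * L ≤ (U : ℝ) ^ A0 := (le_div_iff₀ hL0).1 hβ
      have hY2 : (Y : ℝ) ^ 2 ≤ (U : ℝ) ^ 2 := by gcongr
      have num := numerics (u := U) (W := (U : ℝ) ^ w0) (L := L) (y := (Y : ℝ) ^ (-κ) * L)
        (B := 2 * q * (Y : ℝ) ^ 3) (D := D) (τ := X1 * D * |β|) (R := (U : ℝ) ^ A0) (c := ‖c‖)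
        (c' := ‖c'‖) (g0 := g0) (t := D1 * |β|) hu (one_le_pow₀ (by linarith)) hD0
        (by positivity) (by positivity)
        (by
          have h1 : (q : ℝ) ≤ (U : ℝ) ^ A0 := by exact_mod_cast hq2
          calc 2 * (2 * q * (Y : ℝ) ^ 3) ≤ U * (U * (U : ℝ) ^ A0 * (U : ℝ) ^ 3) := by gcongr
            _ = (U : ℝ) ^ (A0 + 5) := by ring
            _ ≤ _ := hpw _ _ (by omega))
        (by
          calc (X1 : ℝ) * D * |β| ≤ (U : ℝ) ^ (2 * k + 2) * L * |β| := by gcongr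
            _ = (U : ℝ) ^ (2 * k + 2) * (|β| * L) := by ring
            _ ≤ (U : ℝ) ^ (2 * k + 2) * (U : ℝ) ^ A0 := by gcongr
            _ = (U : ℝ) ^ (2 * k + 2 + A0) := by ring
            _ ≤ _ := hpw _ _ (by omega))
        (c2.trans (hY2.trans (hpw _ _ (by omega))))
        (c3.trans (hY2.trans (hpw _ _ (by omega)))) (hpw _ _ (by omega))
        (by
          calc (D1 : ℝ) * |β| ≤ 2 * L * |β| := by gcongr
            _ ≤ _ := by linarith)
        (by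
          have h1 : (g0 : ℝ) ≤ (U : ℝ) ^ (2 * k + 1) := by exact_mod_cast x5
          calc ‖c‖ * g0 ≤ (U : ℝ) ^ 2 * (U : ℝ) ^ (2 * k + 1) := by gcongr; exact c2.trans hY2
            _ = (U : ℝ) ^ (2 * k + 3) := by ring
            _ ≤ _ := hpw _ _ (by omega))
        (by
          refine le_of_mul_le_mul_left (a := (U : ℝ) ^ w0) ?_ (by positivity)
          calc (U : ℝ) ^ w0 * (U * (((U : ℝ) ^ w0) ^ 2 * D)) = (U : ℝ) ^ (3 * w0 + 1) * D := by ring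
            _ ≤ (U : ℝ) ^ (2 * k + 2) * L := d4r
            _ ≤ _ := mul_le_mul_of_nonneg_right (hpw _ _ (by omega)) hL0.le)
        (by
          have h1 : (U : ℝ) ^ (k * (3 * w0 + 1) + 1) ≤ L := by exact_mod_cast hL
          calc (U : ℝ) * ((U : ℝ) ^ w0) ^ 2 = (U : ℝ) ^ (2 * w0 + 1) := by ring
            _ ≤ _ := (hpw _ _ (by omega)).trans h1)
        hyk
      rw [e3]
      have n1 := norm_add_le ((SD - c' * (EE β D1 - EE β 0)) - (SW - c * (EE β D1 - EE β g0)) -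
          (c - c') * EE β D1) (c * EE β g0)
      have n2 := norm_sub_le ((SD - c' * (EE β D1 - EE β 0)) - (SW - c * (EE β D1 - EE β g0)))
          ((c - c') * EE β D1)
      have n3 := norm_sub_le (SD - c' * (EE β D1 - EE β 0)) (SW - c * (EE β D1 - EE β g0))
      rw [show (X1 : ℝ) * (7 * |β| * (D : ℝ) ^ 2) = 7 * (X1 * D * |β|) * D by ring] at m1
      rw [show (D1 : ℝ) * (7 * |β| * 1 ^ 2) = 7 * (D1 * |β|) by ring, mul_one] at m2
      rw [show (Y : ℝ) ^ (-κ) * (2 * L) = 2 * ((Y : ℝ) ^ (-κ) * L) by ring] at t1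
      have m3 : ‖SD - c' * (EE β D1 - EE β 0)‖ ≤ _ := m2
      linarith
    · have hM : (0 : ℝ) ≤ (L : ℝ) / U ^ 2 := by positivity
      have hup : ∀ A' ≤ A0, ¬ ∃ q : ℕ, 1 ≤ q ∧ q ≤ U ^ A' ∧
          ∃ b : ℤ, |(q : ℝ) * θ - b| ≤ (U : ℝ) ^ A' / L := by
        rintro A' hA' ⟨q, q1, q2, b, q3⟩
        exact hq ⟨q, q1, q2.trans (hpow _ _ hA'), b,
          q3.trans (div_le_div_of_nonneg_right (hpw _ _ hA') hL0.le)⟩
      have s1 := minor_sum P hP S v hv1 hYU (Ico (2 * U) X1) (fun n => (dlt G n : ℝ))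
        (fun n => ee (θ * (G.eval (n : ℤ) : ℤ))) hM (fun m w m1 m2 m3 m4 => by
          by_contra h
          exact hup Ak (by omega) (hAk U L hU ((hpow _ _ (by omega)).trans hL) G hdeg hht m w
            m1 m2 m3 m4 (2 * U) X1 x4 θ (not_le.1 h).le))
      have s2 := minor_sum P hP S _ hv2 hYU (Ico 0 D1) (fun n => (dlt X n : ℝ))
        (fun n => ee (θ * ((X : ℤ[X]).eval (n : ℤ) : ℤ))) hM (fun m w m1 m2 m3 m4 => by
          by_contra h
          exact hup A1 (by omega) (hA1 U L hU ((hpow _ _ (by omega)).trans hL) X natDegree_X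
            (by rw [ht_X]; omega) m w m1 m2 m3 m4 0 D1 (by rw [pow_one, pow_one]; omega) θ (not_le.1 h).le))
      simp only [dlt, eval_X, add_sub_cancel_left, Int.cast_one, mul_one, Int.cast_natCast,
        ← Finset.range_eq_Ico] at s2
      have s3 : (Y : ℝ) * ((L : ℝ) / U ^ 2) ≤ (Y : ℝ) ^ (-κ) * L := by
        refine le_of_mul_le_mul_left (a := (U : ℝ)) (le_trans ?_ hyk) (by linarith)
        calc (U : ℝ) * ((Y : ℝ) * ((L : ℝ) / (U : ℝ) ^ 2)) ≤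
            (U : ℝ) * ((U : ℝ) * ((L : ℝ) / (U : ℝ) ^ 2)) := by gcongr
          _ = (L : ℝ) := by field_simp
      refine (norm_sub_le _ _).trans ?_
      linarith
  have main := opb_int ((range D1).disjSum (Ico (2 * U) X1))
    (Sum.elim (fun d : ℕ => Dw d) (fun n : ℕ => -(w n * dlt G n)))
    (Sum.elim (fun d : ℕ => (d : ℤ)) (fun n : ℕ => G.eval (n : ℤ))) _ (fun θ => by
      refine le_trans (le_of_eq ?_) (key θ)
      rw [Finset.sum_disjSum, sub_eq_add_neg, ← Finset.sum_neg_distrib]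
      simp) L a b
  refine le_trans (le_of_eq ?_) (main.trans ?_)
  · congr 1
    refine Finset.sum_congr rfl (fun x hx => Finset.sum_congr rfl (fun y _ => ?_))
    by_cases h1 : a x = 0
    · simp [h1]
    by_cases h2 : b y = 0
    · simp [h2]
    obtain ⟨h3, h4⟩ := hab x y h1 h2
    congr 1
    have hx' := mem_range.1 hx
    rw [Finset.sum_filter, Finset.sum_disjSum, Finset.sum_eq_zero (s := Ico (2 * U) X1)
      (fun n hn => by
        exact if_neg (fun h => h4 n (by have := (mem_Ico.1 hn).1; omega) h.symm)), add_zero,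
      Finset.sum_eq_single_of_mem (x - y) (mem_range.2 (by omega)) (fun d _ hd => by
        refine if_neg ?_
        simp only [Sum.elim_inl]; omega), if_pos (by simp only [Sum.elim_inl]; omega),
      Sum.elim_inl, Nat.cast_sub h3]
  · have h1 := mul_le_mul (sqrt_le L a ha) (sqrt_le L b hb) (Real.sqrt_nonneg _)
      (Real.sqrt_nonneg _)
    rw [Real.mul_self_sqrt hL0.le] at h1
    calc _ ≤ 52 * ((Y : ℝ) ^ (-κ) * L) * L := mul_le_mul_of_nonneg_left h1 (by positivity)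
      _ = _ := by ring

end Vale.Agent.P042
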